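import Vale.Agent.P060.Cons

/-!
# P060: basic lemmas
-/

namespace Vale.Agent.P060

open Finset Polynomial
open scoped BigOperators

theorem K_cases (a : K) : a = 0 ∨ a = 1 := by revert a; decide
@[simp] theorem K_add_self (a : K) : a + a = 0 := by revert a; decide
@[simp] theorem K_mul_self (a : K) : a * a = a := by revert a; decide
theorem K_ne_zero {a : K} : a ≠ 0 ↔ a = 1 := by revert a; decide

theorem add_self_K {W : Type*} [AddCommGroup W] [Module K W] (a : W) : a + a = 0 := by
  have : (1 + 1 : K) • a = 0 := by rw [K_add_self, zero_smul]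
  rwa [add_smul, one_smul] at this

theorem add_eq_zero_K {W : Type*} [AddCommGroup W] [Module K W] {a b : W} : a + b = 0 ↔ a = b := by
  constructor
  · intro h
    calc a = a + b + b := by rw [add_assoc, add_self_K, add_zero]
      _ = b := by rw [h, zero_add]
  · rintro rfl; exact add_self_K a

@[simp] theorem sgn_zero : sgn 0 = 1 := by simp [sgn]
@[simp] theorem sgn_one : sgn 1 = -1 := by simp [sgn]
theorem sgn_add (a b : K) : sgn (a + b) = sgn a * sgn b := by
  rcases K_cases a with rfl | rfl <;> rcases K_cases b with rfl | rfl <;> simp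
@[simp] theorem abs_sgn (a : K) : |sgn a| = 1 := by
  rcases K_cases a with rfl | rfl <;> simp
@[simp] theorem sgn_mul_self (a : K) : sgn a * sgn a = 1 := by
  rcases K_cases a with rfl | rfl <;> simp
@[simp] theorem sgn_sq (a : K) : sgn a ^ 2 = 1 := by rw [sq, sgn_mul_self]
theorem sgn_le_one (a : K) : sgn a ≤ 1 := by rcases K_cases a with rfl | rfl <;> simp
theorem sgn_sum {ι : Type*} (s : Finset ι) (f : ι → K) : sgn (∑ i ∈ s, f i) = ∏ i ∈ s, sgn (f i) := by
  classical
  induction s using Finset.induction_on with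
  | empty => simp
  | insert a s ha ih => rw [sum_insert ha, prod_insert ha, sgn_add, ih]

theorem ind_pos {P : Prop} (h : P) : ind P = 1 := by simp [ind, h]
theorem ind_neg {P : Prop} (h : ¬ P) : ind P = 0 := by simp [ind, h]
@[simp] theorem ind_true : ind True = 1 := ind_pos trivial
@[simp] theorem ind_false : ind False = 0 := ind_neg id
theorem ind_nonneg (P : Prop) : 0 ≤ ind P := by by_cases h : P <;> simp [ind, h]
theorem ind_le_one (P : Prop) : ind P ≤ 1 := by by_cases h : P <;> simp [ind, h]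
theorem abs_ind_le (P : Prop) : |ind P| ≤ 1 := by by_cases h : P <;> simp [ind, h]
theorem ind_and (P Q : Prop) : ind (P ∧ Q) = ind P * ind Q := by
  by_cases h : P <;> by_cases h' : Q <;> simp [ind, h, h']
theorem ind_not (P : Prop) : ind (¬ P) = 1 - ind P := by by_cases h : P <;> simp [ind, h]
theorem ind_mono {P Q : Prop} (h : P → Q) : ind P ≤ ind Q := by
  by_cases hP : P
  · rw [ind_pos hP, ind_pos (h hP)]
  · rw [ind_neg hP]; exact ind_nonneg _
theorem ind_congr {P Q : Prop} (h : P ↔ Q) : ind P = ind Q := by rw [propext h]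
theorem ind_or_le (P Q : Prop) : ind (P ∨ Q) ≤ ind P + ind Q := by
  by_cases h : P <;> by_cases h' : Q <;> simp [ind, h, h']
theorem ind_exists_le {ι : Type*} [Fintype ι] (P : ι → Prop) : ind (∃ i, P i) ≤ ∑ i, ind (P i) := by
  by_cases h : ∃ i, P i
  · obtain ⟨i, hi⟩ := h
    rw [ind_pos ⟨i, hi⟩, ← ind_pos hi]
    exact single_le_sum (f := fun i => ind (P i)) (fun j _ => ind_nonneg _) (mem_univ i)
  · rw [ind_neg h]; exact sum_nonneg fun j _ => ind_nonneg _
theorem ind_forall {ι : Type*} [Fintype ι] (P : ι → Prop) : ind (∀ i, P i) = ∏ i, ind (P i) := by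
  by_cases h : ∀ i, P i
  · rw [ind_pos h, prod_eq_one fun i _ => ind_pos (h i)]
  · rw [ind_neg h]
    obtain ⟨i, hi⟩ := not_forall.mp h
    exact (prod_eq_zero (mem_univ i) (ind_neg hi)).symm
@[simp] theorem ind_mul_self (P : Prop) : ind P * ind P = ind P := by rw [← ind_and, and_self]
theorem ind_ne_zero {P : Prop} : ind P ≠ 0 ↔ P := by by_cases h : P <;> simp [ind, h]
theorem ind_eq_sgn (a : K) : ind (a = 0) = (1 + sgn a) / 2 := by
  rcases K_cases a with rfl | rfl <;> simp [ind]

/-! ### expectations -/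

theorem expect_mono {α : Type*} [Fintype α] {f g : α → ℝ} (h : ∀ a, f a ≤ g a) :
    𝔼 a, f a ≤ 𝔼 a, g a := expect_le_expect fun a _ => h a

theorem expect_nonneg' {α : Type*} [Fintype α] {f : α → ℝ} (h : ∀ a, 0 ≤ f a) : 0 ≤ 𝔼 a, f a :=
  expect_nonneg fun a _ => h a

theorem expect_le_const {α : Type*} [Fintype α] {f : α → ℝ} {c : ℝ} (hc : 0 ≤ c)
    (h : ∀ a, f a ≤ c) : 𝔼 a, f a ≤ c := by
  rcases isEmpty_or_nonempty α with _ | _
  · simpa using hc
  · exact expect_le univ_nonempty fun a _ => h a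

theorem abs_expect_le' {α : Type*} [Fintype α] (f : α → ℝ) : |𝔼 a, f a| ≤ 𝔼 a, |f a| :=
  abs_expect_le _ _

theorem expect_eq_sum_div {α : Type*} [Fintype α] (f : α → ℝ) :
    𝔼 a, f a = (∑ a, f a) / Fintype.card α := by
  rw [expect_eq_sum_div_card, card_univ]

theorem expect_prod {α β : Type*} [Fintype α] [Fintype β] (f : α × β → ℝ) :
    𝔼 p, f p = 𝔼 a, 𝔼 b, f (a, b) := by
  rw [← expect_product', univ_product_univ]

theorem expect_equiv' {α β : Type*} [Fintype α] [Fintype β] (e : α ≃ β) (f : β → ℝ) :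
    𝔼 a, f (e a) = 𝔼 b, f b := Fintype.expect_equiv e _ _ fun _ => rfl

theorem expect_ind_eq {α : Type*} [Fintype α] (a : α) :
    𝔼 b, ind (b = a) = 1 / (Fintype.card α : ℝ) := by
  classical
  rw [expect_eq_sum_div, sum_eq_single a (fun b _ hb => ind_neg hb) (by simp), ind_pos rfl]

/-- disintegration along a map -/
theorem expect_fiber {α β : Type*} [Fintype α] [Fintype β] (p : α → β) (f : α → β → ℝ) :
    𝔼 a, f a (p a) = 𝔼 b, (Fintype.card β : ℝ) * 𝔼 a, ind (p a = b) * f a b := by
  classical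
  rcases isEmpty_or_nonempty β with hβ | hβ
  · have : IsEmpty α := Function.isEmpty p
    simp
  have hc : (Fintype.card β : ℝ) ≠ 0 := by positivity
  rw [← mul_expect, expect_comm, mul_expect]
  refine expect_congr rfl fun a _ => ?_
  rw [expect_eq_sum_div, sum_eq_single (p a) (fun b _ hb => by rw [ind_neg hb.symm, zero_mul])
    (by simp), ind_pos rfl]
  field_simp

theorem expect_pi_prod {ι : Type*} [Fintype ι] [DecidableEq ι] {α : ι → Type*} [∀ i, Fintype (α i)]
    (f : ∀ i, α i → ℝ) : 𝔼 a : (∀ i, α i), ∏ i, f i (a i) = ∏ i, 𝔼 b, f i b := by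
  simp only [expect_eq_sum_div]
  rw [prod_div_distrib, Fintype.card_pi, Nat.cast_prod, Finset.prod_univ_sum]
  simp

/-- resampling one coordinate -/
theorem expect_update {ι α : Type*} [Fintype ι] [DecidableEq ι] [Fintype α] (i : ι)
    (f : (ι → α) → ℝ) : 𝔼 a, f a = 𝔼 a, 𝔼 b, f (Function.update a i b) := by
  rcases isEmpty_or_nonempty α with hα | hα
  · have : IsEmpty (ι → α) := ⟨fun a => hα.false (a i)⟩
    simp
  let e : (ι → α) × α ≃ (ι → α) × α :=
    { toFun := fun p => (Function.update p.1 i p.2, p.1 i)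
      invFun := fun p => (Function.update p.1 i p.2, p.1 i)
      left_inv := fun p => by simp
      right_inv := fun p => by simp }
  have h1 := expect_equiv' e fun p => f p.1
  rw [expect_prod, expect_prod] at h1
  simp only [e, Equiv.coe_fn_mk, Fintype.expect_const] at h1
  exact h1.symm

/-- forgetting coordinates along an injective map of indices -/
theorem expect_comp_inj {ι ι' α : Type*} [Fintype ι] [DecidableEq ι] [Fintype ι'] [DecidableEq ι']
    [Fintype α] [Nonempty α] (u : ι → ι') (hu : Function.Injective u) (f : (ι → α) → ℝ) :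
    𝔼 a : ι' → α, f (a ∘ u) = 𝔼 b, f b := by
  classical
  let e1 : (ι' → α) ≃ ({j // j ∈ Set.range u} → α) × ({j // ¬ j ∈ Set.range u} → α) :=
    Equiv.piEquivPiSubtypeProd (fun j => j ∈ Set.range u) fun _ => α
  let e2 : ({j // j ∈ Set.range u} → α) ≃ (ι → α) :=
    Equiv.arrowCongr (Equiv.ofInjective u hu).symm (Equiv.refl α)
  have h1 := expect_equiv' e1 fun p => f (e2 p.1)
  rw [expect_prod] at h1
  simp only [Fintype.expect_const] at h1
  rw [expect_equiv' e2 f] at h1
  exact h1

@[simp] theorem pr_self {α : Type} (i : Fin 2) (x y : α) : pr i x y i = x := by simp [pr]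
@[simp] theorem pr_rev {α : Type} (i : Fin 2) (x y : α) : pr i x y i.rev = y := by
  fin_cases i <;> simp [pr]
theorem pr_eta {α : Type} (i : Fin 2) (A : Fin 2 → α) : pr i (A i) (A i.rev) = A := by
  funext k
  fin_cases i <;> fin_cases k <;> simp [pr]

def prEquiv {α : Type} (i : Fin 2) : α × α ≃ (Fin 2 → α) where
  toFun p := pr i p.1 p.2
  invFun A := (A i, A i.rev)
  left_inv p := by simp
  right_inv A := pr_eta i A

theorem expect_pr {α : Type} [Fintype α] (i : Fin 2) (f : (Fin 2 → α) → ℝ) :
    𝔼 A, f A = 𝔼 x, 𝔼 y, f (pr i x y) := by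
  rw [← expect_equiv' (prEquiv i) f, expect_prod]; rfl

theorem Dens.expect_marg_le {Ω : Type} [Fintype Ω] {hh : (Fin 2 → Ω) → ℝ} {Λ M : ℝ}
    (hd : Dens hh Λ M) (i : Fin 2) (f : Ω → ℝ) (hf : ∀ x, 0 ≤ f x) :
    𝔼 A, hh A * f (A i) ≤ M * 𝔼 x, f x := by
  rw [expect_pr i, mul_expect]
  refine expect_mono fun x => ?_
  simp only [pr_self]
  rw [← expect_mul]
  exact mul_le_mul_of_nonneg_right (hd.marg i x) (hf x)

theorem Dens.expect_le {Ω : Type} [Fintype Ω] {hh : (Fin 2 → Ω) → ℝ} {Λ M : ℝ}
    (hd : Dens hh Λ M) (f : (Fin 2 → Ω) → ℝ) (hf : ∀ A, 0 ≤ f A) :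
    𝔼 A, hh A * f A ≤ Λ * 𝔼 A, f A := by
  rw [mul_expect]
  exact expect_mono fun A => mul_le_mul_of_nonneg_right (hd.le A) (hf A)

theorem Dens.nonempty {Ω : Type} [Fintype Ω] {hh : (Fin 2 → Ω) → ℝ} {Λ M : ℝ}
    (hd : Dens hh Λ M) : Nonempty Ω := by
  by_contra h
  rw [not_nonempty_iff] at h
  have := hd.total
  simp at this

/-- weighted Cauchy-Schwarz -/
theorem expect_weighted_sq_le {α : Type*} [Fintype α] (w f : α → ℝ) (hw : ∀ a, 0 ≤ w a) :
    (𝔼 a, w a * f a) ^ 2 ≤ (𝔼 a, w a) * 𝔼 a, w a * f a ^ 2 := by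
  have h := Finset.expect_mul_sq_le_sq_mul_sq univ (fun a => √(w a)) fun a => √(w a) * f a
  have e1 : ∀ a, √(w a) * (√(w a) * f a) = w a * f a := fun a => by
    rw [← mul_assoc, Real.mul_self_sqrt (hw a)]
  have e2 : ∀ a, √(w a) ^ 2 = w a := fun a => Real.sq_sqrt (hw a)
  simpa only [e1, e2, mul_pow] using h

/-- the push-forward of the uniform measure under a surjective homomorphism is uniform -/
theorem expect_addHom {G H : Type*} [AddCommGroup G] [AddCommGroup H] [Fintype G] [Fintype H]
    (f : G →+ H) (hf : Function.Surjective f) (φ : H → ℝ) : 𝔼 x, φ (f x) = 𝔼 y, φ y := by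
  have h1 : ∀ y : H, 𝔼 x, φ (f x + y) = 𝔼 x, φ (f x) := by
    intro y
    obtain ⟨g, rfl⟩ := hf y
    have := expect_equiv' (Equiv.addRight g) fun x => φ (f x)
    simpa using this
  calc 𝔼 x, φ (f x) = 𝔼 y : H, 𝔼 x, φ (f x + y) := by simp only [h1, Fintype.expect_const]
    _ = 𝔼 x : G, 𝔼 y, φ (f x + y) := expect_comm _ _ _
    _ = 𝔼 x : G, 𝔼 y, φ y := by
        refine expect_congr rfl fun x _ => ?_
        simpa using expect_equiv' (Equiv.addLeft (f x)) φ
    _ = _ := Fintype.expect_const _

/-- fibres of a homomorphism have probability at most `1 / |range|` -/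
theorem expect_ind_addHom_le {G H : Type*} [AddCommGroup G] [AddCommGroup H] [Fintype G]
    (f : G →+ H) (y : H) : 𝔼 x, ind (f x = y) ≤ 1 / (Nat.card f.range : ℝ) := by
  classical
  have : Finite f.range := Finite.of_surjective _ f.rangeRestrict_surjective
  have := Fintype.ofFinite f.range
  have h := expect_addHom f.rangeRestrict f.rangeRestrict_surjective fun z => ind ((z : H) = y)
  simp only [AddMonoidHom.coe_rangeRestrict] at h
  rw [h, Nat.card_eq_fintype_card]
  by_cases hy : y ∈ f.range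
  · rw [← expect_ind_eq (⟨y, hy⟩ : f.range)]
    exact expect_mono fun z => ind_mono fun hz => Subtype.ext hz
  · have : ∀ z : f.range, ind ((z : H) = y) = 0 := fun z => ind_neg fun hz => hy (hz ▸ z.2)
    simp only [this, Fintype.expect_const]
    positivity

/-! ### characters -/

theorem expect_sgn_addHom {G : Type*} [AddCommGroup G] [Fintype G] (f : G →+ K) :
    𝔼 x, sgn (f x) = ind (f = 0) := by
  by_cases hf : f = 0
  · simp [hf]
  · rw [ind_neg hf]
    have hs : Function.Surjective f := by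
      obtain ⟨g, hg⟩ := DFunLike.ne_iff.mp hf
      intro y
      rcases K_cases y with rfl | rfl
      · exact ⟨0, map_zero f⟩
      · exact ⟨g, K_ne_zero.mp hg⟩
    rw [expect_addHom f hs, expect_eq_sum_div]
    have : ∑ a : K, sgn a = 0 := by
      have : (univ : Finset K) = {0, 1} := by decide
      rw [this, sum_pair (by decide)]; simp
    rw [this, zero_div]

theorem expect_sgn_linear {W : Type*} [AddCommGroup W] [Module K W] [Fintype W]
    (f : W →ₗ[K] K) : 𝔼 x, sgn (f x) = ind (f = 0) := by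
  have := expect_sgn_addHom f.toAddMonoidHom
  rw [ind_congr (Q := f = 0)] at this
  · exact this
  · constructor
    · intro h; ext x; exact DFunLike.congr_fun h x
    · rintro rfl; rfl

/-- a sum of a character over a finite subgroup-like set: version with an additive function -/
theorem expect_sgn_of_add {G : Type*} [AddCommGroup G] [Fintype G] (f : G → K)
    (hf : ∀ a b, f (a + b) = f a + f b) : 𝔼 x, sgn (f x) = ind (∀ x, f x = 0) := by
  have := expect_sgn_addHom (AddMonoidHom.mk' f hf)
  rw [ind_congr (Q := ∀ x, f x = 0)] at this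
  · exact this
  · constructor
    · intro h x; exact DFunLike.congr_fun h x
    · intro h; ext x; exact h x

theorem expect_sgn_dot {ι : Type*} [Fintype ι] [DecidableEq ι] (a : ι → K) :
    𝔼 b : ι → K, sgn (b ⬝ᵥ a) = ind (a = 0) := by
  rw [expect_sgn_of_add (fun b => b ⬝ᵥ a) fun b c => add_dotProduct _ _ _]
  refine ind_congr ⟨fun h => ?_, fun h b => by simp [h]⟩
  funext i
  simpa using h (Pi.single i 1)

/-- Fourier inversion for a perfect pairing `D` of a finite `K`-space with itself -/
theorem fourier_inv {W : Type*} [AddCommGroup W] [Module K W] [Fintype W] (D : W → W → K)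
    (h1 : ∀ a a' w, D (a + a') w = D a w + D a' w) (h2 : ∀ a w w', D a (w + w') = D a w + D a w')
    (h3 : ∀ w, (∀ a, D a w = 0) → w = 0) (f : W → ℝ) (w : W) :
    f w = ∑ a, (𝔼 w', f w' * sgn (D a w')) * sgn (D a w) := by
  classical
  have hc : (Fintype.card W : ℝ) ≠ 0 := by positivity
  have key : ∀ w', ∑ a, sgn (D a w') * sgn (D a w) = Fintype.card W * ind (w' = w) := by
    intro w'
    have := expect_sgn_of_add (fun a => D a (w' + w)) fun a b => h1 _ _ _
    rw [expect_eq_sum_div, div_eq_iff hc] at this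
    simp only [h2, sgn_add] at this
    rw [this, mul_comm]
    congr 1
    refine ind_congr ⟨fun h => add_eq_zero_K.mp (h3 _ fun a => by rw [h2]; exact h a), ?_⟩
    rintro rfl a
    simp
  simp only [expect_mul, mul_assoc]
  rw [← expect_sum_comm]
  simp only [← mul_sum, key]
  rw [expect_eq_sum_div, sum_eq_single w (fun b _ hb => by rw [ind_neg hb]; simp) (by simp),
    ind_pos rfl]
  field_simp

/-! ### the quadratic space -/

section Quad
variable {h : ℕ}

theorem chi_add (a b : GG h) : chi (a + b) = chi a + chi b + BB a b := by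
  simp only [chi, BB, Pi.add_apply, sum_add_distrib, mul_add, add_mul]
  have : ∑ i : Fin h, a (some (i, true)) * b (some (i, false)) =
      ∑ i : Fin h, b (some (i, false)) * a (some (i, true)) := by simp only [mul_comm]
  rw [this]; ring
theorem BB_comm (a b : GG h) : BB a b = BB b a := by
  simp only [BB]
  exact sum_congr rfl fun i _ => by ring
theorem BB_add_left (a b c : GG h) : BB (a + b) c = BB a c + BB b c := by
  simp only [BB, Pi.add_apply, ← sum_add_distrib]
  exact sum_congr rfl fun i _ => by ring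
theorem BB_add_right (a b c : GG h) : BB a (b + c) = BB a b + BB a c := by
  rw [BB_comm, BB_add_left, BB_comm b, BB_comm c]
theorem BB_smul_left (k : K) (a b : GG h) : BB (k • a) b = k * BB a b := by
  simp only [BB, Pi.smul_apply, smul_eq_mul, mul_sum]
  exact sum_congr rfl fun i _ => by ring
theorem BB_smul_right (k : K) (a b : GG h) : BB a (k • b) = k * BB a b := by
  rw [BB_comm, BB_smul_left, BB_comm]
@[simp] theorem BB_self (a : GG h) : BB a a = 0 := by
  simp only [BB]
  exact sum_eq_zero fun i _ => by rw [mul_comm, K_add_self]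
@[simp] theorem BB_zero_left (a : GG h) : BB 0 a = 0 := by simp [BB]
@[simp] theorem BB_zero_right (a : GG h) : BB a 0 = 0 := by simp [BB]
@[simp] theorem BB_e0_left (a : GG h) : BB e0 a = 0 := by simp [BB, e0]
@[simp] theorem BB_e0_right (a : GG h) : BB a e0 = 0 := by simp [BB, e0]
@[simp] theorem chi_e0 : chi (e0 : GG h) = 1 := by simp [chi, e0]
@[simp] theorem chi_zero : chi (0 : GG h) = 0 := by simp [chi]
theorem chi_add_e0 (a : GG h) : chi (a + e0) = chi a + 1 := by simp [chi_add]
theorem chi_add_smul_e0 (a : GG h) (k : K) : chi (a + k • e0) = chi a + k := by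
  rcases K_cases k with rfl | rfl <;> simp [chi_add]
theorem e0_ne_zero : (e0 : GG h) ≠ 0 := fun h0 => by simpa [e0] using congrFun h0 none

/-- the radical of `BB` is spanned by `e0` -/
theorem BB_radical {a : GG h} : (∀ b, BB a b = 0) ↔ ∀ k, a (some k) = 0 := by
  constructor
  · rintro ha ⟨i, _ | _⟩
    · have := ha (Pi.single (some (i, true)) 1)
      simp only [BB, Pi.single_apply] at this
      simpa using this
    · have := ha (Pi.single (some (i, false)) 1)
      simp only [BB, Pi.single_apply] at this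
      simpa using this
  · intro ha b
    simp [BB, ha]

theorem eq_smul_e0 {a : GG h} (ha : ∀ k, a (some k) = 0) : a = a none • e0 := by
  funext k
  cases k <;> simp [e0, ha]

theorem card_Ix : Fintype.card (Ix h) = 2 * h + 1 := by simp [mul_comm]
theorem card_GG : Fintype.card (GG h) = 2 ^ (2 * h + 1) := by
  rw [Fintype.card_fun, card_Ix, ZMod.card]

end Quad

/-! ### moment vectors -/

section Field
variable {F : Type} [Field F] [Fintype F] [Algebra K F] {e n h M : ℕ}

instance instACGSymT : AddCommGroup (SymT F M h) :=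
  @Submodule.addCommGroup K (Y F M →ₗ[K] Y F M →ₗ[K] GG h) _ LinearMap.addCommGroup _ (SymT F M h)

omit [Fintype F] in
theorem charTwo_F : CharP F 2 := charP_of_injective_algebraMap (algebraMap K F).injective 2

omit [Fintype F] in
theorem ev_mem (t : F) : ev M t ∈ XX F M := Submodule.subset_span ⟨t, rfl⟩

omit [Fintype F] in
@[simp] theorem par_ev (t : F) : par (ev M t) = 1 := by
  simpa [par, ev] using Classical.choose_spec (exists_varpi (F := F))

omit [Fintype F] in
theorem algebraMap_par {z : Y F M} (hz : z ∈ XX F M) : algebraMap K F (par z) = z 0 := by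
  induction hz using Submodule.span_induction with
  | mem x hx => obtain ⟨t, rfl⟩ := hx; rw [par_ev]; simp [ev]
  | zero => simp
  | add x y _ _ hx hy => simp [hx, hy]
  | smul a x _ hx => rw [map_smul, smul_eq_mul, map_mul, hx, Pi.smul_apply, Algebra.smul_def]

omit [Fintype F] [Algebra K F] in
@[simp] theorem trunc_ev (t : F) : trunc e (ev (4 * e) t) = ev (3 * e) t := rfl

omit [Fintype F] in
theorem trunc_mem {z : Y F (4 * e)} (hz : z ∈ XX F (4 * e)) : trunc e z ∈ XX F (3 * e) := by
  induction hz using Submodule.span_induction with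
  | mem x hx => obtain ⟨t, rfl⟩ := hx; exact ev_mem t
  | zero => simp
  | add x y _ _ hx hy => rw [map_add]; exact add_mem hx hy
  | smul a x _ hx => rw [LinearMap.map_smul_of_tower]; exact Submodule.smul_mem _ _ hx

omit [Fintype F] in
theorem exists_trunc {z : Y F (3 * e)} (hz : z ∈ XX F (3 * e)) :
    ∃ y ∈ XX F (4 * e), trunc e y = z := by
  induction hz using Submodule.span_induction with
  | mem x hx => obtain ⟨t, rfl⟩ := hx; exact ⟨_, ev_mem t, rfl⟩
  | zero => exact ⟨0, zero_mem _, map_zero _⟩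
  | add x y _ _ hx hy =>
    obtain ⟨a, ha, rfl⟩ := hx
    obtain ⟨b, hb, rfl⟩ := hy
    exact ⟨a + b, add_mem ha hb, map_add _ _ _⟩
  | smul a x _ hx =>
    obtain ⟨b, hb, rfl⟩ := hx
    exact ⟨a • b, Submodule.smul_mem _ _ hb, LinearMap.map_smul_of_tower _ _ _⟩

omit [Fintype F] in
@[simp] theorem par_trunc (z : Y F (4 * e)) : par (trunc e z) = par z := rfl

omit [Fintype F] [Algebra K F] in
theorem pair_ev (t : F) {f : F[X]} (hf : f.natDegree ≤ M) : pair (ev M t) f = f.eval t := by
  rw [eval_eq_sum_range' (Nat.lt_succ_of_le hf), pair, ← Fin.sum_univ_eq_sum_range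
    (fun i => f.coeff i * t ^ i)]
  rfl

omit [Fintype F] [Algebra K F] in
theorem pair_add_left (z z' : Y F M) (f : F[X]) : pair (z + z') f = pair z f + pair z' f := by
  simp [pair, mul_add, sum_add_distrib]
omit [Fintype F] [Algebra K F] in
theorem pair_smul_left (a : F) (z : Y F M) (f : F[X]) : pair (a • z) f = a * pair z f := by
  simp [pair, mul_sum, mul_left_comm]
omit [Fintype F] [Algebra K F] in
theorem pair_add_right (z : Y F M) (f g : F[X]) : pair z (f + g) = pair z f + pair z g := by
  simp [pair, add_mul, sum_add_distrib]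
omit [Fintype F] [Algebra K F] in
theorem pair_smul_right (a : F) (z : Y F M) (f : F[X]) : pair z (a • f) = a * pair z f := by
  simp [pair, mul_sum, mul_assoc]
omit [Fintype F] [Algebra K F] in
@[simp] theorem pair_zero_left (f : F[X]) : pair (0 : Y F M) f = 0 := by simp [pair]
omit [Fintype F] [Algebra K F] in
@[simp] theorem pair_zero_right (z : Y F M) : pair z 0 = 0 := by simp [pair]
omit [Fintype F] [Algebra K F] in
theorem pair_X_pow (z : Y F M) (i : Fin (M + 1)) : pair z (X ^ (i : ℕ)) = z i := by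
  simp only [pair, coeff_X_pow]
  rw [sum_eq_single i (fun j _ hj => by simp [Fin.val_inj, hj]) (by simp)]
  simp
omit [Fintype F] [Algebra K F] in
@[simp] theorem pair_one (z : Y F M) : pair z 1 = z 0 := by simpa using pair_X_pow z 0

omit [Fintype F] [Algebra K F] in
theorem pair_trunc (z : Y F (4 * e)) {f : F[X]} (hf : f.natDegree ≤ 3 * e) :
    pair (trunc e z) f = pair z f := by
  have h1 : 3 * e + 1 ≤ 4 * e + 1 := by omega
  simp only [pair]
  symm
  rw [← sum_subset (subset_univ (univ.map (Fin.castLEEmb h1))), sum_map]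
  · rfl
  · intro i _ hi
    have : 3 * e < i := by
      by_contra hlt
      exact hi (mem_map.mpr ⟨⟨i, by omega⟩, mem_univ _, rfl⟩)
    rw [coeff_eq_zero_of_natDegree_lt (by omega), zero_mul]

omit [Fintype F] [Algebra K F] in
theorem poly_coeff (a : Y F M) (i : Fin (M + 1)) : (poly a).coeff i = a i := by
  simp only [poly, finsetSum_coeff, coeff_monomial]
  rw [sum_eq_single i (fun j _ hj => by simp [Fin.val_inj, hj]) (by simp)]
  simp
omit [Fintype F] [Algebra K F] in
theorem poly_natDegree_le (a : Y F M) : (poly a).natDegree ≤ M :=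
  natDegree_sum_le_of_forall_le _ _ fun i _ => (natDegree_monomial_le _).trans (by omega)
omit [Fintype F] [Algebra K F] in
theorem poly_add (a b : Y F M) : poly (a + b) = poly a + poly b := by
  simp [poly, sum_add_distrib]
omit [Fintype F] [Algebra K F] in
theorem poly_smul (c : F) (a : Y F M) : poly (c • a) = c • poly a := by
  simp [poly, Finset.smul_sum, Polynomial.smul_monomial]
omit [Fintype F] [Algebra K F] in
@[simp] theorem poly_zero : poly (0 : Y F M) = 0 := by simp [poly]
omit [Fintype F] [Algebra K F] in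
theorem poly_of_natDegree_le {f : F[X]} (hf : f.natDegree ≤ M) :
    poly (fun i : Fin (M + 1) => f.coeff i) = f := by
  rw [poly, Fin.sum_univ_eq_sum_range (fun i => monomial i (f.coeff i))]
  exact (as_sum_range' f _ (Nat.lt_succ_of_le hf)).symm
omit [Fintype F] [Algebra K F] in
theorem poly_single (i : Fin (M + 1)) : poly (Pi.single i 1 : Y F M) = X ^ (i : ℕ) := by
  rw [poly, sum_eq_single i (fun j _ hj => by simp [hj]) (by simp)]
  simp [monomial_one_right_eq_X_pow]

omit [Fintype F] [Algebra K F] in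
theorem cpoly_natDegree_le (c : Frame F e n) (o : Option (Fin n)) : (cpoly c o).natDegree ≤ e := by
  cases o
  · simp [cpoly]
  · exact poly_natDegree_le _

omit [Fintype F] [Algebra K F] in
theorem poly_cstar (c : Frame F e n) (α : Option (Fin n) → F) :
    poly (cstar c α) = ∑ o, α o • cpoly c o := by
  let P : Y F e →ₗ[F] F[X] := { toFun := poly, map_add' := poly_add, map_smul' := poly_smul }
  change P (α none • Pi.single 0 1 + ∑ a, α (some a) • c a) = _
  rw [map_add, map_sum, Fintype.sum_option]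
  simp only [map_smul]
  simp [P, poly_single, cpoly]

omit [Fintype F] [Algebra K F] in
theorem U_apply (c : Frame F e n) (z : Y F (4 * e)) (idx : Fin 4 → Option (Fin n)) :
    U c z idx = pair z (∏ j, cpoly c (idx j)) := rfl

omit [Fintype F] [Algebra K F] in
theorem hat_pt (c : Frame F e n) (t : F) (o : Option (Fin n)) :
    hat (pt c t) o = (cpoly c o).eval t := by
  cases o <;> simp [hat, pt, cpoly]

omit [Fintype F] [Algebra K F] in
@[simp] theorem U_ev (c : Frame F e n) (t : F) : U c (ev (4 * e) t) = Phi (pt c t) := by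
  funext idx
  rw [U_apply, pair_ev, eval_prod]
  · simp only [Phi, hat_pt]
  · refine (natDegree_prod_le _ _).trans ?_
    refine (sum_le_sum fun j _ => cpoly_natDegree_le c (idx j)).trans ?_
    simp

omit [Fintype F] [Algebra K F] in
theorem U_none (c : Frame F e n) (z : Y F (4 * e)) : U c z (fun _ => none) = z 0 := by
  simp [U_apply, cpoly]

omit [Fintype F] in
theorem par_eq_of_U {c c' : Frame F e n} {y y' : Y F (4 * e)} (h : U c y = U c' y') :
    par y = par y' := by
  have : y 0 = y' 0 := by rw [← U_none c y, h, U_none]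
  simp [par, this]

omit [Fintype F] in
theorem row_symm (x : Vtx F e n h) (t t' : F) :
    row x (ev (3 * e) t) t' = row x (ev (3 * e) t') t := x.2.2.2 _ _

omit [Fintype F] in
theorem adj_symm {x y : Vtx F e n h} (hxy : Adj x y) : Adj y x := by
  obtain ⟨y₁, h₁, y₂, h₂, hp, hU, s, hs⟩ := hxy
  refine ⟨y₂, h₂, y₁, h₁, by rw [← par_eq_of_U hU, hp], hU.symm, s + 1, fun z hz hpz => ?_⟩
  obtain ⟨a, b⟩ := hs z hz hpz
  refine ⟨by rw [b, add_assoc], by rw [a, add_assoc, add_assoc, K_add_self, add_zero]⟩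

omit [Fintype F] in
theorem adj_irrefl (x : Vtx F e n h) : ¬ Adj x x := by
  rintro ⟨y₁, h₁, y₂, h₂, hp, hU, s, hs⟩
  have a := (hs y₂ h₂ (by rw [← par_eq_of_U hU, hp])).1
  have b := (hs y₁ h₁ hp).2
  rw [hU, a, x.2.2.2 (trunc e y₁)] at b
  revert b
  generalize chi (x.T (trunc e y₂) (trunc e y₁)) + s = k
  revert k
  decide

variable (F e n h) in
/-- the triangle-free graph -/
def HH : SimpleGraph (Vtx F e n h) where
  Adj := Adj
  symm := ⟨fun _ _ => adj_symm⟩
  loopless := ⟨adj_irrefl⟩

omit [Fintype F] in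
theorem HH_cliqueFree : (HH F e n h).CliqueFree 3 := by
  classical
  intro s hs
  obtain ⟨x, y, z, hxy, hxz, hyz, -⟩ := SimpleGraph.is3Clique_iff.mp hs
  obtain ⟨a₁, ha₁, a₂, ha₂, hpa, hUa, s₁, h₁⟩ := hxy
  obtain ⟨b₁, hb₁, b₂, hb₂, hpb, hUb, s₂, h₂⟩ := hxz
  obtain ⟨c₁, hc₁, c₂, hc₂, hpc, hUc, s₃, h₃⟩ := hyz
  have hpa' : par a₂ = 1 := by rw [← par_eq_of_U hUa, hpa]
  have hpb' : par b₂ = 1 := by rw [← par_eq_of_U hUb, hpb]
  have hpc' : par c₂ = 1 := by rw [← par_eq_of_U hUc, hpc]
  have e1 := (h₁ b₁ hb₁ hpb).1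
  have e2 := (h₂ a₁ ha₁ hpa).1
  have e3 := (h₁ c₁ hc₁ hpc).2
  have e4 := (h₃ a₂ ha₂ hpa').1
  have e5 := (h₂ c₂ hc₂ hpc').2
  have e6 := (h₃ b₂ hb₂ hpb').2
  rw [x.2.2.2 (trunc e b₁), hUa, e4, y.2.2.2 (trunc e c₁)] at e2
  rw [hUc, e5] at e3
  rw [hUb, e6, z.2.2.2 (trunc e c₂)] at e1
  revert e1 e2 e3
  generalize chi (x.T (trunc e a₁) (trunc e b₁)) = k₁
  generalize chi (y.T (trunc e a₂) (trunc e c₁)) = k₂
  generalize chi (z.T (trunc e b₂) (trunc e c₂)) = k₃
  clear h₁ h₂ h₃ e4 e5 e6
  revert k₁ k₂ k₃ s₁ s₂ s₃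
  decide

end Field

end Vale.Agent.P060
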