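import Mathlib

/-!
# P060: the construction and all interface predicates (definitions only)
-/

namespace Vale.Agent.P060

open Finset Polynomial
open scoped BigOperators

abbrev K := ZMod 2

/-- the sign character of `K = F_2` -/
noncomputable def sgn (a : K) : ℝ := if a = 0 then 1 else -1

open Classical in
/-- real indicator of a proposition -/
noncomputable def ind (P : Prop) : ℝ := if P then 1 else 0

/-! ## Abstract layer: weights on ordered pairs `A : Fin 2 → Ω` -/

section Abstract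
variable {Ω : Type} [Fintype Ω]

/-- the pair with `x` in position `i` and `y` in the other position -/
def pr {α : Type} (i : Fin 2) (x y : α) : Fin 2 → α := fun k => if k = i then x else y

/-- a probability density on pairs, bounded by `Λ`, with both marginal densities at most `M` -/
structure Dens (hh : (Fin 2 → Ω) → ℝ) (Λ M : ℝ) : Prop where
  nonneg : ∀ A, 0 ≤ hh A
  le : ∀ A, hh A ≤ Λ
  marg : ∀ i x, 𝔼 y, hh (pr i x y) ≤ M
  total : 𝔼 A, hh A = 1

/-- two pairs conflict when all four cross pairs are adjacent -/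
def Conf (H : SimpleGraph Ω) (A B : Fin 2 → Ω) : Prop := ∀ i j, H.Adj (A i) (B j)

/-- supersaturation of conflicts among non-adjacent pairs -/
def SS (H : SimpleGraph Ω) (Λ M η : ℝ) : Prop :=
  ∀ hh : (Fin 2 → Ω) → ℝ, Dens hh Λ M → (∀ A, H.Adj (A 0) (A 1) → hh A = 0) →
    η ≤ 𝔼 A, 𝔼 B, hh A * hh B * ind (Conf H A B)

variable {L V : Type} [Fintype L] [Fintype V]

/-- `k`-wise independence and uniformity of the points `p x t` (`t` a label) of a uniform vertex -/
def Indep (p : Ω → L → V) (k : ℕ) : Prop :=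
  ∀ (ι : Type) [Fintype ι] (τ : ι → L), Function.Injective τ → Fintype.card ι ≤ k →
    ∀ w : ι → V, 𝔼 x, ind (∀ a, p x (τ a) = w a) = 1 / (Fintype.card V : ℝ) ^ Fintype.card ι

/-- density (given the vertex `x` in position `i`) of the points of the other vertex at the
labels `τ` -/
noncomputable def dens (hh : (Fin 2 → Ω) → ℝ) (p : Ω → L → V) (i : Fin 2) {ι : Type} [Fintype ι]
    (x : Ω) (τ : ι → L) (w : ι → V) : ℝ :=
  (Fintype.card V : ℝ) ^ Fintype.card ι * 𝔼 y, hh (pr i x y) * ind (∀ a, p y (τ a) = w a)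

/-- the density `dens` exceeds `Λ₁` only on mass `δ` -/
def Trim (hh : (Fin 2 → Ω) → ℝ) (p : Ω → L → V) (n : ℕ) (Λ₁ δ : ℝ) : Prop :=
  ∀ (i : Fin 2) (ι : Type) [Fintype ι] [DecidableEq ι], Fintype.card ι ≤ n →
    𝔼 A, hh A * 𝔼 τ : ι → L, ind (Λ₁ < dens hh p i (A i) τ fun a => p (A i.rev) (τ a)) ≤ δ

/-- near-uniformity of up to `n` points; the label number `a` is drawn on side `sd a` with the
label density `lw A (sd a)` -/
def Unif {𝒜 : Type} [Fintype 𝒜] (w : 𝒜 → ℝ) (lw : 𝒜 → Fin 2 → L → ℝ) (p : 𝒜 → Fin 2 → L → V)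
    (n : ℕ) (ε : ℝ) : Prop :=
  ∀ (ι : Type) [Fintype ι] [DecidableEq ι] (sd : ι → Fin 2), Fintype.card ι ≤ n →
    ∀ Z : (ι → V) → ℝ, (∀ v, |Z v| ≤ 1) →
      |(𝔼 A, w A * 𝔼 τ : ι → L, (∏ a, lw A (sd a) (τ a)) * Z fun a => p A (sd a) (τ a)) -
        𝔼 v, Z v| ≤ ε

end Abstract

/-- slots: `(i, j)` is vertex `i` of the own pair facing vertex `j` of the other pair -/
abbrev Slot := Fin 2 × Fin 2

def eta (m : K × K) : K := m.1 + m.2

/-- admissible marks -/
def Adm (lam : Slot → K × K) : Prop := ∀ j, eta (lam (0, j)) = eta (lam (1, j))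

/-! ## Sign bits -/

/-- the bits of a labelled pair; also used for coefficient vectors of characters -/
structure Bits where
  X : Slot → K
  T : Slot → K
  O : Slot → K
  D : Slot → K
  P : Fin 2 → K
  Pt : Fin 2 → K

def Bits.dot (γ β : Bits) : K :=
  ∑ s, (γ.X s * β.X s + γ.T s * β.T s + γ.O s * β.O s + γ.D s * β.D s) +
    ∑ i, (γ.P i * β.P i + γ.Pt i * β.Pt i)

def Bits.marks (β : Bits) : Slot → K × K := fun s => (β.X s, β.T s)

/-- the shift of the affine isometry from vertex `i` of the source to vertex `j` of the target -/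
def Bits.shift (β β' : Bits) (i j : Fin 2) : K := β.D (i, j) + β'.O (j, i)

def Bits.Half (β β' : Bits) : Prop :=
  (∀ i j, β'.X (j.rev, i) = β.P i + β.shift β' i j) ∧
  (∀ j, β.T (0, j) + β.shift β' 0 j = β.T (1, j) + β.shift β' 1 j) ∧ ∀ i, β.Pt i = 0

/-- the twenty sign equations -/
def Bits.SignEq (β β' : Bits) : Prop :=
  (∀ i j, β.shift β' i j + β'.shift β j i = 1) ∧ β.Half β' ∧ β'.Half β

/-- characters that are proved to be small -/
def Bits.Small (γ : Bits) : Prop :=
  (∃ i, γ.P i ≠ 0 ∨ γ.Pt i ≠ 0) ∨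
  (∃ s, γ.X s = 0 ∧ (γ.T s ≠ 0 ∨ γ.O s ≠ 0 ∨ γ.D s ≠ 0)) ∨
  (∃ s, (γ.T s ≠ 0 ∧ γ.O s ≠ 0) ∨ (γ.T s ≠ 0 ∧ γ.D s ≠ 0) ∨ (γ.O s ≠ 0 ∧ γ.D s ≠ 0))

/-! ## The quadratic space -/

abbrev Ix (h : ℕ) := Option (Fin h × Bool)
abbrev GG (h : ℕ) := Ix h → K

section Quad
variable {h : ℕ}

def chi (a : GG h) : K := a none + ∑ i : Fin h, a (some (i, false)) * a (some (i, true))

def BB (a b : GG h) : K :=
  ∑ i : Fin h, (a (some (i, false)) * b (some (i, true)) + a (some (i, true)) * b (some (i, false)))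

def e0 : GG h := Pi.single none 1

/-- `GG`-valued data of a labelled pair -/
structure GD (h : ℕ) where
  x : Slot → GG h
  τ : Slot → GG h
  o : Slot → GG h
  d : Slot → GG h
  π : Fin 2 → GG h
  v : Fin 2 → GG h

def GD.bits (α : GD h) : Bits where
  X s := chi (α.x s)
  T s := chi (α.τ s)
  O s := chi (α.o s)
  D s := chi (α.d s)
  P i := chi (α.π i)
  Pt i := BB (α.π i) (α.v i) + chi (α.v i)

def GD.SelEq (α : GD h) : Prop := ∀ s, chi (α.τ s + α.v s.1) = chi (α.τ s)

/-- genericity -/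
def GD.Gen (α : GD h) : Prop :=
  (∀ (s : Slot) (a b c d : K), a • (α.π s.1 + α.τ s) + b • (α.d s + α.τ s) + c • α.v s.1 + d • e0 = 0 →
    a = 0 ∧ b = 0 ∧ c = 0) ∧
  (∀ (j : Fin 2) (a b c d : K), a • (α.o (j, 0) + α.x (j.rev, 0)) + b • (α.o (j, 1) + α.x (j.rev, 1)) +
    c • (α.x (j.rev, 0) + α.x (j.rev, 1)) + d • e0 = 0 → a = 0 ∧ b = 0)

/-- a family of affine maps of `GG h`, one for each (source vertex, target vertex) -/
abbrev Gs (h : ℕ) := Slot → (GG h →ₗ[K] GG h) × GG h

/-- both families consist of isometries of `chi` up to shifts that add up to `1` on each edge -/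
def AdmG (g g' : Gs h) : Prop :=
  ∃ s : Slot → K, (∀ i j a, chi ((g (i, j)).1 a + (g (i, j)).2) = chi a + s (i, j)) ∧
    ∀ i j a, chi ((g' (j, i)).1 a + (g' (j, i)).2) = chi a + s (i, j) + 1

end Quad

/-! ## Moment vectors, frames, vertices -/

section Field
variable (F : Type) [Field F] [Fintype F] [Algebra K F]

abbrev Y (M : ℕ) := Fin (M + 1) → F

variable {F}

def ev (M : ℕ) (t : F) : Y F M := fun i => t ^ (i : ℕ)

variable (F) in
def XX (M : ℕ) : Submodule K (Y F M) := Submodule.span K (Set.range (ev (F := F) M))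

noncomputable instance (M : ℕ) : Fintype (XX F M) := Fintype.ofFinite _

omit [Fintype F] in
theorem exists_varpi : ∃ φ : F →ₗ[K] K, φ 1 = 1 := by
  obtain ⟨φ, hφ⟩ := Module.forall_dual_apply_eq_zero_iff K (1 : F) |>.not.mpr one_ne_zero
    |> not_forall.mp
  refine ⟨φ, ?_⟩
  revert hφ
  generalize φ 1 = a
  revert a
  decide

/-- parity: a `K`-linear functional with `par (ev M t) = 1` -/
noncomputable def par {M : ℕ} : Y F M →ₗ[K] K :=
  (Classical.choose (exists_varpi (F := F))).comp (LinearMap.proj 0)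

def trunc (e : ℕ) : Y F (4 * e) →ₗ[F] Y F (3 * e) :=
  LinearMap.funLeft F F (Fin.castLE (by omega))

/-- the pairing of a moment vector with a polynomial (meaningful in degree at most `M`) -/
noncomputable def pair {M : ℕ} (z : Y F M) (f : F[X]) : F := ∑ i : Fin (M + 1), f.coeff i * z i

noncomputable def poly {M : ℕ} (a : Y F M) : F[X] := ∑ i : Fin (M + 1), monomial i (a i)

/-- `z` kills all multiples of `ω` of degree at most `N` -/
def Killed {M : ℕ} (z : Y F M) (ω : F[X]) (N : ℕ) : Prop :=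
  ∀ g : F[X], (ω * g).natDegree ≤ N → pair z (ω * g) = 0

/-- `Low M ω z`: `z` is a moment vector killed by all multiples of `ω` of degree at most `M` -/
def Low (M : ℕ) (ω : F[X]) (z : Y F M) : Prop := z ∈ XX F M ∧ Killed z ω M

/-- the kernel of the Hankel form of `z` on (degree at most `e`) × (degree at most `3e`) -/
def Ker (e : ℕ) (z : Y F (4 * e)) : Submodule F (Y F e) where
  carrier := {a | ∀ g : F[X], g.natDegree ≤ 3 * e → pair z (poly a * g) = 0}
  add_mem' := by
    intro a b ha hb g hg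
    have h1 := ha g hg
    have h2 := hb g hg
    simp only [pair, poly, Pi.add_apply, map_add, Finset.sum_add_distrib, add_mul, coeff_add] at *
    rw [h1, h2, add_zero]
  zero_mem' := by intro g _; simp [pair, poly]
  smul_mem' := by
    intro c a ha g hg
    have h1 := ha g hg
    have : poly (c • a) = c • poly a := by
      simp [poly, Finset.smul_sum, Polynomial.smul_monomial]
    rw [this, smul_mul_assoc]
    simp only [pair, coeff_smul, smul_eq_mul, mul_assoc, ← Finset.mul_sum] at *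
    rw [h1, mul_zero]

/-- Hankel rank at most `R` -/
def LowRk (e R : ℕ) (z : Y F (4 * e)) : Prop := e + 1 ≤ Module.finrank F (Ker e z) + R

/-- functions of the label of the form (linear functional)(`ev M t`) -/
def IsCode (M : ℕ) (c : F → K) : Prop := ∃ φ : Y F M →ₗ[K] K, ∀ t, c t = φ (ev M t)

variable (F) in
def Weil (M : ℕ) (β : ℝ) : Prop :=
  ∀ c : F → K, IsCode M c → (∃ k, ∀ t, c t = k) ∨ |𝔼 t, sgn (c t)| ≤ β

variable (F) in
abbrev Frame (e n : ℕ) := Fin n → Y F e

variable (F) in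
abbrev TV (n : ℕ) := (Fin 4 → Option (Fin n)) → F

variable {e n h : ℕ}

noncomputable def cpoly (c : Frame F e n) : Option (Fin n) → F[X]
  | none => 1
  | some a => poly (c a)

noncomputable def pt (c : Frame F e n) (t : F) : Fin n → F := fun a => (poly (c a)).eval t

def hat (v : Fin n → F) : Option (Fin n) → F
  | none => 1
  | some a => v a

def Phi (v : Fin n → F) : TV F n := fun idx => ∏ j, hat v (idx j)

noncomputable def U (c : Frame F e n) : Y F (4 * e) →ₗ[F] TV F n where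
  toFun z idx := pair z (∏ j, cpoly c (idx j))
  map_add' z z' := by
    funext idx
    simp [pair, mul_add, Finset.sum_add_distrib]
  map_smul' a z := by
    funext idx
    simp [pair, Finset.mul_sum, mul_left_comm]

/-- linear combinations of the frame polynomials (the coordinate `none` is the constant `1`) -/
def cstar (c : Frame F e n) : (Option (Fin n) → F) →ₗ[F] Y F e where
  toFun α := α none • Pi.single 0 1 + ∑ a, α (some a) • c a
  map_add' α β := by
    simp only [Pi.add_apply, add_smul, Finset.sum_add_distrib]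
    abel
  map_smul' a α := by
    simp [mul_smul, Finset.smul_sum]

def Surj (c : Frame F e n) : Prop := Function.Surjective (cstar c)

def PairGood (R : ℕ) (c c' : Frame F e n) : Prop :=
  e + 1 ≤ Module.finrank F ((LinearMap.ker (cstar c')).map (cstar c)) + R

variable (F) in
/-- symmetric `K`-bilinear maps -/
def SymT (M h : ℕ) : Submodule K (Y F M →ₗ[K] Y F M →ₗ[K] GG h) where
  carrier := {T | ∀ a b, T a b = T b a}
  add_mem' := by intro S T hS hT a b; simp [hS a b, hT a b]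
  zero_mem' := by intro a b; simp
  smul_mem' := by intro c T hT a b; simp [hT a b]

variable (F) in
/-- the random part of a vertex, given its frame -/
abbrev UT (e n h : ℕ) := (TV F n →ₗ[K] GG h) × SymT F (3 * e) h

instance : Finite (TV F n →ₗ[K] GG h) := DFunLike.finite _
instance {M : ℕ} : Finite (Y F M →ₗ[K] GG h) := DFunLike.finite _
instance {M : ℕ} : Finite (Y F M →ₗ[K] Y F M →ₗ[K] GG h) := DFunLike.finite _
noncomputable instance : Fintype (TV F n →ₗ[K] GG h) := Fintype.ofFinite _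
noncomputable instance {M : ℕ} : Fintype (SymT F M h) := Fintype.ofFinite _
instance : Finite (GG h →ₗ[K] GG h) := DFunLike.finite _
noncomputable instance : Fintype (GG h →ₗ[K] GG h) := Fintype.ofFinite _

variable (F) in
/-- vertices -/
abbrev Vtx (e n h : ℕ) := Frame F e n × UT F e n h

abbrev Vtx.c (x : Vtx F e n h) : Frame F e n := x.1
abbrev Vtx.u (x : Vtx F e n h) : TV F n →ₗ[K] GG h := x.2.1
abbrev Vtx.T (x : Vtx F e n h) : Y F (3 * e) →ₗ[K] Y F (3 * e) →ₗ[K] GG h := x.2.2.1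

/-- the point of the vertex `x` with label `t` -/
noncomputable def vp (x : Vtx F e n h) (t : F) : Fin n → F := pt x.c t

def Adj (x y : Vtx F e n h) : Prop :=
  ∃ y₁ ∈ XX F (4 * e), ∃ y₂ ∈ XX F (4 * e), par y₁ = 1 ∧ U x.c y₁ = U y.c y₂ ∧ ∃ s : K,
    ∀ z ∈ XX F (4 * e), par z = 1 →
      chi (y.u (U x.c z)) = chi (x.T (trunc e y₁) (trunc e z)) + s ∧
      chi (x.u (U y.c z)) = chi (y.T (trunc e y₂) (trunc e z)) + s + 1

/-- `u` of `y` at the point of `x` with label `t` -/
noncomputable def xi (x y : Vtx F e n h) (t : F) : GG h := y.u (Phi (vp x t))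

noncomputable def row (x : Vtx F e n h) (r : Y F (3 * e)) (t : F) : GG h := x.T r (ev (3 * e) t)

/-- own characters of a vertex, as functions of the label -/
noncomputable def ownChar (x : Vtx F e n h) (a b : GG h) (ρ : Ix h → Y F (3 * e)) (t : F) : K :=
  a ⬝ᵥ xi x x t + b ⬝ᵥ row x (ev (3 * e) t) t + ∑ k, row x (ρ k) t k

def Corr (γ : ℝ) (G : F → ℝ) (c : F → K) : Prop := γ < |𝔼 t, sgn (c t) * G t|

/-- no nonzero own character is in the large spectrum of `G`, or a difference of two codewords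
in it -/
def NotBad (r : ℕ) (γ : ℝ) (x : Vtx F e n h) (G : F → ℝ) : Prop :=
  ∀ ω : F[X], ω ≠ 0 → ω.natDegree ≤ r → ∀ (a b : GG h) (ρ : Ix h → Y F (3 * e)),
    (∀ k, Low (3 * e) ω (ρ k)) → (a ≠ 0 ∨ b ≠ 0 ∨ ρ ≠ 0) →
      ¬ Corr γ G (ownChar x a b ρ) ∧
      ∀ c : F → K, IsCode (4 * e) c → Corr γ G c → ¬ Corr γ G (c + ownChar x a b ρ)

/-- own data: `(o, d, rows)` -/
abbrev OW (ι : Type) (h : ℕ) := GG h × GG h × (ι → GG h)

def OW.dot {ι : Type} [Fintype ι] (a w : OW ι h) : K :=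
  a.1 ⬝ᵥ w.1 + a.2.1 ⬝ᵥ w.2.1 + ∑ l, a.2.2 l ⬝ᵥ w.2.2 l

noncomputable def own {ι : Type} (x : Vtx F e n h) (r : ι → Y F (3 * e)) (t : F) : OW ι h :=
  (xi x x t, row x (ev (3 * e) t) t, fun l => row x (r l) t)

def GoodV (r : ℕ) (γ : ℝ) (x : Vtx F e n h) : Prop := Surj x.c ∧ NotBad r γ x fun _ => 1

def GoodPair (R r : ℕ) (γ : ℝ) (A : Fin 2 → Vtx F e n h) : Prop :=
  ∀ i, GoodV r γ (A i) ∧ PairGood R (A i).c (A i.rev).c

variable (F) in
/-- side data of a pair: `r i none` is the odd vector, `r i (some l)` a basis of the even part -/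
structure Side (e h : ℕ) where
  m : ℕ
  r : Fin 2 → Option (Fin m) → Y F (3 * e)
  ρ : Fin 2 → Fin m → GG h
  v : Fin 2 → GG h

def SideOK (r : ℕ) (sd : Side F e h) : Prop :=
  ∀ i, LinearIndependent K (sd.r i) ∧
    (∃ ω : F[X], ω ≠ 0 ∧ ω.natDegree ≤ r ∧ ∀ o, Low (3 * e) ω (sd.r i o)) ∧
    ∃ k, sd.v i (some k) ≠ 0

noncomputable def tau (sd : Side F e h) (A : Fin 2 → Vtx F e n h) (i : Fin 2) (t : F) : GG h :=
  row (A i) (sd.r i none) t

/-- selected labels -/
def Sel (sd : Side F e h) (A : Fin 2 → Vtx F e n h) (i : Fin 2) (t : F) : Prop :=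
  (∀ l, row (A i) (sd.r i (some l)) t = sd.ρ i l) ∧
    chi (tau sd A i t + sd.v i) = chi (tau sd A i t)

/-- the uniform density on selected labels -/
noncomputable def lw (sd : Side F e h) (A : Fin 2 → Vtx F e n h) (i : Fin 2) (t : F) : ℝ :=
  ind (Sel sd A i t) / 𝔼 t', ind (Sel sd A i t')

def Link (sd : Side F e h) (A : Fin 2 → Vtx F e n h) : Prop :=
  ∀ y : Fin 2 → Y F (4 * e), (∀ i, y i ∈ XX F (4 * e)) → U (A 0).c (y 0) = U (A 1).c (y 1) →
    ∃ a b : K, ∀ i t, Sel sd A i t →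
      row (A i) (trunc e (y i)) t = par (y i) • tau sd A i t + a • sd.v i + b • e0

noncomputable def mark (sd : Side F e h) (A : Fin 2 → Vtx F e n h) (i : Fin 2) (t : F) : K × K :=
  (chi (xi (A i) (A i.rev) t), chi (tau sd A i t))

def Cls (S : Finset K) (sd : Side F e h) (A : Fin 2 → Vtx F e n h) : Prop :=
  (∀ t, Sel sd A 1 t → eta (mark sd A 1 t) ∈ S) ∧
    ∀ i, ∀ b ∈ S, (1 : ℝ) / 8 ≤ 𝔼 t, lw sd A i t * ind (eta (mark sd A i t) = b)

noncomputable def gd (sd : Side F e h) (A : Fin 2 → Vtx F e n h) (t : Slot → F) : GD h where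
  x s := xi (A s.1) (A s.1.rev) (t s)
  τ s := tau sd A s.1 (t s)
  o s := xi (A s.1) (A s.1) (t s)
  d s := row (A s.1) (ev (3 * e) (t s)) (t s)
  π i := row (A i) (ev (3 * e) (t (i, 0))) (t (i, 1))
  v := sd.v

/-- upper bound for the label density `lw` -/
noncomputable def kap (h r : ℕ) : ℝ := 2 * 2 ^ ((2 * h + 1) * (r + 3))

/-- the event `NotBad` fails only on mass `δ`, for test functions that depend on the own frame,
on labels, and on the points at these labels -/
def BadMass (hh : (Fin 2 → Vtx F e n h) → ℝ) (r : ℕ) (γ : ℝ) (N : ℕ) (δ : ℝ) : Prop :=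
  ∀ (ι : Type) [Fintype ι] [DecidableEq ι] (sd : ι → Fin 2), Fintype.card ι ≤ N → ∀ (i : Fin 2)
    (G : Frame F e n → (ι → F) → (ι → Fin n → F) → F → ℝ), (∀ c τ w t, |G c τ w t| ≤ 1) →
      𝔼 A, hh A * 𝔼 τ : ι → F,
        ind (¬ NotBad r γ (A i) (G (A i).c τ fun a => vp (A (sd a)) (τ a))) ≤ δ

/-- the four points of a labelled pair -/
noncomputable def pts (A : Fin 2 → Vtx F e n h) (t : Slot → F) : Slot → Fin n → F :=
  fun s => vp (A s.1) (t s)

def Match (A : Fin 2 → Vtx F e n h) (t : Slot → F) (B : Fin 2 → Vtx F e n h) (t' : Slot → F) :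
    Prop := pts B t' = pts A t ∘ Prod.swap

/-- the defect of the linear equation from vertex `i` of `A` to vertex `j` of `B` -/
noncomputable def defect (g : Gs h) (A : Fin 2 → Vtx F e n h) (t : Slot → F)
    (B : Fin 2 → Vtx F e n h) (i j : Fin 2) (z : Y F (4 * e)) : GG h :=
  (B j).u (U (A i).c z) +
    ((g (i, j)).1 (row (A i) (trunc e z) (t (i, j))) + par z • (g (i, j)).2)

def Cross (g : Gs h) (A : Fin 2 → Vtx F e n h) (t : Slot → F) (B : Fin 2 → Vtx F e n h) : Prop :=
  ∀ i j, ∀ z ∈ XX F (4 * e), defect g A t B i j z = 0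

def Wit (g : Gs h) (A : Fin 2 → Vtx F e n h) (t : Slot → F) (B : Fin 2 → Vtx F e n h) : Prop :=
  (∀ i j j', defect g A t B i j (ev (4 * e) (t (i, j'))) = 0) ∧
  ∀ j, ∀ y : Fin 2 → Y F (4 * e), (∀ i, y i ∈ XX F (4 * e)) → U (A 0).c (y 0) = U (A 1).c (y 1) →
    defect g A t B 0 j (y 0) = defect g A t B 1 j (y 1)

/-- labels distinct on each vertex -/
def Dist (t : Slot → F) : Prop := ∀ i, t (i, 0) ≠ t (i, 1)

/-- conditions on the weight of a labelled pair used in the Fourier estimate -/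
structure WtOK (hh : (Fin 2 → Vtx F e n h) → ℝ) (a : (Fin 2 → Vtx F e n h) → (Slot → F) → ℝ)
    (κm Λ₁ : ℝ) : Prop where
  nonneg : ∀ A t, 0 ≤ a A t
  le : ∀ A t, a A t ≤ κm * hh A
  surj : ∀ A t, a A t ≠ 0 → ∀ i, Surj (A i).c
  dist : ∀ A t, a A t ≠ 0 → Dist t
  mass : ∀ w, (Fintype.card (Fin n → F) : ℝ) ^ 4 * 𝔼 A, 𝔼 t, a A t * ind (pts A t = w) ≤ 2
  trim : ∀ A t, a A t ≠ 0 → ∀ i : Fin 2,
    dens hh vp i (A i) (fun j : Fin 2 => t (i.rev, j)) (fun j => vp (A i.rev) (t (i.rev, j))) ≤ Λ₁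

/-- the tensor on which `u` of the target vertex `j` is tested by the dual variable `Z` -/
noncomputable def psi (A : Fin 2 → Vtx F e n h) (Z : Slot → Ix h → Y F (4 * e)) (j : Fin 2)
    (k : Ix h) : TV F n := U (A 0).c (Z (0, j) k) + U (A 1).c (Z (1, j) k)

/-- one term of the Fourier expansion -/
noncomputable def term (Z : Slot → Ix h → Y F (4 * e))
    (a₁ a₂ : (Fin 2 → Vtx F e n h) → (Slot → F) → ℝ)
    (θ : (Fin 2 → Vtx F e n h) → (Slot → F) → (Fin 2 → Frame F e n) → (Slot → F) → ℝ) : ℝ :=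
  𝔼 A, 𝔼 t, 𝔼 B, 𝔼 t', a₁ A t * a₂ B t' * ind (Match A t B t') *
    sgn (∑ j, ∑ k, (B j).u (psi A Z j k) k) * θ A t (fun j => (B j).c) t'

end Field

end Vale.Agent.P060
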