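import Vale.Agent.P060.ContainC

namespace Vale.Agent.P060

open Finset Polynomial Filter
open scoped BigOperators

theorem exists_sample {Ω : Type} [Fintype Ω] [Nonempty Ω] (H : SimpleGraph Ω) (J E B : ℕ) (M : ℝ)
    (hJ : 1 ≤ J) (hB : 1 ≤ B) (hM : 12 * B * J ≤ M)
    (h4 : 2 ^ (B + 3) * (B * (J * (2 ^ E * 16 * J ^ 2))) ≤ 2 ^ J)
    (hSS : SS H (2 ^ J) M (1 / 2 ^ E)) :
    ∃ x : Fin (B * (J * (2 ^ E * 16 * J ^ 2))) → Ω,
      ¬ Mt H univ (fun A => ¬ H.Adj (A 0) (A 1)) (3 * (J * (2 ^ E * 16 * J ^ 2))) x := by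
  set u' : ℕ := 2 ^ E * 16 * J ^ 2 with hu'
  set m : ℕ := B * (J * u') with hm
  set k : ℕ := 4 * 2 ^ E * J with hk
  have hJ' : (1 : ℝ) ≤ J := by exact_mod_cast hJ
  have hB' : (1 : ℝ) ≤ B := by exact_mod_cast hB
  have hM0 : 0 < M := lt_of_lt_of_le (by positivity) hM
  have hE : 1 ≤ 2 ^ E := Nat.one_le_two_pow
  have hη1 : (1 : ℝ) / 2 ^ E ≤ 1 := by
    rw [div_le_one (by positivity)]; exact one_le_pow₀ one_le_two
  have hku : (2 * J + 2) * k ≤ u' := by rw [hk, hu']; nlinarith [Nat.mul_le_mul_left (2 ^ E * J) hJ]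
  have hp1 : (2 : ℝ) ^ m * (2 * m * (2 / 2 ^ J)) ^ (J * u') ≤ 1 / 2 ^ u' := by
    have h5 : (2 : ℝ) ^ B * (2 * m * (2 / 2 ^ J)) ≤ 1 / 2 := by
      have h6 : (2 : ℝ) ^ (B + 3) * m ≤ 2 ^ J := by exact_mod_cast h4
      rw [show (2 : ℝ) ^ B * (2 * m * (2 / 2 ^ J)) = (2 ^ (B + 3) * m) / 2 ^ J / 2 by ring]
      gcongr
      rwa [div_le_one (by positivity)]
    calc (2 : ℝ) ^ m * (2 * m * (2 / 2 ^ J)) ^ (J * u')
        = (2 ^ B * (2 * m * (2 / 2 ^ J))) ^ (J * u') := by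
          rw [mul_pow (2 ^ B), ← pow_mul]
      _ ≤ (1 / 2) ^ (J * u') := pow_le_pow_left₀ (by positivity) h5 _
      _ ≤ (1 / 2) ^ u' := pow_le_pow_of_le_one (by norm_num) (by norm_num)
          (Nat.le_mul_of_pos_left _ hJ)
      _ = _ := by rw [one_div_pow]
  have hu6 : 6 * (2 / M) * m ≤ u' := by
    rw [hm, show 6 * (2 / M) * ((B * (J * u') : ℕ) : ℝ) = (12 * B * J) / M * u' by push_cast; ring]
    exact mul_le_of_le_one_left (by positivity) ((div_le_one hM0).2 hM)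
  have h1 : 𝔼 A : Fin 2 → Ω, ind (¬ H.Adj (A 0) (A 1)) ≤ 1 :=
    expect_le_const zero_le_one fun A => ind_le_one _
  have hθ : (1 - 1 / 2 ^ E / 4 : ℝ) ^ k ≤ 2 / 2 ^ J := by
    have a1 : (1 - 1 / 2 ^ E / 4 : ℝ) ≤ Real.exp (-(1 / 2 ^ E / 4)) := by
      linarith [Real.add_one_le_exp (-(1 / 2 ^ E / 4 : ℝ))]
    have a2 : Real.exp (-1) ≤ 1 / 2 := by
      rw [Real.exp_neg, ← one_div]
      exact one_div_le_one_div_of_le (by norm_num) (by linarith [Real.add_one_le_exp 1])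
    calc (1 - 1 / 2 ^ E / 4 : ℝ) ^ k ≤ Real.exp (-(1 / 2 ^ E / 4)) ^ k :=
          pow_le_pow_left₀ (by linarith) a1 k
      _ = Real.exp (-1) ^ J := by
          rw [← Real.exp_nat_mul, ← Real.exp_nat_mul, hk]
          congr 1
          push_cast
          field_simp
      _ ≤ (1 / 2) ^ J := pow_le_pow_left₀ (Real.exp_pos _).le a2 J
      _ ≤ _ := by rw [one_div_pow]; gcongr; norm_num
  have key := prob_cont (m := m) H (by positivity) hM0 (by positivity) hη1 hSS (J * u') u' _ hp1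
    le_rfl hu6 k J univ (fun A => ¬ H.Adj (A 0) (A 1)) (3 * (J * u')) (fun A hA => hA)
    (le_trans (mul_le_of_le_one_left (pow_nonneg (by linarith) _) h1) hθ)
    (h1.trans (by rw [div_mul_cancel₀ _ (by positivity)]; norm_num))
    (by nlinarith [Nat.le_mul_of_pos_left u' hJ])
  have hlt : ((m : ℝ) ^ 2 + 2) ^ k * (1 / 2 ^ u') < 1 := by
    have a1 : m ≤ 2 ^ J := le_trans (Nat.le_mul_of_pos_left _ (by positivity)) h4
    have a2 : m ^ 2 + 2 < 2 ^ (2 * J + 2) := by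
      have : 1 ≤ 2 ^ J := Nat.one_le_two_pow
      calc m ^ 2 + 2 < 4 * (2 ^ J) ^ 2 := by nlinarith
        _ = _ := by ring
    have a3 : (m ^ 2 + 2) ^ k < 2 ^ u' := by
      calc (m ^ 2 + 2) ^ k < (2 ^ (2 * J + 2)) ^ k :=
            Nat.pow_lt_pow_left a2 (by rw [hk]; positivity)
        _ = 2 ^ ((2 * J + 2) * k) := by rw [← pow_mul]
        _ ≤ _ := Nat.pow_le_pow_right (by norm_num) hku
    rw [mul_one_div, div_lt_one (by positivity)]
    exact_mod_cast a3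
  by_contra hc
  push Not at hc
  simp only [ind_pos (hc _), Fintype.expect_const] at key
  linarith

/-- J7: containers and sampling -/
theorem final_of_family (C : ℕ) (hfam : ∀ᶠ κ : ℕ in atTop, ∃ (Ω : Type) (_ : Fintype Ω)
    (H : SimpleGraph Ω), Nonempty Ω ∧ H.CliqueFree 3 ∧
      SS H (((4 : ℝ) ^ κ) ^ ((C + 1) * (4 * κ ^ 2))) (2 ^ κ) (1 / ((4 : ℝ) ^ κ) ^ (C * (4 * κ ^ 2))))
    (ε : ℝ) (hε : 0 < ε) (m₀ : ℕ) :
    ∃ m ≥ m₀, ∃ G : SimpleGraph (Fin m), G.indepNum ≤ 2 ∧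
      ∀ t, HasCliqueMinor G t → (t : ℝ) ≤ (1 / 3 + ε) * m := by
  obtain ⟨B, hB⟩ := exists_nat_ge (5 / ε)
  have hB0 : (0 : ℝ) < B := lt_of_lt_of_le (by positivity) hB
  have hB1 : 1 ≤ B := by exact_mod_cast hB0
  have hev : ∀ᶠ κ : ℕ in atTop, (12 * B * ((C + 1) * 8) : ℝ) * (κ : ℝ) ^ 3 ≤ 2 ^ κ := by
    have := (isLittleO_pow_const_const_pow_of_one_lt (R := ℝ) 3 one_lt_two).def
      (c := 1 / (12 * B * ((C + 1) * 8))) (by positivity)
    filter_upwards [this] with κ h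
    rw [Real.norm_of_nonneg (by positivity), Real.norm_of_nonneg (by positivity), one_div,
      ← div_eq_inv_mul, le_div_iff₀ (by positivity)] at h
    linarith
  obtain ⟨κ, ⟨Ω, _, H, _, hH, hSS⟩, h1, h2⟩ :=
    (hfam.and (hev.and (eventually_ge_atTop (B + 7 + m₀)))).exists
  set N : ℕ := 8 * κ ^ 3 with hN
  have hκN : κ ≤ κ ^ 3 := Nat.le_self_pow (by norm_num) κ
  have e : ∀ a : ℕ, ((4 : ℝ) ^ κ) ^ (a * (4 * κ ^ 2)) = 2 ^ (a * N) := fun a => by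
    rw [show (4 : ℝ) = 2 ^ 2 by norm_num, ← pow_mul, ← pow_mul, hN]
    congr 1
    ring
  rw [e, e] at hSS
  set J : ℕ := (C + 1) * N with hJ
  have hJ1 : κ ≤ J := by rw [hJ, hN]; nlinarith
  have hM : (12 * B * J : ℝ) ≤ 2 ^ κ := by
    rw [hJ, hN]; push_cast; linarith
  have hJ2 : J ≤ 2 ^ κ := by
    have : 12 * B * J ≤ 2 ^ κ := by exact_mod_cast hM
    nlinarith
  obtain ⟨x, hx⟩ := exists_sample H J (C * N) B (2 ^ κ) (by omega) hB1 hM (by
    have a1 : B ≤ 2 ^ B := Nat.lt_two_pow_self.le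
    calc 2 ^ (B + 3) * (B * (J * (2 ^ (C * N) * 16 * J ^ 2)))
        ≤ 2 ^ (B + 3) * (2 ^ B * (2 ^ κ * (2 ^ (C * N) * 16 * (2 ^ κ) ^ 2))) := by gcongr
      _ = 2 ^ (C * N + (2 * B + 7 + 3 * κ)) := by ring
      _ ≤ 2 ^ J := Nat.pow_le_pow_right (by norm_num) (by rw [hJ, add_mul]; omega)) hSS
  have hu : 1 ≤ 2 ^ (C * N) * 16 * J ^ 2 := Nat.one_le_iff_ne_zero.2 (by
    have : J ≠ 0 := by omega
    positivity)
  refine ⟨_, ?_, sampleG H x, sampleG_indep H hH x, fun t ht => ?_⟩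
  · have a1 := Nat.le_mul_of_pos_right J hu
    have a2 := Nat.le_mul_of_pos_left (J * (2 ^ (C * N) * 16 * J ^ 2)) hB1
    omega
  · have a1 := minor_bound H x _ hx t ht
    generalize J * (2 ^ (C * N) * 16 * J ^ 2) = u at a1 ⊢
    have a2 : (3 * t : ℝ) ≤ B * u + 5 * (3 * u) := by exact_mod_cast a1
    rw [div_le_iff₀ hε] at hB
    have a3 : (0 : ℝ) ≤ u := Nat.cast_nonneg u
    push_cast
    nlinarith

theorem not_hadwiger_of (hG : ∀ ε : ℝ, 0 < ε → ∀ m₀ : ℕ, ∃ m ≥ m₀, ∃ G : SimpleGraph (Fin m),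
      G.indepNum ≤ 2 ∧ ∀ t, HasCliqueMinor G t → (t : ℝ) ≤ (1 / 3 + ε) * m) :
    ¬ ∀ (m : ℕ) (G : SimpleGraph (Fin m)) (t : ℕ), 1 ≤ m → 1 ≤ t →
      ¬ HasCliqueMinor G (t + 1) → G.Colorable t := by
  intro h
  obtain ⟨m, hm, G, h1, h2⟩ := hG (1 / 12) (by norm_num) 3
  obtain ⟨c⟩ := h m G (5 * m / 12) (by omega) (by omega) fun hc => by
    have a1 := h2 _ hc
    have a2 : 12 * (5 * m / 12 + 1) ≤ 5 * m := by
      have : (12 : ℝ) * ((5 * m / 12 + 1 : ℕ) : ℝ) ≤ 5 * m := by linarith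
      exact_mod_cast this
    omega
  have a3 := card_le_mul_card_image_of_maps_to (s := (univ : Finset (Fin m)))
    (t := (univ : Finset (Fin (5 * m / 12)))) (f := c) (fun _ _ => mem_univ _) 2 fun b _ => by
      refine le_trans (SimpleGraph.IsIndepSet.card_le_indepNum ?_) h1
      intro i hi j hj _ hadj
      simp only [coe_filter, mem_univ, true_and, Set.mem_ofPred_eq] at hi hj
      exact c.valid hadj (hi.trans hj.symm)
  simp only [card_univ, Fintype.card_fin] at a3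
  omega

end Vale.Agent.P060
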