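import Vale.Agent.P060.Basic

/-!
# P060: the structural step of the container argument
-/

namespace Vale.Agent.P060

open Finset
open scoped BigOperators

variable {Ω : Type} [Fintype Ω]

omit [Fintype Ω] in
theorem pr_eq_iff (i : Fin 2) (x y : Ω) (A : Fin 2 → Ω) : pr i x y = A ↔ x = A i ∧ y = A i.rev := by
  constructor
  · rintro rfl; simp
  · rintro ⟨rfl, rfl⟩; exact pr_eta i A

open Classical in
theorem exists_sat (L : Finset (Fin 2 → Ω)) (τ : ℝ) (hτ : 0 ≤ τ) :
    ∃ h : (Fin 2 → Ω) → ℝ, (∀ A, 0 ≤ h A) ∧ (∀ A, h A ≤ 1) ∧ (∀ A, A ∉ L → h A = 0) ∧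
      (∀ i x, ∑ y, h (pr i x y) ≤ τ) ∧ ∀ A ∈ L, h A = 1 ∨ ∃ i, τ ≤ ∑ y, h (pr i (A i) y) := by
  induction L using Finset.induction_on with
  | empty => exact ⟨fun _ => 0, by simp, by simp, by simp, by simp [hτ], by simp⟩
  | insert A L hA ih =>
    obtain ⟨h, h0, h1, h2, h3, h4⟩ := ih
    set δ : ℝ := min 1 (min (τ - ∑ y, h (pr 0 (A 0) y)) (τ - ∑ y, h (pr 1 (A 1) y))) with hδ
    have hδ0 : 0 ≤ δ := le_min zero_le_one (le_min (sub_nonneg.2 (h3 _ _)) (sub_nonneg.2 (h3 _ _)))
    have hδ1 : δ ≤ 1 := min_le_left _ _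
    have hδ2 : ∀ i, δ ≤ τ - ∑ y, h (pr i (A i) y) := by
      intro i
      fin_cases i
      · exact (min_le_right _ _).trans (min_le_left _ _)
      · exact (min_le_right _ _).trans (min_le_right _ _)
    have hdeg : ∀ i x, ∑ y, (h (pr i x y) + if pr i x y = A then δ else 0) =
        ∑ y, h (pr i x y) + if x = A i then δ else 0 := by
      intro i x
      rw [sum_add_distrib]
      congr 1
      simp only [pr_eq_iff]
      by_cases hx : x = A i <;> simp [hx]
    refine ⟨fun B => h B + if B = A then δ else 0, fun B => ?_, fun B => ?_, fun B hB => ?_,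
      fun i x => ?_, fun B hB => ?_⟩
    · have := h0 B
      dsimp only
      split_ifs <;> linarith
    · dsimp only
      split_ifs with hB
      · rw [hB, h2 A hA]; linarith
      · linarith [h1 B]
    · rw [mem_insert, not_or] at hB
      simp [hB.1, h2 B hB.2]
    · rw [hdeg]
      split_ifs with hx
      · rw [hx]; linarith [hδ2 i]
      · linarith [h3 i x]
    · simp only [hdeg]
      by_cases hBA : B = A
      · subst hBA
        simp only [if_true, h2 B hA, zero_add]
        rcases min_choice 1 (min (τ - ∑ y, h (pr 0 (B 0) y)) (τ - ∑ y, h (pr 1 (B 1) y))) with e | e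
        · exact Or.inl e
        · rcases min_choice (τ - ∑ y, h (pr 0 (B 0) y)) (τ - ∑ y, h (pr 1 (B 1) y)) with e' | e'
          · exact Or.inr ⟨0, by rw [hδ, e, e']; linarith⟩
          · exact Or.inr ⟨1, by rw [hδ, e, e']; linarith⟩
      · rcases h4 B ((mem_insert.1 hB).resolve_left hBA) with e | ⟨i, e⟩
        · exact Or.inl (by simp [hBA, e])
        · refine Or.inr ⟨i, ?_⟩
          split_ifs <;> linarith

open Classical in
theorem step_lemma [Nonempty Ω] (H : SimpleGraph Ω) {Λ M η : ℝ} (hΛ : 0 < Λ) (hM : 0 < M)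
    (hη : 0 < η) (hSS : SS H Λ M η) (R : (Fin 2 → Ω) → Prop)
    (hR : ∀ A, R A → ¬ H.Adj (A 0) (A 1)) (σ : ℝ) (h2 : 2 / Λ < σ) :
    ∃ (W : Ω → Prop) (R' : (Fin 2 → Ω) → Prop), 𝔼 x, ind (W x) ≤ 2 / M ∧
      𝔼 A, ind (R' A) ≤ σ / 2 ∧ (∀ A, R' A → R A) ∧
      ∀ A, R A → 𝔼 B, ind (R B ∧ Conf H A B) < η * σ / 4 → W (A 0) ∨ W (A 1) ∨ R' A := by
  have hσ0 : 0 < σ := lt_trans (by positivity) h2
  have hn : (0 : ℝ) < Fintype.card Ω := by exact_mod_cast Fintype.card_pos
  obtain ⟨h, h0, h1, hL, h3, h4⟩ := exists_sat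
    (univ.filter fun A => R A ∧ 𝔼 B, ind (R B ∧ Conf H A B) < η * σ / 4)
    (σ * M / 2 * Fintype.card Ω) (by positivity)
  have hmarg : ∀ i x, 𝔼 y, h (pr i x y) ≤ σ * M / 2 := fun i x => by
    rw [expect_eq_sum_div, div_le_iff₀ hn]; exact h3 i x
  have hRh : ∀ A, h A ≤ ind (R A) := fun A => by
    by_cases hA : R A
    · rw [ind_pos hA]; exact h1 A
    · rw [ind_neg hA, hL A (by simp [hA])]
  have hmass : 𝔼 A, h A ≤ σ / 2 := by
    by_contra hc
    rw [not_le] at hc
    set μ : ℝ := 𝔼 A, h A with hμ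
    have hμ0 : 0 < μ := lt_trans (by positivity) hc
    have hd : Dens (fun A => h A / μ) Λ M := by
      refine ⟨fun A => div_nonneg (h0 A) hμ0.le, fun A => ?_, fun i x => ?_, ?_⟩
      · rw [div_le_iff₀ hμ0]
        rw [div_lt_iff₀ hΛ] at h2
        nlinarith [h1 A]
      · rw [← expect_div, div_le_iff₀ hμ0]
        nlinarith [hmarg i x]
      · rw [← expect_div, ← hμ, div_self hμ0.ne']
    have hs := hSS _ hd (fun A hA => by
      have : ¬ R A := fun h' => hR A h' hA
      rw [hL A (by simp [this]), zero_div])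
    have hb : ∀ A, 𝔼 B, h A / μ * (h B / μ) * ind (Conf H A B) ≤ h A / μ * (η * σ / 4 / μ) := by
      intro A
      by_cases hA : A ∈ univ.filter fun A => R A ∧ 𝔼 B, ind (R B ∧ Conf H A B) < η * σ / 4
      · have hA2 := (mem_filter.1 hA).2.2
        calc 𝔼 B, h A / μ * (h B / μ) * ind (Conf H A B)
            ≤ 𝔼 B, h A / μ * (ind (R B ∧ Conf H A B) / μ) := by
              refine expect_mono fun B => ?_
              rw [ind_and, mul_assoc, div_mul_eq_mul_div (h B)]
              exact mul_le_mul_of_nonneg_left (div_le_div_of_nonneg_right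
                (mul_le_mul_of_nonneg_right (hRh B) (ind_nonneg _)) hμ0.le)
                (div_nonneg (h0 A) hμ0.le)
          _ = h A / μ * ((𝔼 B, ind (R B ∧ Conf H A B)) / μ) := by rw [← mul_expect, expect_div]
          _ ≤ _ := mul_le_mul_of_nonneg_left (div_le_div_of_nonneg_right hA2.le hμ0.le)
              (div_nonneg (h0 A) hμ0.le)
      · simp [hL A hA]
    have hs2 : η ≤ η * σ / 4 / μ := by
      refine hs.trans ((expect_mono hb).trans ?_)
      rw [← expect_mul, ← expect_div, ← hμ, div_self hμ0.ne', one_mul]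
    rw [le_div_iff₀ hμ0] at hs2
    nlinarith
  refine ⟨fun x => ∃ i, σ * M / 2 * Fintype.card Ω ≤ ∑ y, h (pr i x y),
    fun A => R A ∧ h A = 1, ?_, ?_, fun A hA => hA.1, fun A hA hl => ?_⟩
  · have hi : ∀ i : Fin 2, 𝔼 x, ind (σ * M / 2 * Fintype.card Ω ≤ ∑ y, h (pr i x y)) ≤ 1 / M := by
      intro i
      have e1 : ∀ x, ind (σ * M / 2 * Fintype.card Ω ≤ ∑ y, h (pr i x y)) ≤
          (𝔼 y, h (pr i x y)) / (σ * M / 2) := by
        intro x
        by_cases hx : σ * M / 2 * Fintype.card Ω ≤ ∑ y, h (pr i x y)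
        · rw [ind_pos hx, le_div_iff₀ (by positivity), one_mul, expect_eq_sum_div, le_div_iff₀ hn]
          exact hx
        · rw [ind_neg hx]
          exact div_nonneg (expect_nonneg' fun y => h0 _) (by positivity)
      refine (expect_mono e1).trans ?_
      rw [← expect_div, ← expect_pr i h, div_le_div_iff₀ (by positivity) hM]
      nlinarith
    refine (expect_mono fun x => ind_exists_le _).trans ?_
    rw [expect_sum_comm, Fin.sum_univ_two]
    have := hi 0
    have := hi 1
    rw [show 2 / M = 1 / M + 1 / M by ring]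
    linarith
  · refine le_trans (expect_mono fun A => ?_) hmass
    by_cases hA : R A ∧ h A = 1
    · rw [ind_pos hA, hA.2]
    · rw [ind_neg hA]; exact h0 A
  · rcases h4 A (by simp [hA, hl]) with e | ⟨i, e⟩
    · exact Or.inr (Or.inr ⟨hA, e⟩)
    · fin_cases i
      · exact Or.inl ⟨0, e⟩
      · exact Or.inr (Or.inl ⟨1, e⟩)

end Vale.Agent.P060
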