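import Vale.Agent.P060.ContainA

/-!
# P060: conflict-free matchings in a random sample
-/

namespace Vale.Agent.P060

open Finset
open scoped BigOperators

variable {Ω : Type} [Fintype Ω] {m : ℕ}

/-- the sample `x` has a conflict-free matching of size `ν` on the indices `D` with pairs in `R` -/
def Mt (H : SimpleGraph Ω) (D : Finset (Fin m)) (R : (Fin 2 → Ω) → Prop) (ν : ℕ)
    (x : Fin m → Ω) : Prop :=
  ∃ S : Finset (Fin m × Fin m), ν ≤ S.card ∧
    (∀ p ∈ S, p.1 ∈ D ∧ p.2 ∈ D ∧ p.1 ≠ p.2 ∧ R (pr 0 (x p.1) (x p.2))) ∧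
    ∀ p ∈ S, ∀ q ∈ S, p ≠ q → p.1 ≠ q.1 ∧ p.1 ≠ q.2 ∧ p.2 ≠ q.1 ∧ p.2 ≠ q.2 ∧
      ¬ Conf H (pr 0 (x p.1) (x p.2)) (pr 0 (x q.1) (x q.2))

omit [Fintype Ω] in
theorem Mt.congr {H : SimpleGraph Ω} {D : Finset (Fin m)} {R : (Fin 2 → Ω) → Prop} {ν : ℕ}
    {x x' : Fin m → Ω} (h : Mt H D R ν x) (hx : ∀ i ∈ D, x' i = x i) : Mt H D R ν x' := by
  obtain ⟨S, h1, h2, h3⟩ := h
  refine ⟨S, h1, fun p hp => ?_, fun p hp q hq hpq => ?_⟩
  · rw [hx _ (h2 p hp).1, hx _ (h2 p hp).2.1]; exact h2 p hp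
  · rw [hx _ (h2 p hp).1, hx _ (h2 p hp).2.1, hx _ (h2 q hq).1, hx _ (h2 q hq).2.1]
    exact h3 p hp q hq hpq

omit [Fintype Ω] in
theorem Mt.mono {H : SimpleGraph Ω} {D : Finset (Fin m)} {R : (Fin 2 → Ω) → Prop} {ν ν' : ℕ}
    {x : Fin m → Ω} (h : Mt H D R ν x) (hν : ν' ≤ ν) : Mt H D R ν' x := by
  obtain ⟨S, h1, h2⟩ := h
  exact ⟨S, hν.trans h1, h2⟩

omit [Fintype Ω] in
theorem not_conf_self (H : SimpleGraph Ω) (A : Fin 2 → Ω) : ¬ Conf H A A :=
  fun h => H.irrefl (h 0 0)

/-- conditioning on the two coordinates `a`, `b` -/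
theorem cond_pair (H : SimpleGraph Ω) (D : Finset (Fin m)) (a b : Fin m) (hab : a ≠ b)
    (φ : (Fin 2 → Ω) → Prop) (R : (Fin 2 → Ω) → (Fin 2 → Ω) → Prop) (ν : ℕ) (β : ℝ)
    (h : ∀ A, φ A → 𝔼 x, ind (Mt H ((D.erase a).erase b) (R A) ν x) ≤ β) :
    𝔼 x : Fin m → Ω, ind (φ (pr 0 (x a) (x b)) ∧
      Mt H ((D.erase a).erase b) (R (pr 0 (x a) (x b))) ν x) ≤ β * 𝔼 A, ind (φ A) := by
  rw [expect_update a]
  rw [expect_comm, expect_pr 0, mul_expect]
  refine expect_mono fun α => ?_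
  rw [expect_update b, expect_comm, mul_expect]
  refine expect_mono fun γ => ?_
  have e : ∀ x : Fin m → Ω, ind (φ (pr 0 (Function.update (Function.update x b γ) a α a)
      (Function.update (Function.update x b γ) a α b)) ∧
      Mt H ((D.erase a).erase b) (R (pr 0 (Function.update (Function.update x b γ) a α a)
      (Function.update (Function.update x b γ) a α b))) ν
        (Function.update (Function.update x b γ) a α)) =
      ind (φ (pr 0 α γ)) * ind (Mt H ((D.erase a).erase b) (R (pr 0 α γ)) ν x) := by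
    intro x
    rw [← ind_and, Function.update_self, Function.update_of_ne hab.symm, Function.update_self]
    have hx : ∀ i ∈ (D.erase a).erase b, Function.update (Function.update x b γ) a α i = x i := by
      intro i hi
      simp only [mem_erase] at hi
      rw [Function.update_of_ne hi.2.1, Function.update_of_ne hi.1]
    exact ind_congr (and_congr_right fun _ => ⟨fun h => h.congr fun i hi => (hx i hi).symm,
      fun h => h.congr hx⟩)
  simp only [e]
  rw [← mul_expect, mul_comm]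
  by_cases hφ : φ (pr 0 α γ)
  · exact mul_le_mul_of_nonneg_right (h _ hφ) (ind_nonneg _)
  · simp [ind_neg hφ]

omit [Fintype Ω] in
/-- removing one pair from a matching -/
theorem Mt.erase {H : SimpleGraph Ω} {D : Finset (Fin m)} {R : (Fin 2 → Ω) → Prop} {ν : ℕ}
    {x : Fin m → Ω} {S : Finset (Fin m × Fin m)} (h1 : ν + 1 ≤ S.card)
    (h2 : ∀ p ∈ S, p.1 ∈ D ∧ p.2 ∈ D ∧ p.1 ≠ p.2 ∧ R (pr 0 (x p.1) (x p.2)))
    (h3 : ∀ p ∈ S, ∀ q ∈ S, p ≠ q → p.1 ≠ q.1 ∧ p.1 ≠ q.2 ∧ p.2 ≠ q.1 ∧ p.2 ≠ q.2 ∧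
      ¬ Conf H (pr 0 (x p.1) (x p.2)) (pr 0 (x q.1) (x q.2))) {p : Fin m × Fin m} (hp : p ∈ S) :
    Mt H ((D.erase p.1).erase p.2) (fun B => R B ∧ ¬ Conf H (pr 0 (x p.1) (x p.2)) B) ν x := by
  refine ⟨S.erase p, by rw [card_erase_of_mem hp]; omega, fun q hq => ?_, fun q hq q' hq' => ?_⟩
  · obtain ⟨hqp, hq⟩ := mem_erase.1 hq
    obtain ⟨a1, a2, a3, a4, a5⟩ := h3 p hp q hq hqp.symm
    obtain ⟨b1, b2, b3, b4⟩ := h2 q hq
    simp only [mem_erase]
    exact ⟨⟨a3.symm, a1.symm, b1⟩, ⟨a4.symm, a2.symm, b2⟩, b3, b4, a5⟩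
  · exact h3 q (mem_of_mem_erase hq) q' (mem_of_mem_erase hq')

omit [Fintype Ω] in
theorem Mt.monoR {H : SimpleGraph Ω} {D : Finset (Fin m)} {R R' : (Fin 2 → Ω) → Prop} {ν : ℕ}
    {x : Fin m → Ω} (h : Mt H D R ν x) (hR : ∀ A, R A → R' A) : Mt H D R' ν x := by
  obtain ⟨S, h1, h2, h3⟩ := h
  exact ⟨S, h1, fun p hp => ⟨(h2 p hp).1, (h2 p hp).2.1, (h2 p hp).2.2.1, hR _ (h2 p hp).2.2.2⟩, h3⟩

/-- first moment bound for matchings inside a sparse set of pairs -/
theorem prob_sparse (H : SimpleGraph Ω) (R : (Fin 2 → Ω) → Prop) (σ : ℝ) (hσ : 0 ≤ σ)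
    (hR : 𝔼 A, ind (R A) ≤ σ) (d : ℕ) : ∀ (D : Finset (Fin m)) (u : ℕ), D.card ≤ d →
      𝔼 x, ind (Mt H D R u x) ≤ 2 ^ d * (2 * m * σ) ^ u := by
  induction d with
  | zero =>
    intro D u hD
    cases u with
    | zero => simpa using expect_le_const zero_le_one fun x => ind_le_one _
    | succ u =>
      refine expect_le_const (by positivity) fun x => ?_
      rw [ind_neg]
      · positivity
      · rintro ⟨S, h1, h2, _⟩
        obtain ⟨p, hp⟩ := card_pos.1 (show 0 < S.card by omega)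
        have := card_pos.2 ⟨_, (h2 p hp).1⟩
        omega
  | succ d ih =>
    intro D u hD
    cases u with
    | zero =>
      refine expect_le_const (by positivity) fun x => (ind_le_one _).trans ?_
      simpa using one_le_pow₀ (M₀ := ℝ) one_le_two
    | succ u =>
      rcases D.eq_empty_or_nonempty with rfl | ⟨a, ha⟩
      · refine (ih ∅ (u + 1) (by simp)).trans ?_
        gcongr
        · norm_num
        · omega
      have key : ∀ x : Fin m → Ω, ind (Mt H D R (u + 1) x) ≤ ind (Mt H (D.erase a) R (u + 1) x) +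
          ∑ b, (ind (a ≠ b) * ind (R (pr 0 (x a) (x b)) ∧ Mt H ((D.erase a).erase b) R u x) +
            ind (a ≠ b) * ind (R (pr 0 (x b) (x a)) ∧ Mt H ((D.erase b).erase a) R u x)) := by
        intro x
        have hnn : ∀ b, 0 ≤ ind (a ≠ b) * ind (R (pr 0 (x a) (x b)) ∧
            Mt H ((D.erase a).erase b) R u x) ∧ 0 ≤ ind (a ≠ b) * ind (R (pr 0 (x b) (x a)) ∧
            Mt H ((D.erase b).erase a) R u x) := fun b =>
          ⟨mul_nonneg (ind_nonneg _) (ind_nonneg _), mul_nonneg (ind_nonneg _) (ind_nonneg _)⟩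
        by_cases hx : Mt H D R (u + 1) x
        · rw [ind_pos hx]
          obtain ⟨S, h1, h2, h3⟩ := hx
          by_cases hS : ∃ p ∈ S, p.1 = a ∨ p.2 = a
          · obtain ⟨p, hp, e⟩ := hS
            have h4 := (Mt.erase h1 h2 h3 hp).monoR (R' := R) fun A hA => hA.1
            refine le_add_of_nonneg_of_le (ind_nonneg _) ?_
            rcases e with rfl | rfl
            · refine le_trans ?_ (single_le_sum (fun b _ => add_nonneg (hnn b).1 (hnn b).2)
                (mem_univ p.2))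
              rw [ind_pos (h2 p hp).2.2.1, ind_pos ⟨(h2 p hp).2.2.2, h4⟩]
              linarith [(hnn p.2).2, ind_nonneg (R (pr 0 (x p.2) (x p.1)) ∧
                Mt H ((D.erase p.2).erase p.1) R u x)]
            · refine le_trans ?_ (single_le_sum (fun b _ => add_nonneg (hnn b).1 (hnn b).2)
                (mem_univ p.1))
              rw [ind_pos (h2 p hp).2.2.1.symm, ind_pos (P := R (pr 0 (x p.1) (x p.2)) ∧ _)
                ⟨(h2 p hp).2.2.2, h4⟩]
              linarith [ind_nonneg (R (pr 0 (x p.2) (x p.1)) ∧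
                Mt H ((D.erase p.2).erase p.1) R u x)]
          · push Not at hS
            rw [ind_pos (P := Mt H (D.erase a) R (u + 1) x) ⟨S, h1, fun p hp => ⟨mem_erase.2
              ⟨(hS p hp).1, (h2 p hp).1⟩, mem_erase.2 ⟨(hS p hp).2, (h2 p hp).2.1⟩,
              (h2 p hp).2.2⟩, h3⟩]
            exact le_add_of_nonneg_right (sum_nonneg fun b _ => add_nonneg (hnn b).1 (hnn b).2)
        · rw [ind_neg hx]
          exact add_nonneg (ind_nonneg _) (sum_nonneg fun b _ => add_nonneg (hnn b).1 (hnn b).2)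
      have hcard : (D.erase a).card ≤ d := by rw [card_erase_of_mem ha]; omega
      have hb : ∀ b, 𝔼 x : Fin m → Ω, (ind (a ≠ b) * ind (R (pr 0 (x a) (x b)) ∧
          Mt H ((D.erase a).erase b) R u x) + ind (a ≠ b) * ind (R (pr 0 (x b) (x a)) ∧
            Mt H ((D.erase b).erase a) R u x)) ≤ 2 * (2 ^ d * (2 * m * σ) ^ u * σ) := by
        intro b
        by_cases hab : a = b
        · simp only [ind_neg (not_not.2 hab), zero_mul, add_zero, expect_const_zero]
          positivity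
        · simp only [ind_pos hab, one_mul]
          rw [expect_add_distrib]
          have e1 := cond_pair H D a b hab R (fun _ => R) u _ fun _ _ =>
            ih _ u (card_erase_le.trans hcard)
          have e2 := cond_pair H D b a (Ne.symm hab) R (fun _ => R) u _ fun _ _ =>
            ih _ u (by rw [erase_right_comm]; exact card_erase_le.trans hcard)
          have e3 : (2 : ℝ) ^ d * (2 * m * σ) ^ u * 𝔼 A, ind (R A) ≤
              2 ^ d * (2 * m * σ) ^ u * σ := mul_le_mul_of_nonneg_left hR (by positivity)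
          linarith
      refine (expect_mono key).trans ?_
      rw [expect_add_distrib, expect_sum_comm]
      refine (add_le_add (ih _ _ hcard) (sum_le_sum fun b _ => hb b)).trans (le_of_eq ?_)
      simp only [sum_const, card_univ, Fintype.card_fin, nsmul_eq_mul]
      ring

open Classical in
/-- exponential moment bound for the number of samples in a small set -/
theorem prob_many (W : Ω → Prop) (μ : ℝ) (hW : 𝔼 x, ind (W x) ≤ μ) (u : ℕ)
    (hu : 6 * μ * m ≤ u) [Nonempty Ω] :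
    𝔼 x : Fin m → Ω, ind (u ≤ (univ.filter fun i => W (x i)).card) ≤ 1 / 2 ^ u := by
  have hμ : 0 ≤ μ := (expect_nonneg' fun x => ind_nonneg _).trans hW
  have key : ∀ x : Fin m → Ω, ind (u ≤ (univ.filter fun i => W (x i)).card) ≤
      (∏ i, (1 + 3 * ind (W (x i)))) / 4 ^ u := by
    intro x
    have e : ∏ i, (1 + 3 * ind (W (x i))) = (4 : ℝ) ^ (univ.filter fun i => W (x i)).card := by
      rw [← prod_const, prod_filter]
      refine prod_congr rfl fun i _ => ?_
      by_cases h : W (x i)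
      · rw [ind_pos h, if_pos h]; norm_num
      · rw [ind_neg h, if_neg h]; norm_num
    rw [e]
    by_cases h : u ≤ (univ.filter fun i => W (x i)).card
    · rw [ind_pos h, le_div_iff₀ (by positivity), one_mul]
      exact pow_le_pow_right₀ (by norm_num) h
    · rw [ind_neg h]; positivity
  refine (expect_mono key).trans ?_
  rw [← expect_div, expect_pi_prod (fun _ (y : Ω) => 1 + 3 * ind (W y))]
  have e1 : 𝔼 y, (1 + 3 * ind (W y)) ≤ Real.exp (3 * μ) := by
    rw [expect_add_distrib, ← mul_expect, Fintype.expect_const]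
    linarith [Real.add_one_le_exp (3 * μ)]
  have e0 : 0 ≤ 𝔼 y, (1 + 3 * ind (W y)) := expect_nonneg' fun y => by linarith [ind_nonneg (W y)]
  rw [prod_const, card_univ, Fintype.card_fin, div_le_div_iff₀ (by positivity) (by positivity)]
  have e2 : (𝔼 y, (1 + 3 * ind (W y))) ^ m ≤ 2 ^ u := by
    refine (pow_le_pow_left₀ e0 e1 m).trans ?_
    rw [← Real.exp_nat_mul]
    have : Real.exp (1 / 2) ≤ 2 := by
      have h1 := Real.exp_one_lt_d9
      have h2 : Real.exp (1 / 2) ^ 2 = Real.exp 1 := by rw [← Real.exp_nat_mul]; norm_num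
      nlinarith [Real.exp_pos (1 / 2)]
    calc Real.exp (m * (3 * μ)) ≤ Real.exp (u * (1 / 2)) := Real.exp_le_exp.2 (by linarith)
      _ = Real.exp (1 / 2) ^ u := Real.exp_nat_mul _ _
      _ ≤ 2 ^ u := pow_le_pow_left₀ (Real.exp_pos _).le this u
  calc (𝔼 y, (1 + 3 * ind (W y))) ^ m * 2 ^ u ≤ 2 ^ u * 2 ^ u := by gcongr
    _ = 1 * 4 ^ u := by rw [← mul_pow]; norm_num

end Vale.Agent.P060
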