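import Vale.Agent.P060.ContainB
import Vale.Agent.P060.Defs

/-!
# P060: the container induction and the minor bound
-/

namespace Vale.Agent.P060

open Finset
open scoped BigOperators

variable {Ω : Type} [Fintype Ω] {m : ℕ}

open Classical in
theorem prob_cont [Nonempty Ω] (H : SimpleGraph Ω) {Λ M η : ℝ} (hΛ : 0 < Λ) (hM : 0 < M)
    (hη : 0 < η) (hη1 : η ≤ 1) (hSS : SS H Λ M η) (u u' : ℕ) (p : ℝ)
    (hp1 : 2 ^ m * (2 * m * (2 / Λ)) ^ u ≤ p) (hp2 : 1 / 2 ^ u' ≤ p) (hu' : 6 * (2 / M) * m ≤ u')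
    (k : ℕ) : ∀ (j : ℕ) (D : Finset (Fin m)) (R : (Fin 2 → Ω) → Prop) (ν : ℕ),
      (∀ A, R A → ¬ H.Adj (A 0) (A 1)) → (𝔼 A, ind (R A)) * (1 - η / 4) ^ k ≤ 2 / Λ →
      𝔼 A, ind (R A) ≤ 2 / Λ * 2 ^ j → k + j * u' + u ≤ ν →
      𝔼 x, ind (Mt H D R ν x) ≤ ((m : ℝ) ^ 2 + 2) ^ k * p := by
  have hp : 0 ≤ p := le_trans (by positivity) hp2
  have base : ∀ (k : ℕ) (D : Finset (Fin m)) (R : (Fin 2 → Ω) → Prop) (ν : ℕ),
      𝔼 A, ind (R A) ≤ 2 / Λ → u ≤ ν → 𝔼 x, ind (Mt H D R ν x) ≤ ((m : ℝ) ^ 2 + 2) ^ k * p := by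
    intro k D R ν h1 h2
    have := prob_sparse H R (2 / Λ) (by positivity) h1 m D u
      (by simpa using card_le_univ D)
    refine (expect_mono fun x => ind_mono fun h => h.mono h2).trans (this.trans (hp1.trans ?_))
    exact le_mul_of_one_le_left hp (one_le_pow₀ (by nlinarith [sq_nonneg (m : ℝ)]))
  induction k with
  | zero =>
    intro j D R ν _ h1 _ h3
    exact base 0 D R ν (by simpa using h1) (by omega)
  | succ k ih =>
    intro j D R ν hR h1 h2 h3
    by_cases hs : 𝔼 A, ind (R A) ≤ 2 / Λ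
    · exact base _ D R ν hs (by omega)
    rw [not_le] at hs
    set σ : ℝ := 𝔼 A, ind (R A) with hσ
    have hσ0 : 0 < σ := lt_trans (by positivity) hs
    obtain ⟨j, rfl⟩ : ∃ j', j = j' + 1 := by
      cases j with
      | zero => simp at h2; linarith
      | succ j => exact ⟨j, rfl⟩
    obtain ⟨ν, rfl⟩ : ∃ ν', ν = ν' + 1 := ⟨ν - 1, by omega⟩
    obtain ⟨W, R', hW, hR', hR'R, hcov⟩ := step_lemma H hΛ hM hη hSS R hR σ hs
    have hθ : (0 : ℝ) ≤ (1 - η / 4) ^ k := pow_nonneg (by linarith) k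
    set φ : (Fin 2 → Ω) → Prop := fun A => η * σ / 4 ≤ 𝔼 B, ind (R B ∧ Conf H A B) with hφ
    set Q : (Fin 2 → Ω) → (Fin 2 → Ω) → Prop := fun A B => R B ∧ ¬ Conf H A B with hQ
    have key : ∀ x : Fin m → Ω, ind (Mt H D R (ν + 1) x) ≤
        ∑ q : Fin m × Fin m, ind (q.1 ≠ q.2) * ind (φ (pr 0 (x q.1) (x q.2)) ∧
          Mt H ((D.erase q.1).erase q.2) (Q (pr 0 (x q.1) (x q.2))) ν x) +
        (ind (u' ≤ (univ.filter fun i => W (x i)).card) + ind (Mt H D R' (ν + 1 - u') x)) := by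
      intro x
      have hnn : ∀ q : Fin m × Fin m, 0 ≤ ind (q.1 ≠ q.2) * ind (φ (pr 0 (x q.1) (x q.2)) ∧
          Mt H ((D.erase q.1).erase q.2) (Q (pr 0 (x q.1) (x q.2))) ν x) := fun q =>
        mul_nonneg (ind_nonneg _) (ind_nonneg _)
      by_cases hx : Mt H D R (ν + 1) x
      · rw [ind_pos hx]
        obtain ⟨S, a1, a2, a3⟩ := hx
        by_cases hS : ∃ q ∈ S, φ (pr 0 (x q.1) (x q.2))
        · obtain ⟨q, hq, e⟩ := hS
          refine le_add_of_le_of_nonneg ?_ (add_nonneg (ind_nonneg _) (ind_nonneg _))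
          refine le_trans ?_ (single_le_sum (fun q _ => hnn q) (mem_univ q))
          rw [ind_pos (a2 q hq).2.2.1, ind_pos ⟨e, Mt.erase a1 a2 a3 hq⟩, one_mul]
        · push Not at hS
          refine le_add_of_nonneg_of_le (sum_nonneg fun q _ => hnn q) ?_
          by_cases hc : u' ≤ (univ.filter fun i => W (x i)).card
          · rw [ind_pos hc]; exact le_add_of_nonneg_right (ind_nonneg _)
          rw [ind_neg hc, zero_add, ind_pos]
          refine ⟨S.filter fun q => R' (pr 0 (x q.1) (x q.2)), ?_, fun q hq => ?_,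
            fun q hq q' hq' => a3 q (mem_filter.1 hq).1 q' (mem_filter.1 hq').1⟩
          · have c1 := card_filter_add_card_filter_not (s := S)
              (fun q => R' (pr 0 (x q.1) (x q.2)))
            have c2 : (S.filter fun q => ¬ R' (pr 0 (x q.1) (x q.2))).card ≤
                (univ.filter fun i => W (x i)).card := by
              refine card_le_card_of_injOn (fun q => if W (x q.1) then q.1 else q.2)
                (fun q hq => ?_) (fun q hq q' hq' e => ?_)
              · obtain ⟨hq, hq2⟩ := mem_filter.1 (mem_coe.1 hq)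
                have := hcov _ (a2 q hq).2.2.2 (not_le.1 (hS q hq))
                simp only [mem_coe, mem_filter, mem_univ, true_and]
                split_ifs with hw
                · exact hw
                · exact (this.resolve_left hw).resolve_right hq2
              · by_contra hne
                have := a3 q (mem_filter.1 (mem_coe.1 hq)).1 q' (mem_filter.1 (mem_coe.1 hq')).1 hne
                dsimp only at e
                split_ifs at e <;> tauto
            omega
          · obtain ⟨hq, hq2⟩ := mem_filter.1 hq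
            exact ⟨(a2 q hq).1, (a2 q hq).2.1, (a2 q hq).2.2.1, hq2⟩
      · rw [ind_neg hx]
        exact add_nonneg (sum_nonneg fun q _ => hnn q) (add_nonneg (ind_nonneg _) (ind_nonneg _))
    have hb0 : 0 ≤ ((m : ℝ) ^ 2 + 2) ^ k * p := by positivity
    have hb : ∀ q : Fin m × Fin m, 𝔼 x : Fin m → Ω, ind (q.1 ≠ q.2) *
        ind (φ (pr 0 (x q.1) (x q.2)) ∧
          Mt H ((D.erase q.1).erase q.2) (Q (pr 0 (x q.1) (x q.2))) ν x) ≤
        ((m : ℝ) ^ 2 + 2) ^ k * p := by
      intro q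
      by_cases hq : q.1 = q.2
      · simpa only [ind_neg (not_not.2 hq), zero_mul, expect_const_zero] using hb0
      simp only [ind_pos hq, one_mul]
      refine (cond_pair H D q.1 q.2 hq φ Q ν _ fun A hA => ?_).trans
        (mul_le_of_le_one_right hb0 (expect_le_const zero_le_one fun A => ind_le_one _))
      have e : 𝔼 B, ind (Q A B) = σ - 𝔼 B, ind (R B ∧ Conf H A B) := by
        rw [hσ, ← expect_sub_distrib]
        refine expect_congr rfl fun B _ => ?_
        simp only [hQ]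
        rw [ind_and, ind_and, ind_not]; ring
      have hA' : η * σ / 4 ≤ 𝔼 B, ind (R B ∧ Conf H A B) := hA
      refine ih (j + 1) _ _ ν (fun B hB => hR B hB.1) ?_ ?_ (by omega)
      · refine le_trans ?_ h1
        rw [pow_succ', ← mul_assoc]
        exact mul_le_mul_of_nonneg_right (by rw [e]; linarith) hθ
      · refine le_trans ?_ h2
        rw [e]
        have : 0 ≤ η * σ / 4 := by positivity
        linarith
    have hc := (prob_many (m := m) W _ hW u' hu').trans hp2
    have hd := ih j D R' (ν + 1 - u') (fun A hA => hR A (hR'R A hA)) (by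
      refine le_trans ?_ h1
      rw [pow_succ', ← mul_assoc]
      exact mul_le_mul_of_nonneg_right (by nlinarith) hθ) (by
      rw [pow_succ] at h2; linarith) (by
      rw [add_mul] at h3; omega)
    refine (expect_mono key).trans ?_
    rw [expect_add_distrib, expect_add_distrib, expect_sum_comm]
    refine (add_le_add (sum_le_sum fun q _ => hb q) (add_le_add hc hd)).trans ?_
    simp only [sum_const, card_univ, Fintype.card_prod, Fintype.card_fin, nsmul_eq_mul]
    have : p ≤ ((m : ℝ) ^ 2 + 2) ^ k * p :=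
      le_mul_of_one_le_left hp (one_le_pow₀ (by nlinarith [sq_nonneg (m : ℝ)]))
    push_cast
    rw [pow_succ _ k]
    nlinarith

/-- the complement of the sampled graph -/
def sampleG (H : SimpleGraph Ω) (x : Fin m → Ω) : SimpleGraph (Fin m) := (H.comap x)ᶜ

omit [Fintype Ω] in
theorem sampleG_adj (H : SimpleGraph Ω) (x : Fin m → Ω) (i j : Fin m) :
    (sampleG H x).Adj i j ↔ i ≠ j ∧ ¬ H.Adj (x i) (x j) := by
  simp [sampleG]

omit [Fintype Ω] in
theorem sampleG_indep (H : SimpleGraph Ω) (hH : H.CliqueFree 3) (x : Fin m → Ω) :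
    (sampleG H x).indepNum ≤ 2 := by
  classical
  obtain ⟨s, hs⟩ := (sampleG H x).exists_isNIndepSet_indepNum
  by_contra hc
  obtain ⟨a, b, c, ha, hb, hc, hab, hac, hbc⟩ := two_lt_card_iff.1
    (show 2 < s.card by rw [hs.card_eq]; omega)
  have key : ∀ i ∈ s, ∀ j ∈ s, i ≠ j → H.Adj (x i) (x j) := by
    intro i hi j hj hij
    by_contra h
    exact hs.isIndepSet hi hj hij ((sampleG_adj H x i j).2 ⟨hij, h⟩)
  exact hH _ (SimpleGraph.is3Clique_triple_iff.2 ⟨key a ha b hb hab, key a ha c hc hac,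
    key b hb c hc hbc⟩)

omit [Fintype Ω] in
theorem Mt_of_family (H : SimpleGraph Ω) (x : Fin m → Ω) {α : Type} (T : Finset α)
    (g : α → Fin 2 → Fin m) (h1 : ∀ l ∈ T, (sampleG H x).Adj (g l 0) (g l 1))
    (h2 : ∀ l ∈ T, ∀ l' ∈ T, l ≠ l' → (∀ i j, g l i ≠ g l' j) ∧
      ∃ i j, (sampleG H x).Adj (g l i) (g l' j)) :
    Mt H univ (fun A => ¬ H.Adj (A 0) (A 1)) T.card x := by
  classical
  refine ⟨T.image fun l => (g l 0, g l 1), ?_, fun p hp => ?_, fun p hp q hq hpq => ?_⟩
  · rw [card_image_of_injOn]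
    intro l hl l' hl' e
    by_contra hne
    exact (h2 l hl l' hl' hne).1 0 0 (congrArg Prod.fst e)
  · obtain ⟨l, hl, rfl⟩ := mem_image.1 hp
    have := (sampleG_adj H x _ _).1 (h1 l hl)
    exact ⟨mem_univ _, mem_univ _, this.1, this.2⟩
  · obtain ⟨l, hl, rfl⟩ := mem_image.1 hp
    obtain ⟨l', hl', rfl⟩ := mem_image.1 hq
    obtain ⟨a1, i, j, a2⟩ := h2 l hl l' hl' (fun e => hpq (by rw [e]))
    refine ⟨a1 0 0, a1 0 1, a1 1 0, a1 1 1, fun hc => ((sampleG_adj H x _ _).1 a2).2 ?_⟩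
    have := hc i j
    fin_cases i <;> fin_cases j <;> exact this

omit [Fintype Ω] in
theorem minor_bound (H : SimpleGraph Ω) (x : Fin m → Ω) (ν : ℕ)
    (hx : ¬ Mt H univ (fun A => ¬ H.Adj (A 0) (A 1)) ν x) (t : ℕ)
    (ht : HasCliqueMinor (sampleG H x) t) : 3 * t ≤ m + 5 * ν := by
  classical
  obtain ⟨B, hB1, hB2, hB3⟩ := ht
  set c : Fin t → ℕ := fun i => (B i).toFinset.card with hc
  have hsum : ∑ i, c i ≤ m := by
    rw [hc, ← card_biUnion]
    · simpa using card_le_univ (univ.biUnion fun i => (B i).toFinset)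
    · intro i _ j _ hij
      exact Set.disjoint_toFinset.2 (hB2 i j hij)
  have hpos : ∀ i, 0 < c i := fun i => by
    obtain ⟨⟨v, hv⟩⟩ := (hB1 i).nonempty
    exact card_pos.2 ⟨v, Set.mem_toFinset.2 hv⟩
  have hne : ∀ i j, i ≠ j → ∀ a ∈ B i, ∀ b ∈ B j, a ≠ b := fun i j hij a ha b hb e =>
    Set.disjoint_left.1 (hB2 i j hij) ha (e ▸ hb)
  have h2 : (univ.filter fun i => c i = 2).card < ν := by
    by_contra hcon
    have hex : ∀ i, ∃ g : Fin 2 → Fin m, c i = 2 → (sampleG H x).Adj (g 0) (g 1) ∧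
        ∀ v, v ∈ B i ↔ ∃ k, v = g k := by
      intro i
      by_cases hi : c i = 2
      · obtain ⟨a, b, hab, e⟩ := card_eq_two.1 hi
        have e' : ∀ v, v ∈ B i ↔ v = a ∨ v = b := fun v => by
          rw [← Set.mem_toFinset, e]; simp
        refine ⟨![a, b], fun _ => ⟨?_, fun v => by rw [e']; simp [Fin.exists_fin_two]⟩⟩
        obtain ⟨w⟩ := (hB1 i).preconnected ⟨a, (e' a).2 (Or.inl rfl)⟩ ⟨b, (e' b).2 (Or.inr rfl)⟩
        cases w with
        | nil => exact absurd rfl hab
        | cons hadj _ =>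
          rename_i v _
          have h5 : (sampleG H x).Adj a v.1 := hadj
          rcases (e' v.1).1 v.2 with h6 | h6
          · rw [h6] at h5; exact absurd h5 (SimpleGraph.irrefl _)
          · rw [h6] at h5; exact h5
      · obtain ⟨⟨v, _⟩⟩ := (hB1 i).nonempty
        exact ⟨fun _ => v, fun h => absurd h hi⟩
    choose g hg using hex
    refine hx ((Mt_of_family H x (univ.filter fun i => c i = 2) g
      (fun l hl => (hg l (mem_filter.1 hl).2).1) fun l hl l' hl' hll => ?_).mono (not_lt.1 hcon))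
    have e1 := (hg l (mem_filter.1 hl).2).2
    have e2 := (hg l' (mem_filter.1 hl').2).2
    refine ⟨fun i j => hne l l' hll _ ((e1 _).2 ⟨i, rfl⟩) _ ((e2 _).2 ⟨j, rfl⟩), ?_⟩
    obtain ⟨a, ha, b, hb, hab⟩ := hB3 l l' hll
    obtain ⟨i, rfl⟩ := (e1 a).1 ha
    obtain ⟨j, rfl⟩ := (e2 b).1 hb
    exact ⟨i, j, hab⟩
  have h1 : (univ.filter fun i => c i = 1).card < 2 * ν := by
    by_contra hcon
    obtain ⟨f, hf⟩ : ∃ f : Fin ν × Fin 2 ↪ Fin t, ∀ y, c (f y) = 1 := by
      obtain ⟨f⟩ := Function.Embedding.nonempty_of_card_le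
        (α := Fin ν × Fin 2) (β := (univ.filter fun i => c i = 1)) (by
          simp only [Fintype.card_prod, Fintype.card_fin, Fintype.card_coe]; omega)
      exact ⟨f.trans (Function.Embedding.subtype _), fun y => (mem_filter.1 (f y).2).2⟩
    have hex : ∀ y, ∃ v, ∀ w, w ∈ B (f y) ↔ w = v := fun y => by
      obtain ⟨v, e⟩ := card_eq_one.1 (hf y)
      exact ⟨v, fun w => by rw [← Set.mem_toFinset, e]; simp⟩
    choose v hv using hex
    have hadj : ∀ y y', y ≠ y' → (sampleG H x).Adj (v y) (v y') := by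
      intro y y' hy
      obtain ⟨a, ha, b, hb, hab⟩ := hB3 _ _ (f.injective.ne hy)
      rwa [(hv y a).1 ha, (hv y' b).1 hb] at hab
    refine hx ((Mt_of_family H x (univ : Finset (Fin ν)) (fun l k => v (l, k))
      (fun l _ => hadj _ _ (by simp)) fun l _ l' _ hll => ⟨fun i j => (hadj _ _ (by simp [hll])).ne,
        0, 0, hadj _ _ (by simp [hll])⟩).mono (by simp))
  have h3 : ∀ i, 3 ≤ c i + (2 * (if c i = 1 then 1 else 0) + if c i = 2 then 1 else 0) := by
    intro i
    have := hpos i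
    split_ifs <;> omega
  have h4 := sum_le_sum fun i (_ : i ∈ (univ : Finset (Fin t))) => h3 i
  rw [sum_add_distrib, sum_add_distrib, ← mul_sum, ← card_filter, ← card_filter] at h4
  simp only [sum_const, card_univ, Fintype.card_fin, smul_eq_mul] at h4
  omega

end Vale.Agent.P060
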