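import Vale.Agent.P060.LemV

namespace Vale.Agent.P060

open Finset Polynomial Filter
open scoped BigOperators

variable {F : Type} [Field F] [Fintype F] [Algebra K F] {e n h M : ℕ}

/-- pairs of vertices split into frames and the remaining random data -/
def splitE : (Fin 2 → Frame F e n) × (Fin 2 → UT F e n h) ≃ (Fin 2 → Vtx F e n h) where
  toFun p := fun j => (p.1 j, p.2 j)
  invFun B := (fun j => (B j).1, fun j => (B j).2)
  left_inv _ := rfl
  right_inv _ := rfl

theorem expect_split (f : (Fin 2 → Vtx F e n h) → ℝ) :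
    𝔼 B, f B = 𝔼 c : Fin 2 → Frame F e n, 𝔼 ut : Fin 2 → UT F e n h, f fun j => (c j, ut j) := by
  rw [← expect_equiv' splitE f, expect_prod]; rfl

/-- averaging over the linear maps `u` of both vertices -/
theorem expect_u (ψ : Fin 2 → Ix h → TV F n) :
    𝔼 ut : Fin 2 → UT F e n h, sgn (∑ j, ∑ k, (ut j).1 (ψ j k) k) = ind (ψ = 0) := by
  classical
  rw [expect_sgn_of_add (fun ut : Fin 2 → UT F e n h => ∑ j, ∑ k, (ut j).1 (ψ j k) k)
    fun a b => by simp [sum_add_distrib]]
  refine ind_congr ⟨fun H => ?_, fun H ut => by simp [H]⟩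
  funext j k
  by_contra hne
  obtain ⟨φ, hφ⟩ := not_forall.mp ((Module.forall_dual_apply_eq_zero_iff K (ψ j k)).not.mpr hne)
  have := H (Pi.single j ((LinearMap.single K (fun _ : Ix h => K) k).comp φ, 0))
  rw [sum_eq_single j (fun j' _ hj => by simp [Pi.single_eq_of_ne hj]) (by simp),
    sum_eq_single k (fun k' _ hk => by simp [Pi.single_eq_of_ne hk]) (by simp)] at this
  exact hφ (by simpa using this)

/-- the inner sum of a term, as a function of the second pair -/
noncomputable def inner' (Z : Slot → Ix h → Y F (4 * e))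
    (a₁ : (Fin 2 → Vtx F e n h) → (Slot → F) → ℝ)
    (θ : (Fin 2 → Vtx F e n h) → (Slot → F) → (Fin 2 → Frame F e n) → (Slot → F) → ℝ)
    (B : Fin 2 → Vtx F e n h) (t' : Slot → F) : ℝ :=
  𝔼 T : (Fin 2 → Vtx F e n h) × (Slot → F), a₁ T.1 T.2 * ind (Match T.1 T.2 B t') *
    θ T.1 T.2 (fun j => (B j).c) t' * sgn (∑ j, ∑ k, (B j).u (psi T.1 Z j k) k)

theorem term_eq (Z : Slot → Ix h → Y F (4 * e))
    (a₁ a₂ : (Fin 2 → Vtx F e n h) → (Slot → F) → ℝ)
    (θ : (Fin 2 → Vtx F e n h) → (Slot → F) → (Fin 2 → Frame F e n) → (Slot → F) → ℝ) :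
    term Z a₁ a₂ θ = 𝔼 T' : (Fin 2 → Vtx F e n h) × (Slot → F),
      a₂ T'.1 T'.2 * inner' Z a₁ θ T'.1 T'.2 := by
  simp only [inner', mul_expect]
  rw [expect_comm, term, expect_prod]
  refine expect_congr rfl fun A _ => expect_congr rfl fun t _ => ?_
  rw [expect_prod]
  exact expect_congr rfl fun B _ => expect_congr rfl fun t' _ => by ring

/-- powers of the inner sum, averaged over the linear maps `u` of the second pair -/
theorem inner_pow (Z : Slot → Ix h → Y F (4 * e))
    (a₁ : (Fin 2 → Vtx F e n h) → (Slot → F) → ℝ)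
    (θ : (Fin 2 → Vtx F e n h) → (Slot → F) → (Fin 2 → Frame F e n) → (Slot → F) → ℝ)
    (hθ : ∀ A t c t', |θ A t c t'| ≤ 1) (L : ℕ) (c : Fin 2 → Frame F e n) (t' : Slot → F) :
    𝔼 ut : Fin 2 → UT F e n h, inner' Z a₁ θ (fun j => (c j, ut j)) t' ^ L ≤
      𝔼 T : Fin L → (Fin 2 → Vtx F e n h) × (Slot → F),
        (∏ l, |a₁ (T l).1 (T l).2| *
          ind ((fun s : Slot => pt (c s.1) (t' s)) = pts (T l).1 (T l).2 ∘ Prod.swap)) *
        ind (∑ l, psi (T l).1 Z = 0) := by
  have e1 : ∀ ut : Fin 2 → UT F e n h, inner' Z a₁ θ (fun j => (c j, ut j)) t' ^ L =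
      𝔼 T : Fin L → (Fin 2 → Vtx F e n h) × (Slot → F),
        (∏ l, a₁ (T l).1 (T l).2 *
          ind ((fun s : Slot => pt (c s.1) (t' s)) = pts (T l).1 (T l).2 ∘ Prod.swap) *
          θ (T l).1 (T l).2 c t') * sgn (∑ j, ∑ k, (ut j).1 ((∑ l, psi (T l).1 Z) j k) k) := by
    intro ut
    rw [← Fin.prod_const, inner', ← expect_pi_prod]
    refine expect_congr rfl fun T _ => ?_
    rw [prod_mul_distrib, ← sgn_sum]
    congr 2
    simp only [Finset.sum_apply, map_sum]
    rw [sum_comm]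
    exact sum_congr rfl fun j _ => sum_comm
  simp only [e1]
  rw [expect_comm]
  refine expect_mono fun T => ?_
  rw [← mul_expect, expect_u]
  refine mul_le_mul_of_nonneg_right ((le_abs_self _).trans ?_) (ind_nonneg _)
  rw [abs_prod]
  refine prod_le_prod (fun l _ => abs_nonneg _) fun l _ => ?_
  rw [abs_mul, abs_mul, abs_of_nonneg (ind_nonneg _)]
  exact mul_le_of_le_one_right (mul_nonneg (abs_nonneg _) (ind_nonneg _)) (hθ _ _ _ _)

/-- Jensen's inequality for a sub-probability weight -/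
theorem expect_weighted_pow_le {α : Type*} [Fintype α] (w f : α → ℝ) (hw : ∀ a, 0 ≤ w a)
    (hw1 : 𝔼 a, w a ≤ 1) (hf : ∀ a, 0 ≤ f a) {L : ℕ} (hL : L ≠ 0) :
    (𝔼 a, w a * f a) ^ L ≤ 𝔼 a, w a * f a ^ L := by
  classical
  rcases isEmpty_or_nonempty α with _ | _
  · simp [hL]
  have hc : (0 : ℝ) < Fintype.card α := by positivity
  let w' : Option α → ℝ := fun o => o.elim (1 - 𝔼 a, w a) fun a => w a / Fintype.card α
  let f' : Option α → ℝ := fun o => o.elim 0 f
  have h := Real.pow_arith_mean_le_arith_mean_pow univ w' f'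
    (fun o _ => by
      cases o with
      | none => exact sub_nonneg.mpr hw1
      | some a => exact div_nonneg (hw a) hc.le)
    (by
      rw [Fintype.sum_option]
      simp only [w', Option.elim, expect_eq_sum_div, sum_div]
      ring)
    (fun o _ => by
      cases o with
      | none => exact le_rfl
      | some a => exact hf a) L
  simp only [Fintype.sum_option, w', f', Option.elim, mul_zero, zero_add, zero_pow hL] at h
  simpa only [expect_eq_sum_div, sum_div, mul_div_right_comm] using h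

theorem term_pow_le {hh : (Fin 2 → Vtx F e n h) → ℝ} {Λ M κm : ℝ} (hd : Dens hh Λ M) (hκ : 0 ≤ κm)
    (Z : Slot → Ix h → Y F (4 * e)) (a₁ a₂ : (Fin 2 → Vtx F e n h) → (Slot → F) → ℝ)
    (θ : (Fin 2 → Vtx F e n h) → (Slot → F) → (Fin 2 → Frame F e n) → (Slot → F) → ℝ)
    (D : (Slot → F) → Prop) (h₂ : ∀ A t, |a₂ A t| ≤ κm * (hh A * ind (D t)))
    (hθ : ∀ A t c t', |θ A t c t'| ≤ 1) {L : ℕ} (hL : L ≠ 0) (hL2 : Even L) :
    term Z a₁ a₂ θ ^ L ≤ κm ^ L * Λ * 𝔼 t' : Slot → F, ind (D t') * 𝔼 c : Fin 2 → Frame F e n,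
      𝔼 T : Fin L → (Fin 2 → Vtx F e n h) × (Slot → F),
        (∏ l, |a₁ (T l).1 (T l).2| *
          ind ((fun s : Slot => pt (c s.1) (t' s)) = pts (T l).1 (T l).2 ∘ Prod.swap)) *
        ind (∑ l, psi (T l).1 Z = 0) := by
  have hΛ : 0 ≤ Λ := by
    obtain ⟨x⟩ := hd.nonempty
    exact (hd.nonneg fun _ => x).trans (hd.le _)
  have s1 : |term Z a₁ a₂ θ| ≤ κm * 𝔼 T' : (Fin 2 → Vtx F e n h) × (Slot → F),
      (hh T'.1 * ind (D T'.2)) * |inner' Z a₁ θ T'.1 T'.2| := by
    rw [term_eq, mul_expect]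
    refine (abs_expect_le' _).trans (expect_mono fun T' => ?_)
    rw [abs_mul, ← mul_assoc]
    exact mul_le_mul_of_nonneg_right (h₂ _ _) (abs_nonneg _)
  have s2 := expect_weighted_pow_le (fun T' : (Fin 2 → Vtx F e n h) × (Slot → F) =>
      hh T'.1 * ind (D T'.2)) (fun T' => |inner' Z a₁ θ T'.1 T'.2|)
    (fun T' => mul_nonneg (hd.nonneg _) (ind_nonneg _))
    (by
      rw [expect_prod, ← hd.total]
      exact expect_mono fun A => expect_le univ_nonempty fun t _ =>
        mul_le_of_le_one_right (hd.nonneg _) (ind_le_one _))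
    (fun _ => abs_nonneg _) hL
  rw [← hL2.pow_abs]
  refine (pow_le_pow_left₀ (abs_nonneg _) s1 L).trans ?_
  rw [mul_pow, mul_assoc]
  refine mul_le_mul_of_nonneg_left (s2.trans ?_) (by positivity)
  rw [expect_prod, expect_comm, mul_expect]
  refine expect_mono fun t' => ?_
  simp only [hL2.pow_abs]
  calc 𝔼 B, hh B * ind (D t') * inner' Z a₁ θ B t' ^ L
      = ind (D t') * 𝔼 B, hh B * inner' Z a₁ θ B t' ^ L := by
        rw [mul_expect]; exact expect_congr rfl fun B _ => by ring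
    _ ≤ ind (D t') * (Λ * 𝔼 B, inner' Z a₁ θ B t' ^ L) :=
        mul_le_mul_of_nonneg_left (hd.expect_le _ fun B => hL2.pow_nonneg _) (ind_nonneg _)
    _ ≤ _ := by
        rw [mul_left_comm, expect_split]
        refine mul_le_mul_of_nonneg_left (mul_le_mul_of_nonneg_left (expect_mono fun c => ?_)
          (ind_nonneg _)) hΛ
        exact inner_pow Z a₁ θ hθ L c t'

/-- J8b: high rank terms -/
theorem term_high {hh : (Fin 2 → Vtx F e n h) → ℝ} {Λ M κm : ℝ} (hd : Dens hh Λ M) (hκ : 0 ≤ κm)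
    (Z : Slot → Ix h → Y F (4 * e)) {R : ℕ} (s : Slot) (k : Ix h) (hZ : ¬ LowRk e R (Z s k))
    (a₁ a₂ : (Fin 2 → Vtx F e n h) → (Slot → F) → ℝ)
    (θ : (Fin 2 → Vtx F e n h) → (Slot → F) → (Fin 2 → Frame F e n) → (Slot → F) → ℝ)
    (h₁ : ∀ A t, |a₁ A t| ≤ κm * hh A) (h₁' : ∀ A t, a₁ A t ≠ 0 → ∀ i, Surj (A i).c)
    (h₂ : ∀ A t, |a₂ A t| ≤ κm * hh A) (hθ : ∀ A t c t', |θ A t c t'| ≤ 1) :
    term Z a₁ a₂ θ ^ 2 ≤ κm ^ 4 * Λ ^ 2 *
      ((Fintype.card F : ℝ) ^ ((R + 1) * (e + 1)) / (Fintype.card F : ℝ) ^ ((R + 1) * n)) := by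
  have hΛ : 0 ≤ Λ := by
    obtain ⟨x⟩ := hd.nonempty
    exact (hd.nonneg fun _ => x).trans (hd.le _)
  set β := (Fintype.card F : ℝ) ^ ((R + 1) * (e + 1)) / (Fintype.card F : ℝ) ^ ((R + 1) * n)
    with hβ
  have β0 : 0 ≤ β := by positivity
  obtain ⟨i, j⟩ := s
  have key : ∀ ψ : TV F n, 𝔼 T : (Fin 2 → Vtx F e n h) × (Slot → F),
      |a₁ T.1 T.2| * ind (psi T.1 Z j k = ψ) ≤ κm * Λ * β := by
    intro ψ
    rw [expect_prod]
    calc _ ≤ 𝔼 A, κm * (hh A * ind (Surj (A i).c ∧ psi A Z j k = ψ)) := by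
          refine expect_mono fun A => expect_le univ_nonempty fun t _ => ?_
          by_cases h0 : a₁ A t = 0
          · simp only [h0, abs_zero, zero_mul]
            exact mul_nonneg hκ (mul_nonneg (hd.nonneg _) (ind_nonneg _))
          · rw [ind_and, ind_pos (h₁' A t h0 i), one_mul, ← mul_assoc]
            exact mul_le_mul_of_nonneg_right (h₁ A t) (ind_nonneg _)
      _ ≤ κm * (Λ * β) := by
          rw [← mul_expect]
          refine mul_le_mul_of_nonneg_left ((hd.expect_le _ fun _ => ind_nonneg _).trans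
            (mul_le_mul_of_nonneg_left ?_ hΛ)) hκ
          rw [expect_pr i, expect_comm]
          refine expect_le_const β0 fun y => ?_
          rw [expect_prod]
          refine le_trans (expect_mono fun c => ?_)
            (high_prob hZ (ψ + U y.c (Z (i.rev, j) k)))
          refine expect_le univ_nonempty fun ut _ => ind_mono ?_
          rintro ⟨g1, g2⟩
          refine ⟨by simpa using g1, ?_⟩
          rw [← g2]
          fin_cases i
          · simp [psi, pr, add_assoc, add_self_K]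
          · simp [psi, pr, add_comm, ← add_assoc, add_self_K]
      _ = _ := by ring
  refine (term_pow_le hd hκ Z a₁ a₂ θ (fun _ => True) (by simpa using h₂) hθ two_ne_zero
    even_two).trans ?_
  have : κm ^ 4 * Λ ^ 2 * β = κm ^ 2 * Λ * (κm * (κm * Λ * β)) := by ring
  rw [this]
  refine mul_le_mul_of_nonneg_left ?_ (by positivity)
  refine expect_le univ_nonempty fun t' _ => ?_
  rw [ind_true, one_mul]
  refine expect_le univ_nonempty fun c _ => ?_
  rw [expect_pr 0]
  calc _ ≤ 𝔼 T : (Fin 2 → Vtx F e n h) × (Slot → F), κm * hh T.1 * (κm * Λ * β) := by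
        refine expect_mono fun T => ?_
        refine le_trans ?_ (mul_le_mul (h₁ T.1 T.2) (key (psi T.1 Z j k))
          (expect_nonneg' fun _ => mul_nonneg (abs_nonneg _) (ind_nonneg _))
          (mul_nonneg hκ (hd.nonneg _)))
        rw [mul_expect]
        refine expect_mono fun T' => ?_
        simp only [Fin.prod_univ_two, Fin.sum_univ_two, pr, if_true, one_ne_zero, if_false]
        rw [← mul_assoc |a₁ T.1 T.2| |a₁ T'.1 T'.2|]
        refine mul_le_mul (mul_le_mul (mul_le_of_le_one_right (abs_nonneg _) (ind_le_one _))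
          (mul_le_of_le_one_right (abs_nonneg _) (ind_le_one _))
          (mul_nonneg (abs_nonneg _) (ind_nonneg _)) (abs_nonneg _)) (ind_mono fun hx => ?_)
          (ind_nonneg _) (mul_nonneg (abs_nonneg _) (abs_nonneg _))
        exact (add_eq_zero_K.mp (congrFun (congrFun hx j) k)).symm
    _ = _ := by
        rw [← expect_mul, ← mul_expect, expect_prod]
        simp only [Fintype.expect_const, hd.total, mul_one]

end Vale.Agent.P060
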