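import Vale.Agent.P060.Basic

namespace Vale.Agent.P060

open Finset Polynomial Filter
open scoped BigOperators

section LemSAux
variable {F E : Type} [Field F] [AddCommGroup E] [Module F E]

theorem mlin_congr_mod (X : MultilinearMap F (fun _ : Fin 4 => E) F) (N : Submodule F E)
    (van : ∀ (α : Fin 4 → E) j, α j ∈ N → X α = 0) (α β : Fin 4 → E) (h : ∀ j, α j - β j ∈ N) :
    X α = X β := by
  have h1 : α = β + (α - β) := by abel
  rw [h1, X.map_add_univ, sum_eq_single univ]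
  · simp
  · intro s _ hs
    obtain ⟨j, hj⟩ : ∃ j, j ∉ s := by
      by_contra hc
      exact hs (eq_univ_iff_forall.mpr fun j => by_contra fun hj => hc ⟨j, hj⟩)
    exact van _ j (by rw [piecewise_eq_of_notMem _ _ _ hj]; exact h j)
  · simp

theorem mlin_van_any (X : MultilinearMap F (fun _ : Fin 4 => E) F) (N : Submodule F E) (k : Fin 4)
    (symm : ∀ (σ : Equiv.Perm (Fin 4)) (α : Fin 4 → E), X (α ∘ σ) = X α)
    (van : ∀ α : Fin 4 → E, α k ∈ N → X α = 0) (α : Fin 4 → E) (j : Fin 4) (hj : α j ∈ N) :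
    X α = 0 := by
  rw [← symm (Equiv.swap k j) α]
  exact van _ (by simpa using hj)

theorem exists_decomp {N P : Submodule F E} (h : N ⊔ P = ⊤) (α : Fin 4 → E) :
    ∃ β : Fin 4 → E, β 0 ∈ P ∧ β 1 ∈ P ∧ β 2 ∈ P ∧ β 3 = α 3 ∧ ∀ j, α j - β j ∈ N := by
  have key : ∀ a : E, ∃ p ∈ P, a - p ∈ N := fun a => by
    obtain ⟨y, hy, z, hz, rfl⟩ := Submodule.mem_sup.mp (h ▸ Submodule.mem_top : a ∈ N ⊔ P)
    exact ⟨z, hz, by simpa using hy⟩
  choose p hp hp' using key
  refine ⟨![p (α 0), p (α 1), p (α 2), α 3], hp _, hp _, hp _, rfl, fun j => ?_⟩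
  fin_cases j
  · exact hp' _
  · exact hp' _
  · exact hp' _
  · simp

theorem mlin_sum_eq_zero (X₀ X₁ : MultilinearMap F (fun _ : Fin 4 => E) F) {N₀ N₁ P : Submodule F E}
    (h₀ : N₀ ⊔ P = ⊤) (h₁ : N₁ ⊔ P = ⊤)
    (symm : ∀ (σ : Equiv.Perm (Fin 4)) (α : Fin 4 → E), X₀ (α ∘ σ) = X₀ α)
    (van₀ : ∀ (α : Fin 4 → E) j, α j ∈ N₀ → X₀ α = 0)
    (van₁ : ∀ (α : Fin 4 → E) j, α j ∈ N₁ → X₁ α = 0)
    (hz : ∀ α : Fin 4 → E, α 0 ∈ P → α 1 ∈ P → α 2 ∈ P → X₀ α + X₁ α = 0) : X₀ + X₁ = 0 := by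
  have s1 : ∀ α : Fin 4 → E, α 3 ∈ N₁ → X₀ α = 0 := by
    intro α hα
    obtain ⟨β, b0, b1, b2, b3, hβ⟩ := exists_decomp h₀ α
    have := hz β b0 b1 b2
    rw [van₁ β 3 (b3 ▸ hα), add_zero] at this
    rw [mlin_congr_mod X₀ N₀ van₀ α β hβ, this]
  have s2 := mlin_van_any X₀ N₁ 3 symm s1
  ext α
  obtain ⟨β, b0, b1, b2, -, hβ⟩ := exists_decomp h₁ α
  rw [_root_.add_apply, mlin_congr_mod X₀ N₁ s2 α β hβ, mlin_congr_mod X₁ N₁ van₁ α β hβ,
    hz β b0 b1 b2]
  rfl

/-- the bilinear form obtained by fixing two arguments -/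
def bil (X : MultilinearMap F (fun _ : Fin 4 => E) F) (a a' : E) : E →ₗ[F] E →ₗ[F] F :=
  LinearMap.mk₂ F (fun b c => X ![a, a', b, c])
    (fun b b' c => by
      have := X.map_update_add ![a, a', b, c] 2 b b'
      have e : ∀ x, Function.update ![a, a', b, c] 2 x = ![a, a', x, c] := fun x => by
        funext j; fin_cases j <;> rfl
      simpa only [e] using this)
    (fun k b c => by
      have := X.map_update_smul ![a, a', b, c] 2 k b
      have e : ∀ x, Function.update ![a, a', b, c] 2 x = ![a, a', x, c] := fun x => by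
        funext j; fin_cases j <;> rfl
      simpa only [e] using this)
    (fun b c c' => by
      have := X.map_update_add ![a, a', b, c] 3 c c'
      have e : ∀ x, Function.update ![a, a', b, c] 3 x = ![a, a', b, x] := fun x => by
        funext j; fin_cases j <;> rfl
      simpa only [e] using this)
    (fun k b c => by
      have := X.map_update_smul ![a, a', b, c] 3 k c
      have e : ∀ x, Function.update ![a, a', b, c] 3 x = ![a, a', b, x] := fun x => by
        funext j; fin_cases j <;> rfl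
      simpa only [e] using this)

theorem bil_apply (X : MultilinearMap F (fun _ : Fin 4 => E) F) (a a' b c : E) :
    bil X a a' b c = X ![a, a', b, c] := rfl

theorem exists_span_bil [FiniteDimensional F E] (N : Submodule F E) {r : ℕ}
    (hN : Module.finrank F E ≤ Module.finrank F N + r) : ∃ S : Finset (E × E → F),
      S.card ≤ r ^ 2 ∧ ∀ B : E →ₗ[F] E →ₗ[F] F, (∀ a ∈ N, ∀ b, B a b = 0 ∧ B b a = 0) →
        (fun p : E × E => B p.1 p.2) ∈ Submodule.span F (S : Set (E × E → F)) := by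
  classical
  obtain ⟨C, hC⟩ := N.exists_isCompl
  have hCr : Module.finrank F C ≤ r := by
    have := Submodule.finrank_add_eq_of_isCompl hC
    omega
  let b := Module.finBasis F C
  let co : Fin (Module.finrank F C) → E → F := fun i x => b.repr (C.projectionOnto N hC.symm x) i
  let w : Fin (Module.finrank F C) × Fin (Module.finrank F C) → E × E → F :=
    fun ij p => co ij.1 p.1 * co ij.2 p.2
  have hx : ∀ x : E, x - ∑ i, co i x • (b i : E) ∈ N := fun x => by
    have h1 := Submodule.sub_projection_mem hC.symm x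
    have h2 := congrArg Subtype.val (b.sum_repr (C.projectionOnto N hC.symm x))
    simp only [AddSubmonoidClass.coe_finsetSum, SetLike.val_smul] at h2
    rwa [h2]
  refine ⟨univ.image w, card_image_le.trans ?_, fun B hB => ?_⟩
  · rw [card_univ, Fintype.card_prod, Fintype.card_fin, sq]
    exact Nat.mul_le_mul hCr hCr
  · have : (fun p : E × E => B p.1 p.2) = ∑ ij, B (b ij.1) (b ij.2) • w ij := by
      funext p
      have h1 := (hB _ (hx p.1) p.2).1
      have h2 := (hB _ (hx p.2) (∑ i, co i p.1 • (b i : E))).2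
      rw [map_sub, LinearMap.sub_apply, sub_eq_zero] at h1
      rw [map_sub, sub_eq_zero] at h2
      rw [h1, h2]
      simp only [map_sum, map_smul, LinearMap.sum_apply, LinearMap.smul_apply, smul_eq_mul,
        Finset.sum_apply, Pi.smul_apply, w, Fintype.sum_prod_type, mul_sum]
      rw [sum_comm]
      exact sum_congr rfl fun i _ => sum_congr rfl fun j _ => by ring
    rw [this]
    exact Submodule.sum_mem _ fun ij _ => Submodule.smul_mem _ _
      (Submodule.subset_span (by simp))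

end LemSAux

theorem lemS_adjust {F E : Type} [Field F] [AddCommGroup E] [Module F E]
    {L : ℕ} {P₀ : Submodule F E} {N : Fin L → Fin 2 → Submodule F E} {P : Fin L → Submodule F E}
    (memP : ∀ l a, a ∈ P l ↔ a ∈ P₀ ∧ ∀ l' < l, ∀ i, a ∈ N l' i) {old : Finset (Fin L)}
    (hnew : ∀ l, l ∉ old → ∀ i, N l i ⊔ P l = ⊤) :
    ∀ (l : Fin L) (i : Fin 2) (a : E), a ∈ P l → ∃ a' ∈ P l, (∀ i', a - a' ∈ N l i') ∧
      ∀ l', l < l' → l' ∉ old → a' ∈ N l' i := by
  intro l i a ha
  have : ∀ k : ℕ, ∃ a' ∈ P l, (∀ i', a - a' ∈ N l i') ∧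
      ∀ l' : Fin L, l < l' → l'.val < k → l' ∉ old → a' ∈ N l' i := by
    intro k
    induction k with
    | zero => exact ⟨a, ha, fun i' => by simp, fun l' _ h => absurd h (Nat.not_lt_zero _)⟩
    | succ k ih =>
      obtain ⟨a', h1, h2, h3⟩ := ih
      by_cases hk : ∃ l' : Fin L, l < l' ∧ l'.val = k ∧ l' ∉ old
      · obtain ⟨l', hl, hk, hn⟩ := hk
        obtain ⟨y, hy, z, hz, rfl⟩ := Submodule.mem_sup.mp
          (hnew l' hn i ▸ Submodule.mem_top : a' ∈ N l' i ⊔ P l')
        obtain ⟨z0, z1⟩ := (memP l' z).mp hz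
        have hzl : z ∈ P l := (memP l z).mpr ⟨z0, fun l'' h => z1 l'' (h.trans hl)⟩
        refine ⟨y, by simpa using sub_mem h1 hzl, fun i' => ?_, fun l'' g1 g2 g3 => ?_⟩
        · have := add_mem (h2 i') (z1 l hl i')
          convert this using 1
          abel
        · rcases Nat.lt_succ_iff_lt_or_eq.mp g2 with g | g
          · have := sub_mem (h3 l'' g1 g g3) (z1 l'' (by rw [Fin.lt_def]; omega) i)
            simpa using this
          · have : l'' = l' := Fin.ext (by omega)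
            exact this ▸ hy
      · refine ⟨a', h1, h2, fun l' g1 g2 g3 => h3 l' g1 ?_ g3⟩
        rcases Nat.lt_succ_iff_lt_or_eq.mp g2 with g | g
        · exact g
        · exact absurd ⟨l', g1, g, g3⟩ hk
  obtain ⟨a', h1, h2, h3⟩ := this L
  exact ⟨a', h1, h2, fun l' g => h3 l' g l'.2⟩

theorem lemS_pick {F E : Type} [Field F] [AddCommGroup E] [Module F E]
    {L : ℕ} {P₀ : Submodule F E} {N : Fin L → Fin 2 → Submodule F E} {P : Fin L → Submodule F E}
    (memP : ∀ l a, a ∈ P l ↔ a ∈ P₀ ∧ ∀ l' < l, ∀ i, a ∈ N l' i) {old : Finset (Fin L)}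
    (hnew : ∀ l, l ∉ old → ∀ i, N l i ⊔ P l = ⊤)
    (X : Fin L → Fin 2 → MultilinearMap F (fun _ : Fin 4 => E) F)
    (van' : ∀ l i (α : Fin 4 → E) j, α j ∈ N l i → X l i α = 0)
    (symm : ∀ l i (σ : Equiv.Perm (Fin 4)) (α : Fin 4 → E), X l i (α ∘ σ) = X l i α)
    (ne : ∀ l, X l 0 + X l 1 ≠ 0) :
    ∀ l : {l // l ∉ old}, ∃ a a' b c : E, a ∈ P l ∧ b ∈ P l ∧
      (∀ l', l.1 < l' → l' ∉ old → a ∈ N l' 0 ∧ a' ∈ N l' 1) ∧
      X l 0 ![a, a', b, c] + X l 1 ![a, a', b, c] ≠ 0 := by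
  rintro ⟨l, hl⟩
  have : ∃ α : Fin 4 → E, α 0 ∈ P l ∧ α 1 ∈ P l ∧ α 2 ∈ P l ∧ X l 0 α + X l 1 α ≠ 0 := by
    by_contra hc
    refine ne l (mlin_sum_eq_zero _ _ (hnew l hl 0) (hnew l hl 1) (symm l 0) (van' l 0)
      (van' l 1) fun α h0 h1 h2 => ?_)
    by_contra hz
    exact hc ⟨α, h0, h1, h2, hz⟩
  obtain ⟨α, h0, h1, h2, hz⟩ := this
  obtain ⟨a, ha, ha1, ha2⟩ := lemS_adjust memP hnew l 0 _ h0
  obtain ⟨a', -, hb1, hb2⟩ := lemS_adjust memP hnew l 1 _ h1
  refine ⟨a, a', α 2, α 3, ha, h2, fun l' g g' => ⟨ha2 l' g g', hb2 l' g g'⟩, ?_⟩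
  have e : ∀ i, X l i α = X l i ![a, a', α 2, α 3] := fun i =>
    mlin_congr_mod _ _ (van' l i) _ _ fun j => by
      fin_cases j
      · exact ha1 i
      · exact hb1 i
      · simp
      · simp
  rwa [← e, ← e]

theorem lemS_aux {F E : Type} [Field F] [AddCommGroup E] [Module F E] [FiniteDimensional F E]
    {L : ℕ} {P₀ : Submodule F E} {N : Fin L → Fin 2 → Submodule F E} {P : Fin L → Submodule F E}
    (memP : ∀ l a, a ∈ P l ↔ a ∈ P₀ ∧ ∀ l' < l, ∀ i, a ∈ N l' i) {old : Finset (Fin L)}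
    (hnew : ∀ l, l ∉ old → ∀ i, N l i ⊔ P l = ⊤)
    (X : Fin L → Fin 2 → MultilinearMap F (fun _ : Fin 4 => E) F)
    (van' : ∀ l i (α : Fin 4 → E) j, α j ∈ N l i → X l i α = 0)
    (symm : ∀ l i (σ : Equiv.Perm (Fin 4)) (α : Fin 4 → E), X l i (α ∘ σ) = X l i α)
    (ne : ∀ l, X l 0 + X l 1 ≠ 0) {r : ℕ}
    (hN : ∀ l i, Module.finrank F E ≤ Module.finrank F (N l i) + r)
    (hsum : ∀ α : Fin 4 → E, α 0 ∈ P₀ → ∑ l, (X l 0 α + X l 1 α) = 0) :
    L ≤ (2 * r ^ 2 + 1) * old.card := by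
  classical
  choose a a' b c ha hb hab hne using lemS_pick memP hnew X van' symm ne
  let u : Fin L → {l // l ∉ old} → Fin 2 → E × E → F := fun l' l i p => X l' i ![a l, a' l, p.1, p.2]
  let v : {l // l ∉ old} → E × E → F := fun l => u l l 0 + u l l 1
  have hv : LinearIndependent F v := by
    rw [Fintype.linearIndependent_iff]
    intro g hg
    by_contra hc
    obtain ⟨l, hl, hmax⟩ := (univ.filter fun l => g l ≠ 0).exists_max_image (fun l => l.1)
      (by
        obtain ⟨l, hl⟩ := not_forall.mp hc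
        exact ⟨l, mem_filter.mpr ⟨mem_univ _, hl⟩⟩)
    have h1 := congrFun hg (b l, c l)
    simp only [Finset.sum_apply, Pi.smul_apply, Pi.zero_apply] at h1
    rw [sum_eq_single l] at h1
    · exact hne l ((mul_eq_zero.mp h1).resolve_left (mem_filter.mp hl).2)
    · intro l' _ hl'
      by_cases hg' : g l' = 0
      · simp [hg']
      · have hlt : l'.1 < l.1 := lt_of_le_of_ne (hmax l' (mem_filter.mpr ⟨mem_univ _, hg'⟩))
          fun h => hl' (Subtype.ext h)
        have hm := ((memP _ _).mp (hb l)).2 l' hlt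
        simp only [v, u, Pi.add_apply]
        rw [van' l' 0 _ 2 (hm 0), van' l' 1 _ 2 (hm 1)]
        simp
    · simp
  choose S hS hS' using fun l i => exists_span_bil (N l i) (hN l i)
  let T : Finset (E × E → F) := old.biUnion fun l => S l 0 ∪ S l 1
  have hT : T.card ≤ (2 * r ^ 2) * old.card := by
    rw [mul_comm]
    refine card_biUnion_le_card_mul _ _ _ fun l _ => (card_union_le _ _).trans ?_
    have := hS l 0
    have := hS l 1
    omega
  have hvT : ∀ l, v l ∈ Submodule.span F (T : Set (E × E → F)) := by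
    intro l
    have e : v l = -∑ l' ∈ old, (u l' l 0 + u l' l 1) := by
      funext p
      have h1 := hsum ![a l, a' l, p.1, p.2] ((memP _ _).mp (ha l)).1
      rw [← sum_filter_add_sum_filter_not univ (· ∈ old), filter_mem_eq_inter, univ_inter,
        sum_eq_single (s := filter _ _) l.1] at h1
      · simp only [v, u, Pi.add_apply, Pi.neg_apply, Finset.sum_apply]
        exact eq_neg_of_add_eq_zero_right h1
      · intro l' hl' hne'
        rcases lt_or_gt_of_ne hne' with g | g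
        · have hm := ((memP _ _).mp (ha l)).2 l' g
          rw [van' l' 0 _ 0 (hm 0), van' l' 1 _ 0 (hm 1), add_zero]
        · have hm := hab l l' g (mem_filter.mp hl').2
          rw [van' l' 0 _ 0 hm.1, van' l' 1 _ 1 hm.2, add_zero]
      · intro hl
        exact absurd (mem_filter.mpr ⟨mem_univ l.1, l.2⟩) hl
    rw [e]
    refine neg_mem (sum_mem fun l' hl' => ?_)
    have m : ∀ i, u l' l i ∈ Submodule.span F (T : Set (E × E → F)) := by
      intro i
      refine Submodule.span_mono ?_ (hS' l' i (bil (X l' i) (a l) (a' l))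
        fun x hx y => ⟨van' _ _ _ 2 hx, van' _ _ _ 3 hx⟩)
      intro f hf
      refine mem_coe.mpr (mem_biUnion.mpr ⟨l', hl', ?_⟩)
      fin_cases i
      · exact mem_union_left _ hf
      · exact mem_union_right _ hf
    exact add_mem (m 0) (m 1)
  have hcard := linearIndependent_le_span_aux' v hv (T : Set (E × E → F))
    (by rintro _ ⟨l, rfl⟩; exact hvT l)
  simp only [coe_sort_coe, Fintype.card_coe] at hcard
  have hc2 : Fintype.card {l // l ∉ old} = L - old.card := by
    rw [Fintype.card_subtype_compl, Fintype.card_fin, Fintype.card_coe]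
  have hc3 : old.card ≤ L := by simpa using card_le_univ old
  rw [add_mul]
  omega

open Classical in
/-- Lemma S -/
theorem lemS {F E : Type} [Field F] [AddCommGroup E] [Module F E] [FiniteDimensional F E]
    (L r : ℕ) (P₀ : Submodule F E) (N : Fin L → Fin 2 → Submodule F E)
    (hN : ∀ l i, Module.finrank F E ≤ Module.finrank F (N l i) + r)
    (X : Fin L → Fin 2 → MultilinearMap F (fun _ : Fin 4 => E) F)
    (symm : ∀ l i (σ : Equiv.Perm (Fin 4)) (α : Fin 4 → E), X l i (α ∘ σ) = X l i α)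
    (van : ∀ l i (α : Fin 4 → E), α 0 ∈ N l i → X l i α = 0)
    (ne : ∀ l, X l 0 + X l 1 ≠ 0)
    (hsum : ∀ α : Fin 4 → E, α 0 ∈ P₀ → ∑ l, (X l 0 α + X l 1 α) = 0) :
    L ≤ (2 * r ^ 2 + 1) * (univ.filter fun l : Fin L =>
      ∃ i, N l i ⊔ (P₀ ⊓ ⨅ l' : {l' : Fin L // l' < l}, (N l' 0 ⊓ N l' 1)) ≠ ⊤).card := by
  refine lemS_aux (P₀ := P₀) (N := N)
    (P := fun l => P₀ ⊓ ⨅ l' : {l' : Fin L // l' < l}, (N l' 0 ⊓ N l' 1)) ?_ ?_ X
    (fun l i => mlin_van_any (X l i) (N l i) 0 (symm l i) (van l i)) symm ne hN hsum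
  · intro l a
    simp only [Submodule.mem_inf, Submodule.mem_iInf, Subtype.forall, Fin.forall_fin_two]
  · intro l hl i
    by_contra hc
    exact hl (mem_filter.mpr ⟨mem_univ _, i, hc⟩)

end Vale.Agent.P060
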