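import Vale.Agent.P060.ErrHigh
import Vale.Agent.P060.LemS

namespace Vale.Agent.P060

open Finset Polynomial Filter
open scoped BigOperators

theorem seq_prod_le {𝒯 : Type} [Fintype 𝒯] [Nonempty 𝒯] (ν : 𝒯 → ℝ) (hν : ∀ x, 0 ≤ ν x)
    (hν2 : 𝔼 x, ν x ≤ 2) {L : ℕ} (E : Fin L → (Fin L → 𝒯) → Prop) {μ : ℝ} (hμ : 0 < μ)
    (hdep : ∀ l k, l < k → ∀ T x, E l (Function.update T k x) ↔ E l T)
    (hE : ∀ l T, 𝔼 x, ν x * ind (E l (Function.update T l x)) ≤ μ) :
    𝔼 T : Fin L → 𝒯, ∏ l, ν (T l) * (1 + ind (E l T) / μ) ≤ 3 ^ L := by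
  have nn : ∀ l T, 0 ≤ ν (T l) * (1 + ind (E l T) / μ) := fun l T =>
    mul_nonneg (hν _) (add_nonneg zero_le_one (div_nonneg (ind_nonneg _) hμ.le))
  have key : ∀ k : ℕ, k ≤ L → 𝔼 T : Fin L → 𝒯, ∏ l ∈ univ.filter (fun l : Fin L => l.val < k),
      ν (T l) * (1 + ind (E l T) / μ) ≤ 3 ^ k := by
    intro k
    induction k with
    | zero => intro _; simp
    | succ k ih =>
      intro hk
      have ih' := ih (by omega)
      let l₀ : Fin L := ⟨k, hk⟩
      have hins : univ.filter (fun l : Fin L => l.val < k + 1) =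
          insert l₀ (univ.filter fun l : Fin L => l.val < k) := by
        ext l
        simp only [mem_filter, mem_univ, true_and, mem_insert, Fin.ext_iff, l₀]
        omega
      rw [hins, expect_update l₀, pow_succ]
      refine le_trans ?_ (mul_le_mul_of_nonneg_right ih' (by norm_num))
      rw [expect_mul]
      refine expect_mono fun T => ?_
      have e1 : ∀ x, ∏ l ∈ insert l₀ (univ.filter fun l : Fin L => l.val < k),
          ν (Function.update T l₀ x l) * (1 + ind (E l (Function.update T l₀ x)) / μ) =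
          (∏ l ∈ univ.filter (fun l : Fin L => l.val < k), ν (T l) * (1 + ind (E l T) / μ)) *
            (ν x + ν x * ind (E l₀ (Function.update T l₀ x)) / μ) := by
        intro x
        rw [prod_insert (by simp [l₀]), mul_comm, Function.update_self]
        congr 1
        · refine prod_congr rfl fun l hl => ?_
          have hl' : l < l₀ := (mem_filter.mp hl).2
          rw [Function.update_of_ne hl'.ne, ind_congr (hdep l l₀ hl' T x)]
        · ring
      simp only [e1]
      rw [← mul_expect, expect_add_distrib, ← expect_div]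
      refine mul_le_mul_of_nonneg_left ?_ (prod_nonneg fun l _ => nn l T)
      have := (div_le_one hμ).mpr (hE l₀ T)
      linarith
  simpa using key L le_rfl

section Codim
variable {F E : Type} [Field F] [AddCommGroup E] [Module F E] [FiniteDimensional F E]

theorem codim_inf {A B : Submodule F E} {a b : ℕ}
    (hA : Module.finrank F E ≤ Module.finrank F A + a)
    (hB : Module.finrank F E ≤ Module.finrank F B + b) :
    Module.finrank F E ≤ Module.finrank F (A ⊓ B : Submodule F E) + (a + b) := by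
  have h1 := Submodule.finrank_sup_add_finrank_inf_eq A B
  have h2 := Submodule.finrank_le (A ⊔ B)
  omega

theorem codim_iInf {ι : Type} [Fintype ι] (A : ι → Submodule F E) {a : ℕ}
    (hA : ∀ i, Module.finrank F E ≤ Module.finrank F (A i) + a) :
    Module.finrank F E ≤ Module.finrank F (⨅ i, A i : Submodule F E) + Fintype.card ι * a := by
  classical
  have : ∀ s : Finset ι, Module.finrank F E ≤ Module.finrank F (s.inf A : Submodule F E) +
      s.card * a := by
    intro s
    induction s using Finset.induction_on with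
    | empty => rw [inf_empty, finrank_top]; omega
    | insert i s hi ih =>
      rw [inf_insert, card_insert_of_notMem hi, add_mul, one_mul, add_comm _ a]
      exact codim_inf (hA i) ih
  have h := this univ
  rwa [inf_univ_eq_iInf, card_univ] at h

theorem codim_comap {E' : Type} [AddCommGroup E'] [Module F E'] [FiniteDimensional F E']
    (f : E →ₗ[F] E') (S : Submodule F E') {r : ℕ}
    (hS : Module.finrank F E' ≤ Module.finrank F S + r) :
    Module.finrank F E ≤ Module.finrank F (S.comap f) + r := by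
  have h1 := LinearMap.finrank_range_add_finrank_ker (S.mkQ ∘ₗ f)
  rw [LinearMap.ker_comp, Submodule.ker_mkQ] at h1
  have h2 := Submodule.finrank_le (LinearMap.range (S.mkQ ∘ₗ f))
  have h3 := S.finrank_quotient_add_finrank
  omega

end Codim

variable {F : Type} [Field F] [Fintype F] [Algebra K F] {e n h M : ℕ}

/-- the four-linear form of a frame and a moment vector -/
noncomputable def form (c : Frame F e n) (z : Y F (4 * e)) :
    MultilinearMap F (fun _ : Fin 4 => Option (Fin n) → F) F :=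
  LinearMap.compMultilinearMap
    ({ toFun := pair z, map_add' := pair_add_right z, map_smul' := fun a f => pair_smul_right a z f } :
      F[X] →ₗ[F] F)
    ((MultilinearMap.mkPiAlgebra F (Fin 4) F[X]).compLinearMap fun _ =>
      ({ toFun := poly, map_add' := poly_add, map_smul' := poly_smul } : Y F e →ₗ[F] F[X]) ∘ₗ
        cstar c)

omit [Fintype F] [Algebra K F] in
theorem form_apply (c : Frame F e n) (z : Y F (4 * e)) (α : Fin 4 → Option (Fin n) → F) :
    form c z α = pair z (∏ j, poly (cstar c (α j))) := rfl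

omit [Fintype F] [Algebra K F] in
theorem prod_poly_natDegree {k : ℕ} (a : Fin k → Y F e) : (∏ j, poly (a j)).natDegree ≤ k * e := by
  refine (natDegree_prod_le _ _).trans ?_
  refine (sum_le_sum fun j _ => poly_natDegree_le (a j)).trans ?_
  simp

omit [Fintype F] [Algebra K F] in
theorem form_single (c : Frame F e n) (z : Y F (4 * e)) (idx : Fin 4 → Option (Fin n)) :
    form c z (fun j => Pi.single (idx j) 1) = U c z idx := by
  rw [form_apply, U_apply]
  congr 1
  refine prod_congr rfl fun j _ => ?_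
  rw [poly_cstar, sum_eq_single (idx j) (fun o _ ho => by simp [ho]) (by simp)]
  simp

omit [Fintype F] [Algebra K F] in
theorem form_ev (c : Frame F e n) (t : F) (α : Fin 4 → Option (Fin n) → F)
    (h0 : ∑ o, α 0 o * hat (pt c t) o = 0) :
    pair (ev (4 * e) t) (∏ j, poly (cstar c (α j))) = 0 := by
  rw [pair_ev t (prod_poly_natDegree _), eval_prod]
  refine prod_eq_zero (mem_univ 0) ?_
  rw [poly_cstar, eval_finsetSum, ← h0]
  simp [hat_pt]

omit [Fintype F] in
theorem pair_ksmul (a : K) (z : Y F M) (f : F[X]) (h0 : pair z f = 0) : pair (a • z) f = 0 := by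
  rcases K_cases a with rfl | rfl <;> simp [h0]

theorem expect_pts (c1 : 1 ≤ e) {t : Slot → F} (ht : Dist t) (Φ : (Slot → Fin n → F) → ℝ) :
    𝔼 c : Fin 2 → Frame F e n, Φ (fun s => pt (c s.1) (t s)) = 𝔼 v, Φ v := by
  rw [expect_fiber (fun c : Fin 2 → Frame F e n => fun s : Slot => pt (c s.1) (t s))
    fun _ v => Φ v]
  refine expect_congr rfl fun v _ => ?_
  rw [← expect_mul, ← mul_assoc]
  have e1 : ∀ c : Fin 2 → Frame F e n, ind ((fun s : Slot => pt (c s.1) (t s)) = v) =
      ∏ i, ind (∀ j : Fin 2, pt (c i) (t (i, j)) = v (i, j)) := by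
    intro c
    rw [← ind_forall]
    exact ind_congr ⟨fun hx i j => congrFun hx (i, j), fun hx => funext fun s => hx s.1 s.2⟩
  have e2 : ∀ i, 𝔼 c : Frame F e n, ind (∀ j : Fin 2, pt c (t (i, j)) = v (i, j)) =
      1 / (Fintype.card (Fin n → F) : ℝ) ^ 2 := by
    intro i
    have := indep_pt (F := F) (e := e) (n := n) (Fin 2) (fun j => t (i, j))
      (fun a b hab => by
        by_contra hne
        fin_cases a <;> fin_cases b
        · exact hne rfl
        · exact ht i hab
        · exact ht i hab.symm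
        · exact hne rfl) (by simp; omega) fun j => v (i, j)
    simpa using this
  simp only [e1]
  rw [expect_pi_prod fun i c => ind (∀ j : Fin 2, pt c (t (i, j)) = v (i, j))]
  simp only [e2, prod_const, card_univ, Fintype.card_fin]
  rw [Fintype.card_fun]
  have hV : (Fintype.card (Fin n → F) : ℝ) ≠ 0 := by positivity
  simp only [Fintype.card_prod, Fintype.card_fin]
  push_cast
  field_simp

omit [Field F] [Algebra K F] in
theorem expect_slot (i : Fin 2) (f : (Slot → F) → ℝ) :
    𝔼 t, f t = 𝔼 τ : Fin 2 → F, 𝔼 τ' : Fin 2 → F, f fun s => pr i τ τ' s.1 s.2 := by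
  rw [← expect_equiv' (Equiv.curry (Fin 2) (Fin 2) F).symm f, expect_pr i]
  rfl

theorem nonnew_side {hh : (Fin 2 → Vtx F e n h) → ℝ} {Λ M κm Λ₁ : ℝ} (hd : Dens hh Λ M)
    (hκ : 0 ≤ κm) (hΛ₁ : 0 ≤ Λ₁) {a : (Fin 2 → Vtx F e n h) → (Slot → F) → ℝ}
    (ha : WtOK hh a κm Λ₁) (w : Slot → Fin n → F) (i : Fin 2) (Ev : Frame F e n → F → F → Prop)
    {β : ℝ} (hβ : 0 ≤ β) (hEv : ∀ t t', t ≠ t' → 𝔼 c : Frame F e n,
      ind (pt c t = w (i, 0) ∧ pt c t' = w (i, 1) ∧ Ev c t t') ≤ β) :
    𝔼 T : (Fin 2 → Vtx F e n h) × (Slot → F), (Fintype.card (Fin n → F) : ℝ) ^ 4 *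
      (a T.1 T.2 * ind (pts T.1 T.2 = w)) * ind (Ev (T.1 i).c (T.2 (i, 0)) (T.2 (i, 1))) ≤
      κm * Λ₁ * ((Fintype.card (Fin n → F) : ℝ) ^ 2 * β) := by
  set V : ℝ := (Fintype.card (Fin n → F) : ℝ) with hV
  have V0 : 0 ≤ V := by positivity
  have ⟨x₀⟩ := hd.nonempty
  have : Nonempty (Vtx F e n h) := ⟨x₀⟩
  rw [expect_prod, expect_pr i]
  calc _ ≤ 𝔼 x : Vtx F e n h, 𝔼 τ : Fin 2 → F, κm * Λ₁ * (V ^ 2 *
        ind (τ 0 ≠ τ 1 ∧ pt x.c (τ 0) = w (i, 0) ∧ pt x.c (τ 1) = w (i, 1) ∧ Ev x.c (τ 0) (τ 1))) := by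
        refine expect_mono fun x => ?_
        simp only [expect_slot i]
        rw [expect_comm]
        refine expect_mono fun τ => ?_
        rw [expect_comm]
        refine expect_le univ_nonempty fun τ' _ => ?_
        set I := ind (τ 0 ≠ τ 1 ∧ pt x.c (τ 0) = w (i, 0) ∧ pt x.c (τ 1) = w (i, 1) ∧
          Ev x.c (τ 0) (τ 1)) with hI
        set d := dens hh vp i x τ' fun j => w (i.rev, j) with hdd
        calc _ ≤ 𝔼 y, κm * V ^ 2 * I * ind (d ≤ Λ₁) *
              (V ^ 2 * (hh (pr i x y) * ind (∀ j, vp y (τ' j) = w (i.rev, j)))) := by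
              refine expect_mono fun y => ?_
              simp only [pr_self]
              have nn : 0 ≤ κm * V ^ 2 * I * ind (d ≤ Λ₁) *
                  (V ^ 2 * (hh (pr i x y) * ind (∀ j, vp y (τ' j) = w (i.rev, j)))) :=
                mul_nonneg (mul_nonneg (mul_nonneg (by positivity) (ind_nonneg _)) (ind_nonneg _))
                  (mul_nonneg (by positivity) (mul_nonneg (hd.nonneg _) (ind_nonneg _)))
              by_cases h0 : a (pr i x y) (fun s => pr i τ τ' s.1 s.2) = 0
              · rw [h0]; simpa using nn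
              by_cases h1 : pts (pr i x y) (fun s => pr i τ τ' s.1 s.2) = w
              swap
              · rw [ind_neg h1]; simpa using nn
              by_cases h2 : Ev x.c (τ 0) (τ 1)
              swap
              · rw [ind_neg h2]; simpa using nn
              have p1 : ∀ j, vp x (τ j) = w (i, j) := fun j => by
                simpa [pts] using congrFun h1 (i, j)
              have p2 : ∀ j, vp y (τ' j) = w (i.rev, j) := fun j => by
                simpa [pts] using congrFun h1 (i.rev, j)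
              have p3 : τ 0 ≠ τ 1 := by simpa using ha.dist _ _ h0 i
              have p4 : d ≤ Λ₁ := by simpa [p2] using ha.trim _ _ h0 i
              rw [ind_pos h1, ind_pos h2, hI, ind_pos ⟨p3, p1 0, p1 1, h2⟩, ind_pos p4, ind_pos p2]
              have := mul_le_mul_of_nonneg_left (ha.le (pr i x y) fun s => pr i τ τ' s.1 s.2)
                (by positivity : 0 ≤ V ^ 4)
              linarith
          _ = κm * V ^ 2 * I * (ind (d ≤ Λ₁) * d) := by
              rw [← mul_expect, ← mul_expect, hdd, dens, Fintype.card_fin]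
              ring
          _ ≤ κm * V ^ 2 * I * Λ₁ := by
              refine mul_le_mul_of_nonneg_left ?_
                (mul_nonneg (by positivity) (ind_nonneg _))
              by_cases hx : d ≤ Λ₁
              · rwa [ind_pos hx, one_mul]
              · rwa [ind_neg hx, zero_mul]
          _ = _ := by ring
    _ ≤ _ := by
        rw [expect_comm]
        refine expect_le univ_nonempty fun τ _ => ?_
        rw [← mul_expect, ← mul_expect]
        refine mul_le_mul_of_nonneg_left (mul_le_mul_of_nonneg_left ?_ (by positivity))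
          (by positivity)
        by_cases hτ : τ 0 = τ 1
        · simpa [hτ] using hβ
        · rw [expect_prod]
          refine le_trans (expect_mono fun c => ?_) (hEv _ _ hτ)
          exact expect_le univ_nonempty fun ut _ => ind_mono fun hx => hx.2

/-- J8c: low rank, non-forced terms -/
theorem term_low {hh : (Fin 2 → Vtx F e n h) → ℝ} {Λ M κm Λ₁ : ℝ} (hd : Dens hh Λ M)
    (hκ : 0 ≤ κm) (hΛ₁ : 0 ≤ Λ₁) {a : (Fin 2 → Vtx F e n h) → (Slot → F) → ℝ}
    (ha : WtOK hh a κm Λ₁)
    (Z : Slot → Ix h → Y F (4 * e)) {R : ℕ} (hR : 6 * R + 6 ≤ e) (j : Fin 2) (k : Ix h)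
    (hZ : ∀ i, Z (i, j) k ∈ XX F (4 * e) ∧ LowRk e R (Z (i, j) k))
    (a₁ a₂ : (Fin 2 → Vtx F e n h) → (Slot → F) → ℝ)
    (θ : (Fin 2 → Vtx F e n h) → (Slot → F) → (Fin 2 → Frame F e n) → (Slot → F) → ℝ)
    (h₁ : ∀ A t, |a₁ A t| ≤ a A t)
    (h₁' : ∀ A t, a₁ A t ≠ 0 →
      psi A Z j k ∉ Submodule.span K (Set.range fun s => Phi (pts A t s)))
    (h₂ : ∀ A t, |a₂ A t| ≤ a A t) (hθ : ∀ A t c t', |θ A t c t'| ≤ 1)
    (k₀ L : ℕ) (hL : L = 2 * k₀ * (2 * (R + 2) ^ 2 + 1)) (μ : ℝ) (hμ₀ : 0 < μ) (hμ₁ : μ ≤ 1)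
    (hμ : 2 * κm * Λ₁ * (Fintype.card F : ℝ) ^ (R + 6 + 2 * (R + 2) * L) /
      (Fintype.card F : ℝ) ^ n ≤ μ) :
    ((Fintype.card (Fin n → F) : ℝ) ^ 4 * term Z a₁ a₂ θ) ^ L ≤
      κm ^ L * Λ * 3 ^ L * μ ^ (2 * k₀) := by
  classical
  have ⟨x₀⟩ := hd.nonempty
  have : Nonempty (Vtx F e n h) := ⟨x₀⟩
  have hΛ : 1 ≤ Λ := hd.total ▸ expect_le univ_nonempty fun A _ => hd.le A
  rcases Nat.eq_zero_or_pos k₀ with rfl | hk₀
  · simpa [hL] using hΛ
  have hL0 : L ≠ 0 := by rw [hL]; positivity
  have hL2 : Even L := ⟨k₀ * (2 * (R + 2) ^ 2 + 1), by rw [hL]; ring⟩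
  set V : ℝ := (Fintype.card (Fin n → F) : ℝ) with hV
  have V0 : 0 < V := by positivity
  -- modified moment vectors
  have hloc : ∀ (i : Fin 2) (t t' : F), ∃ ε ε' : K,
      LowRk e (R + 2) (Z (i, j) k + ε • ev (4 * e) t + ε' • ev (4 * e) t') ∧ (t ≠ t' →
      (∃ a ∈ Ker e (Z (i, j) k + ε • ev (4 * e) t + ε' • ev (4 * e) t'),
        (poly a).eval t ≠ 0 ∧ (poly a).eval t' = 0) ∧
      (∃ a ∈ Ker e (Z (i, j) k + ε • ev (4 * e) t + ε' • ev (4 * e) t'),
        (poly a).eval t = 0 ∧ (poly a).eval t' ≠ 0)) := by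
    intro i t t'
    by_cases htt : t = t'
    · refine ⟨0, 0, ?_, fun hx => absurd htt hx⟩
      have := (hZ i).2
      rw [zero_smul, zero_smul, add_zero, add_zero]
      unfold LowRk at this ⊢
      omega
    · obtain ⟨ε, ε', g1, g2⟩ := local_lemma hR (hZ i).1 (hZ i).2 htt
      exact ⟨ε, ε', g1, fun _ => g2⟩
  choose ε ε' hlow hker using hloc
  let zz : Fin 2 → F → F → Y F (4 * e) := fun i t t' =>
    Z (i, j) k + ε i t t' • ev (4 * e) t + ε' i t t' • ev (4 * e) t'
  let N : (Fin 2 → Vtx F e n h) × (Slot → F) → Fin 2 → Submodule F (Option (Fin n) → F) :=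
    fun T i => (Ker e (zz i (T.2 (i, 0)) (T.2 (i, 1)))).comap (cstar (T.1 i).c)
  have hE : Module.finrank F (Option (Fin n) → F) = n + 1 := by simp
  have hN : ∀ T i, Module.finrank F (Option (Fin n) → F) ≤ Module.finrank F (N T i) + (R + 2) :=
    fun T i => codim_comap _ _ (by simpa [LowRk] using hlow i _ _)
  have main : ∀ w : Slot → Fin n → F,
      𝔼 T : Fin L → (Fin 2 → Vtx F e n h) × (Slot → F),
        (∏ l, V ^ 4 * (|a₁ (T l).1 (T l).2| * ind (pts (T l).1 (T l).2 = w))) *
          ind (∑ l, psi (T l).1 Z = 0) ≤ 3 ^ L * μ ^ (2 * k₀) := by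
    intro w
    let φ : Slot → (Option (Fin n) → F) →ₗ[F] F := fun s =>
      { toFun := fun α => ∑ o, α o * hat (w s) o
        map_add' := fun α β => by simp [add_mul, sum_add_distrib]
        map_smul' := fun c α => by
          simp only [Pi.smul_apply, smul_eq_mul, RingHom.id_apply, mul_sum, mul_assoc] }
    let P₀ : Submodule F (Option (Fin n) → F) := ⨅ s, LinearMap.ker (φ s)
    have hP₀ : Module.finrank F (Option (Fin n) → F) ≤ Module.finrank F P₀ + 4 := by
      have := codim_iInf (fun s => LinearMap.ker (φ s)) (a := 1) fun s => by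
        have h1 := codim_comap (φ s) ⊥ (r := 1) (by simp)
        exact h1
      simpa using this
    let P : Fin L → (Fin L → (Fin 2 → Vtx F e n h) × (Slot → F)) →
        Submodule F (Option (Fin n) → F) :=
      fun l T => P₀ ⊓ ⨅ l' : {l' : Fin L // l' < l}, (N (T l') 0 ⊓ N (T l') 1)
    have hP : ∀ l T, n + 1 ≤ Module.finrank F (P l T) + (4 + 2 * (R + 2) * L) := by
      intro l T
      have h1 := codim_iInf (fun l' : {l' : Fin L // l' < l} => N (T l') 0 ⊓ N (T l') 1)
        fun l' => codim_inf (hN _ 0) (hN _ 1)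
      have h2 := codim_inf hP₀ h1
      have h3 : Fintype.card {l' : Fin L // l' < l} ≤ L := by
        simpa using Fintype.card_subtype_le fun l' : Fin L => l' < l
      have h4 := Nat.mul_le_mul_right (R + 2 + (R + 2)) h3
      rw [hE] at h2
      refine h2.trans (Nat.add_le_add_left (Nat.add_le_add_left (h4.trans (le_of_eq ?_)) _) _)
      ring
    have hPu : ∀ (l k' : Fin L), l ≤ k' → ∀ T x, P l (Function.update T k' x) = P l T := by
      intro l k' hlk T x
      simp only [P]
      congr 1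
      refine iInf_congr fun l' => ?_
      rw [Function.update_of_ne (lt_of_lt_of_le l'.2 hlk).ne]
    let ν : (Fin 2 → Vtx F e n h) × (Slot → F) → ℝ := fun T =>
      V ^ 4 * (a T.1 T.2 * ind (pts T.1 T.2 = w))
    have ν0 : ∀ T, 0 ≤ ν T := fun T =>
      mul_nonneg (by positivity) (mul_nonneg (ha.nonneg _ _) (ind_nonneg _))
    have hseq := seq_prod_le ν ν0
      (by simpa only [ν, ← mul_expect, expect_prod] using ha.mass w)
      (fun l T => ∃ i, N (T l) i ⊔ P l T ≠ ⊤) hμ₀
      (fun l k' hlk T x => by rw [hPu l k' hlk.le, Function.update_of_ne hlk.ne])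
      (fun l T => by
        simp only [hPu l l le_rfl, Function.update_self]
        have b : ∀ i, 𝔼 x, ν x * ind (N x i ⊔ P l T ≠ ⊤) ≤ κm * Λ₁ * (V ^ 2 *
            ((Fintype.card F : ℝ) ^ (R + 2 + (4 + 2 * (R + 2) * L)) /
              (Fintype.card F : ℝ) ^ (3 * n))) := fun i =>
          nonnew_side hd hκ hΛ₁ ha w i (fun c t t' => (Ker e (zz i t t')).comap (cstar c) ⊔ P l T ≠ ⊤)
            (by positivity) fun t t' htt => nonnew_prob (hlow i t t') (hker i t t' htt).1
              (hker i t t' htt).2 _ (hP l T) _ _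
        have b2 := add_le_add (b 0) (b 1)
        rw [← expect_add_distrib] at b2
        refine le_trans (expect_mono fun x => ?_) (b2.trans (le_trans (le_of_eq ?_) hμ))
        · rw [← mul_add, ← Fin.sum_univ_two fun i => ind (N x i ⊔ P l T ≠ ⊤)]
          exact mul_le_mul_of_nonneg_left (ind_exists_le _) (ν0 x)
        · rw [hV, Fintype.card_fun, Fintype.card_fin,
            show R + 2 + (4 + 2 * (R + 2) * L) = R + 6 + 2 * (R + 2) * L by ring]
          have hq : (Fintype.card F : ℝ) ≠ 0 := by positivity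
          push_cast
          field_simp
          ring)
    refine le_trans ?_ (mul_le_mul_of_nonneg_right hseq (by positivity))
    rw [expect_mul]
    refine expect_mono fun T => ?_
    have nn : 0 ≤ (∏ l, ν (T l) * (1 + ind (∃ i, N (T l) i ⊔ P l T ≠ ⊤) / μ)) * μ ^ (2 * k₀) :=
      mul_nonneg (prod_nonneg fun l _ => mul_nonneg (ν0 _)
        (add_nonneg zero_le_one (div_nonneg (ind_nonneg _) hμ₀.le))) (by positivity)
    by_cases hs : ∑ l, psi (T l).1 Z = 0
    swap
    · rwa [ind_neg hs, mul_zero]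
    by_cases hall : ∀ l, a₁ (T l).1 (T l).2 ≠ 0 ∧ pts (T l).1 (T l).2 = w
    swap
    · obtain ⟨l, hl⟩ := not_forall.mp hall
      rw [prod_eq_zero (mem_univ l), zero_mul]
      · exact nn
      · by_cases h0 : a₁ (T l).1 (T l).2 = 0
        · simp [h0]
        · rw [ind_neg fun hx => hl ⟨h0, hx⟩]; simp
    have hcount := lemS L (R + 2) P₀ (fun l => N (T l)) (fun l => hN (T l))
      (fun l i => form ((T l).1 i).c (zz i ((T l).2 (i, 0)) ((T l).2 (i, 1))))
      (fun l i σ α => by
        rw [form_apply, form_apply]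
        congr 1
        exact Equiv.prod_comp σ fun j => poly (cstar ((T l).1 i).c (α j)))
      (fun l i α hα => by
        rw [form_apply, Fin.prod_univ_succ]
        exact hα _ (prod_poly_natDegree _))
      (fun l hz => by
        refine h₁' _ _ (hall l).1 ?_
        have e1 : U ((T l).1 0).c (zz 0 ((T l).2 (0, 0)) ((T l).2 (0, 1))) +
            U ((T l).1 1).c (zz 1 ((T l).2 (1, 0)) ((T l).2 (1, 1))) = 0 := by
          funext idx
          rw [Pi.add_apply, ← form_single, ← form_single]
          exact DFunLike.congr_fun hz _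
        simp only [zz, map_add, LinearMap.map_smul_of_tower, U_ev] at e1
        have m : ∀ s : Slot, Phi (pt ((T l).1 s.1).c ((T l).2 s)) ∈ Submodule.span K
            (Set.range fun s => Phi (pts (T l).1 (T l).2 s)) := fun s =>
          Submodule.subset_span ⟨s, rfl⟩
        have e2 : psi (T l).1 Z j k =
            (ε 0 ((T l).2 (0, 0)) ((T l).2 (0, 1)) • Phi (pt ((T l).1 0).c ((T l).2 (0, 0))) +
            ε' 0 ((T l).2 (0, 0)) ((T l).2 (0, 1)) • Phi (pt ((T l).1 0).c ((T l).2 (0, 1)))) +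
            (ε 1 ((T l).2 (1, 0)) ((T l).2 (1, 1)) • Phi (pt ((T l).1 1).c ((T l).2 (1, 0))) +
            ε' 1 ((T l).2 (1, 0)) ((T l).2 (1, 1)) • Phi (pt ((T l).1 1).c ((T l).2 (1, 1)))) := by
          rw [← add_eq_zero_K, ← e1, psi]
          abel
        rw [e2]
        exact add_mem (add_mem (Submodule.smul_mem _ _ (m (0, 0))) (Submodule.smul_mem _ _ (m (0, 1))))
          (add_mem (Submodule.smul_mem _ _ (m (1, 0))) (Submodule.smul_mem _ _ (m (1, 1)))))
      (fun α hα => by
        have e1 : ∀ l i, form ((T l).1 i).c (zz i ((T l).2 (i, 0)) ((T l).2 (i, 1))) α =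
            ∑ idx, U ((T l).1 i).c (Z (i, j) k) idx * ∏ j', α j' (idx j') := by
          intro l i
          have g : ∀ j', ∑ o, α 0 o * hat (pt ((T l).1 i).c ((T l).2 (i, j'))) o = 0 := fun j' => by
            have : ∑ o, α 0 o * hat (w (i, j')) o = 0 := (Submodule.mem_iInf _).mp hα (i, j')
            rw [← (hall l).2] at this
            exact this
          rw [form_apply, U_form]
          simp only [zz, pair_add_left]
          rw [pair_ksmul _ _ _ (form_ev _ _ α (g 0)), pair_ksmul _ _ _ (form_ev _ _ α (g 1)),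
            add_zero, add_zero]
        simp only [e1, ← sum_add_distrib, ← add_mul]
        rw [sum_comm]
        refine sum_eq_zero fun idx _ => ?_
        rw [← sum_mul]
        have := congrFun (congrFun (congrFun hs j) k) idx
        simp only [Finset.sum_apply, psi, Pi.add_apply, Pi.zero_apply] at this
        rw [this, zero_mul])
    set S := univ.filter fun l : Fin L => ∃ i, N (T l) i ⊔ P l T ≠ ⊤ with hS
    have hcard : 2 * k₀ ≤ S.card := by
      have h1 : 2 * k₀ * (2 * (R + 2) ^ 2 + 1) ≤ S.card * (2 * (R + 2) ^ 2 + 1) := by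
        rw [← hL, mul_comm]; exact hcount
      exact Nat.le_of_mul_le_mul_right h1 (Nat.succ_pos _)
    rw [ind_pos hs, mul_one, prod_mul_distrib (f := fun l => ν (T l)), mul_assoc]
    refine le_trans (prod_le_prod (fun l _ => by
      exact mul_nonneg (by positivity) (mul_nonneg (abs_nonneg _) (ind_nonneg _)))
      fun l _ => mul_le_mul_of_nonneg_left
        (mul_le_mul_of_nonneg_right (h₁ _ _) (ind_nonneg _)) (by positivity))
      (le_mul_of_one_le_right (prod_nonneg fun l _ => ν0 _) ?_)
    have p1 : (1 / μ) ^ S.card ≤ ∏ l, (1 + ind (∃ i, N (T l) i ⊔ P l T ≠ ⊤) / μ) := by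
      rw [← prod_const, hS, prod_filter]
      refine prod_le_prod (fun l _ => by split_ifs <;> positivity) fun l _ => ?_
      split_ifs with hx
      · rw [ind_pos hx]; linarith
      · rw [ind_neg hx]; simp
    have p2 : (1 / μ) ^ (2 * k₀) ≤ (1 / μ) ^ S.card :=
      pow_le_pow_right₀ (one_le_one_div hμ₀ hμ₁) hcard
    calc (1 : ℝ) = (1 / μ) ^ (2 * k₀) * μ ^ (2 * k₀) := by
          rw [← mul_pow, one_div_mul_cancel hμ₀.ne', one_pow]
      _ ≤ _ := mul_le_mul_of_nonneg_right (p2.trans p1) (by positivity)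
  have hpow := term_pow_le hd hκ Z a₁ a₂ θ Dist (fun A t => by
    refine (h₂ A t).trans ?_
    by_cases h0 : a A t = 0
    · rw [h0]; exact mul_nonneg hκ (mul_nonneg (hd.nonneg _) (ind_nonneg _))
    · rw [ind_pos (ha.dist A t h0), mul_one]; exact ha.le A t) hθ hL0 hL2
  rw [mul_pow]
  refine (mul_le_mul_of_nonneg_left hpow (by positivity)).trans ?_
  rw [mul_left_comm, mul_assoc (κm ^ L * Λ)]
  refine mul_le_mul_of_nonneg_left ?_ (mul_nonneg (by positivity) (by linarith))
  rw [mul_expect]
  refine expect_le univ_nonempty fun t' _ => ?_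
  by_cases ht : Dist t'
  swap
  · rw [ind_neg ht, zero_mul, mul_zero]; positivity
  rw [ind_pos ht, one_mul, expect_pts (by omega) ht fun v =>
    𝔼 T : Fin L → (Fin 2 → Vtx F e n h) × (Slot → F),
      (∏ l, |a₁ (T l).1 (T l).2| * ind (v = pts (T l).1 (T l).2 ∘ Prod.swap)) *
        ind (∑ l, psi (T l).1 Z = 0), mul_expect]
  refine expect_le univ_nonempty fun v _ => le_trans (le_of_eq ?_) (main (v ∘ Prod.swap))
  rw [mul_expect]
  refine expect_congr rfl fun T _ => ?_
  rw [prod_mul_distrib (f := fun _ => V ^ 4), prod_const, card_univ, Fintype.card_fin, mul_assoc]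
  congr 3
  funext l
  congr 1
  refine ind_congr ⟨?_, ?_⟩
  · rintro rfl; rfl
  · intro hx; rw [hx]; rfl

end Vale.Agent.P060
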