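import Vale.Agent.P060.ErrHigh
import Vale.Agent.P060.ErrLow

namespace Vale.Agent.P060

open Finset Polynomial Filter
open scoped BigOperators

theorem sum_subgroup_sgn {G : Type*} [AddCommGroup G] [Module K G] [Fintype G] (S : G → Prop)
    (h0 : S 0) (hadd : ∀ a b, S a → S b → S (a + b)) (f : G → K)
    (hf : ∀ a b, f (a + b) = f a + f b) :
    ind (∀ a, S a → f a = 0) ≤ ∑ a, ind (S a) * sgn (f a) := by
  by_cases h1 : ∀ a, S a → f a = 0
  · rw [ind_pos h1]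
    have h2 : ∀ a, ind (S a) * sgn (f a) = ind (S a) := fun a => by
      by_cases ha : S a
      · rw [h1 a ha, sgn_zero, mul_one]
      · rw [ind_neg ha, zero_mul]
    simp only [h2]
    rw [← ind_pos h0]
    exact single_le_sum (f := fun a => ind (S a)) (fun a _ => ind_nonneg _) (mem_univ 0)
  · rw [ind_neg h1]
    push Not at h1
    obtain ⟨c, hc, h1⟩ := h1
    have h2 := Equiv.sum_comp (Equiv.addRight c) fun a => ind (S a) * sgn (f a)
    have h3 : ∀ a, ind (S (a + c)) * sgn (f (a + c)) = -(ind (S a) * sgn (f a)) := by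
      intro a
      rw [hf, K_ne_zero.mp h1, sgn_add, sgn_one, ind_congr (Q := S a)]
      · ring
      · refine ⟨fun h => ?_, fun h => hadd _ _ h hc⟩
        have := hadd _ _ h hc
        rwa [add_assoc, add_self_K, add_zero] at this
    simp only [Equiv.coe_addRight, h3, sum_neg_distrib] at h2
    linarith

theorem expect_four {α β : Type*} [Fintype α] [Fintype β] (f : α → β → α → β → ℝ) :
    𝔼 A, 𝔼 t, 𝔼 B, 𝔼 t', f A t B t' = 𝔼 T : α × β, 𝔼 T' : α × β, f T.1 T.2 T'.1 T'.2 := by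
  simp only [expect_prod]

section ErrMainAux
variable {F : Type} [Field F] [Fintype F] [Algebra K F] {e n h : ℕ}

/-- the defect as a linear map -/
noncomputable def defectL (g : Gs h) (A : Fin 2 → Vtx F e n h) (t : Slot → F)
    (B : Fin 2 → Vtx F e n h) (i j : Fin 2) : Y F (4 * e) →ₗ[K] GG h :=
  (B j).u ∘ₗ (U (A i).c).restrictScalars K +
    ((g (i, j)).1 ∘ₗ (A i).T.flip (ev (3 * e) (t (i, j))) ∘ₗ (trunc e).restrictScalars K +
      par.smulRight (g (i, j)).2)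

omit [Fintype F] in
theorem defectL_apply (g : Gs h) (A : Fin 2 → Vtx F e n h) (t : Slot → F)
    (B : Fin 2 → Vtx F e n h) (i j : Fin 2) (z : Y F (4 * e)) :
    defectL g A t B i j z = defect g A t B i j z := rfl

noncomputable def lamZ (g : Gs h) (A : Fin 2 → Vtx F e n h) (t : Slot → F)
    (B : Fin 2 → Vtx F e n h) (Z : Slot → Ix h → Y F (4 * e)) : K :=
  ∑ s, ∑ k, defect g A t B s.1 s.2 (Z s k) k

noncomputable def ownZ (g : Gs h) (A : Fin 2 → Vtx F e n h) (t : Slot → F)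
    (Z : Slot → Ix h → Y F (4 * e)) : K :=
  ∑ s, ∑ k, ((g s).1 (row (A s.1) (trunc e (Z s k)) (t s)) + par (Z s k) • (g s).2) k

omit [Fintype F] in
theorem lamZ_eq (g : Gs h) (A : Fin 2 → Vtx F e n h) (t : Slot → F) (B : Fin 2 → Vtx F e n h)
    (Z : Slot → Ix h → Y F (4 * e)) :
    lamZ g A t B Z = ∑ j, ∑ k, (B j).u (psi A Z j k) k + ownZ g A t Z := by
  simp only [lamZ, ownZ, defect, psi, Fintype.sum_prod_type, Fin.sum_univ_two, map_add,
    Pi.add_apply, sum_add_distrib]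
  ring

variable (F e h) in
/-- dual variables -/
abbrev ZT := Slot → Ix h → XX F (4 * e)

def cz (Z : ZT F e h) : Slot → Ix h → Y F (4 * e) := fun s k => Z s k

omit [Fintype F] in
theorem lamZ_add (g : Gs h) (A : Fin 2 → Vtx F e n h) (t : Slot → F) (B : Fin 2 → Vtx F e n h)
    (Z Z' : ZT F e h) : lamZ g A t B (cz (Z + Z')) = lamZ g A t B (cz Z) + lamZ g A t B (cz Z') := by
  simp only [lamZ, cz, ← defectL_apply, Pi.add_apply, Submodule.coe_add, map_add, sum_add_distrib]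

theorem ind_cross (g : Gs h) (A : Fin 2 → Vtx F e n h) (t : Slot → F) (B : Fin 2 → Vtx F e n h) :
    ind (Cross g A t B) = 𝔼 Z : ZT F e h, sgn (lamZ g A t B (cz Z)) := by
  classical
  rw [expect_sgn_of_add _ (lamZ_add g A t B)]
  refine ind_congr ⟨fun H Z => ?_, fun H i j z hz => ?_⟩
  · exact sum_eq_zero fun s _ => sum_eq_zero fun k _ => by
      rw [H s.1 s.2 (cz Z s k) (Z s k).2]; rfl
  · funext k
    have := H (Pi.single (i, j) (Pi.single k ⟨z, hz⟩))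
    simp only [lamZ, cz, ← defectL_apply] at this
    rw [sum_eq_single (i, j) (fun s _ hs => by simp [Pi.single_eq_of_ne hs]) (by simp),
      sum_eq_single k (fun k' _ hk => by simp [Pi.single_eq_of_ne hk]) (by simp)] at this
    simpa [defectL_apply] using this

/-- forced dual variables -/
def Forced (A : Fin 2 → Vtx F e n h) (t : Slot → F) (Z : Slot → Ix h → Y F (4 * e)) : Prop :=
  ∀ j k, psi A Z j k ∈ Submodule.span K (Set.range fun s => Phi (pts A t s))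

omit [Fintype F] in
theorem lamZ_forced {g : Gs h} {A : Fin 2 → Vtx F e n h} {t : Slot → F} {B : Fin 2 → Vtx F e n h}
    (hw : Wit g A t B) {Z : ZT F e h} (hZ : Forced A t (cz Z)) : lamZ g A t B (cz Z) = 0 := by
  rw [lamZ, Fintype.sum_prod_type, sum_comm]
  refine sum_eq_zero fun j _ => ?_
  rw [sum_comm]
  refine sum_eq_zero fun k _ => ?_
  obtain ⟨c, hc⟩ := (Submodule.mem_span_range_iff_exists_fun K).mp (hZ j k)
  let y : Fin 2 → Y F (4 * e) := fun i =>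
    cz Z (i, j) k + ∑ j', c (i, j') • ev (4 * e) (t (i, j'))
  have hy : ∀ i, y i ∈ XX F (4 * e) := fun i => add_mem (Z (i, j) k).2
    (Submodule.sum_mem _ fun j' _ => Submodule.smul_mem _ _ (ev_mem _))
  have hU : U (A 0).c (y 0) = U (A 1).c (y 1) := by
    rw [← add_eq_zero_K]
    simp only [y, map_add, map_sum, LinearMap.map_smul_of_tower, U_ev]
    rw [add_add_add_comm, add_eq_zero_K]
    refine hc.symm.trans ?_
    rw [Fintype.sum_prod_type, Fin.sum_univ_two]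
    rfl
  have hd : ∀ i, defect g A t B i j (y i) = defect g A t B i j (cz Z (i, j) k) := fun i => by
    simp only [y, ← defectL_apply, map_add, map_sum, map_smul]
    simp only [defectL_apply, hw.1, smul_zero, sum_const_zero, add_zero]
  have := hw.2 j y hy hU
  rw [hd, hd] at this
  rw [Fin.sum_univ_two, this, K_add_self]

theorem sum_forced_ge (g : Gs h) (A : Fin 2 → Vtx F e n h) (t : Slot → F)
    (B : Fin 2 → Vtx F e n h) :
    ind (Wit g A t B) ≤ ∑ Z : ZT F e h, ind (Forced A t (cz Z)) * sgn (lamZ g A t B (cz Z)) := by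
  refine le_trans (ind_mono fun hw Z hZ => lamZ_forced hw hZ)
    (sum_subgroup_sgn (fun Z : ZT F e h => Forced A t (cz Z)) (fun j k => ?_)
      (fun Z Z' h1 h2 j k => ?_) _ (lamZ_add g A t B))
  · simp [psi, cz]
  · have := add_mem (h1 j k) (h2 j k)
    simp only [psi, cz, Pi.add_apply, Submodule.coe_add, map_add] at this ⊢
    rwa [add_add_add_comm]

omit [Fintype F] in
theorem match_symm {A B : Fin 2 → Vtx F e n h} {t t' : Slot → F} :
    Match A t B t' ↔ Match B t' A t := by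
  constructor <;> intro H <;> rw [Match, H] <;> rfl

variable (F e n h) in
/-- labelled pairs -/
abbrev LP := (Fin 2 → Vtx F e n h) × (Slot → F)

/-- a weighted term of the Fourier expansion -/
noncomputable def QQ (a : (Fin 2 → Vtx F e n h) → (Slot → F) → ℝ) (g g' : Gs h)
    (Z Z' : Slot → Ix h → Y F (4 * e)) (φ φ' : LP F e n h → ℝ) : ℝ :=
  𝔼 T : LP F e n h, 𝔼 T' : LP F e n h, φ T * φ' T' * (a T.1 T.2 * a T'.1 T'.2 *
    ind (Match T.1 T.2 T'.1 T'.2) * (sgn (lamZ g T.1 T.2 T'.1 Z) * sgn (lamZ g' T'.1 T'.2 T.1 Z')))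

theorem QQ_symm (a : (Fin 2 → Vtx F e n h) → (Slot → F) → ℝ) (g g' : Gs h)
    (Z Z' : Slot → Ix h → Y F (4 * e)) (φ φ' : LP F e n h → ℝ) :
    QQ a g g' Z Z' φ φ' = QQ a g' g Z' Z φ' φ := by
  rw [QQ, expect_comm]
  refine expect_congr rfl fun T _ => expect_congr rfl fun T' _ => ?_
  rw [ind_congr match_symm]
  ring

theorem QQ_eq_term (a : (Fin 2 → Vtx F e n h) → (Slot → F) → ℝ) (g g' : Gs h)
    (Z Z' : Slot → Ix h → Y F (4 * e)) (φ φ' : LP F e n h → ℝ) :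
    QQ a g g' Z Z' φ φ' = term Z (fun A t => a A t * (φ (A, t) * sgn (ownZ g A t Z)))
      (fun A t => a A t * (φ' (A, t) * sgn (ownZ g' A t Z')))
      fun A _ c _ => sgn (∑ j, ∑ k, (A j).u (U (c 0) (Z' (0, j) k) + U (c 1) (Z' (1, j) k)) k) := by
  rw [term, expect_four]
  refine expect_congr rfl fun T _ => expect_congr rfl fun T' _ => ?_
  rw [lamZ_eq, lamZ_eq, sgn_add, sgn_add]
  simp only [psi]
  ring

theorem QQ_sub_left (a : (Fin 2 → Vtx F e n h) → (Slot → F) → ℝ) (g g' : Gs h)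
    (Z Z' : Slot → Ix h → Y F (4 * e)) (φ ψ φ' : LP F e n h → ℝ) :
    QQ a g g' Z Z' φ φ' - QQ a g g' Z Z' ψ φ' = QQ a g g' Z Z' (fun T => φ T - ψ T) φ' := by
  simp only [QQ, ← expect_sub_distrib, sub_mul]

theorem QQ_sum_left (a : (Fin 2 → Vtx F e n h) → (Slot → F) → ℝ) (g g' : Gs h)
    (Z Z' : Slot → Ix h → Y F (4 * e)) {ι : Type} [Fintype ι] (φ : ι → LP F e n h → ℝ)
    (φ' : LP F e n h → ℝ) :
    QQ a g g' Z Z' (fun T => ∑ i, φ i T) φ' = ∑ i, QQ a g g' Z Z' (φ i) φ' := by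
  simp only [QQ, ← expect_sum_comm, sum_mul]

omit [Fintype F] in
theorem abs_wt_le {x φ : ℝ} (hx : 0 ≤ x) (hφ : |φ| ≤ 1) (k : K) : |x * (φ * sgn k)| ≤ x := by
  rw [abs_mul, abs_mul, abs_sgn, mul_one, abs_of_nonneg hx]
  exact mul_le_of_le_one_right hx hφ

theorem QQ_not_forced {a : (Fin 2 → Vtx F e n h) → (Slot → F) → ℝ} {εL : ℝ} (g g' : Gs h)
    (Z Z' : Slot → Ix h → Y F (4 * e))
    (hLo : ∀ j k (φ φ' : LP F e n h → ℝ), (∀ T, |φ T| ≤ 1) → (∀ T, |φ' T| ≤ 1) →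
      (∀ T, φ T ≠ 0 → psi T.1 Z j k ∉ Submodule.span K (Set.range fun s => Phi (pts T.1 T.2 s))) →
      |QQ a g g' Z Z' φ φ'| ≤ εL) (φ' : LP F e n h → ℝ) (hφ' : ∀ T, |φ' T| ≤ 1) :
    |QQ a g g' Z Z' (fun _ => 1) φ' - QQ a g g' Z Z' (fun T => ind (Forced T.1 T.2 Z)) φ'| ≤
      2 * (2 * h + 1) * εL := by
  classical
  have hb : ∀ T : LP F e n h, ∃ p : Fin 2 × Ix h, ¬ Forced T.1 T.2 Z →
      psi T.1 Z p.1 p.2 ∉ Submodule.span K (Set.range fun s => Phi (pts T.1 T.2 s)) := by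
    intro T
    by_cases hf : Forced T.1 T.2 Z
    · exact ⟨(0, none), fun h => absurd hf h⟩
    · obtain ⟨j, hj⟩ := not_forall.mp hf
      obtain ⟨k, hk⟩ := not_forall.mp hj
      exact ⟨(j, k), fun _ => hk⟩
  choose bad hbad using hb
  have h1 : (fun T : LP F e n h => 1 - ind (Forced T.1 T.2 Z)) =
      fun T => ∑ p, ind (¬ Forced T.1 T.2 Z ∧ bad T = p) := by
    funext T
    rw [sum_eq_single (bad T) (fun p _ hp => ind_neg fun h => hp h.2.symm) (by simp), ← ind_not]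
    simp
  rw [QQ_sub_left, h1, QQ_sum_left]
  refine (abs_sum_le_sum_abs _ _).trans ((sum_le_card_nsmul _ _ εL fun p _ => ?_).trans ?_)
  · refine hLo p.1 p.2 _ _ (fun T => abs_ind_le _) hφ' fun T hT => ?_
    obtain ⟨h2, rfl⟩ := ind_ne_zero.mp hT
    exact hbad T h2
  · rw [card_univ, Fintype.card_prod, card_Ix, Fintype.card_fin, nsmul_eq_mul]
    push_cast
    rfl

theorem cross_abstract {a : (Fin 2 → Vtx F e n h) → (Slot → F) → ℝ} (ha : ∀ A t, 0 ≤ a A t)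
    {R : ℕ} {εH εL : ℝ} (hεH : 0 ≤ εH) (hεL : 0 ≤ εL)
    (hHi : ∀ g g' (Z Z' : Slot → Ix h → Y F (4 * e)) s k, ¬ LowRk e R (Z s k) →
      ∀ φ φ' : LP F e n h → ℝ, (∀ T, |φ T| ≤ 1) → (∀ T, |φ' T| ≤ 1) → |QQ a g g' Z Z' φ φ'| ≤ εH)
    (hLo : ∀ g g' (Z : ZT F e h) (Z' : Slot → Ix h → Y F (4 * e)), (∀ s k, LowRk e R (cz Z s k)) →
      ∀ j k (φ φ' : LP F e n h → ℝ), (∀ T, |φ T| ≤ 1) → (∀ T, |φ' T| ≤ 1) →
      (∀ T, φ T ≠ 0 →
        psi T.1 (cz Z) j k ∉ Submodule.span K (Set.range fun s => Phi (pts T.1 T.2 s))) →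
      |QQ a g g' (cz Z) Z' φ φ'| ≤ εL) (g g' : Gs h) :
    (𝔼 A, 𝔼 t, 𝔼 B, 𝔼 t', a A t * a B t' * ind (Match A t B t' ∧ Wit g A t B ∧ Wit g' B t' A)) -
      ((Fintype.card (ZT F e h) : ℝ) ^ 2 * (2 * εH) +
        (∑ Z : ZT F e h, ind (∀ s k, LowRk e R (cz Z s k))) ^ 2 * (4 * (2 * h + 1) * εL)) ≤
      (Fintype.card (ZT F e h) : ℝ) ^ 2 * 𝔼 A, 𝔼 t, 𝔼 B, 𝔼 t', a A t * a B t' *
        ind (Match A t B t' ∧ Cross g A t B ∧ Cross g' B t' A) := by
  have hc : (Fintype.card (ZT F e h) : ℝ) ≠ 0 := by positivity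
  have e1 : (Fintype.card (ZT F e h) : ℝ) ^ 2 * 𝔼 A, 𝔼 t, 𝔼 B, 𝔼 t', a A t * a B t' *
      ind (Match A t B t' ∧ Cross g A t B ∧ Cross g' B t' A) =
      ∑ Z : ZT F e h, ∑ Z' : ZT F e h, QQ a g g' (cz Z) (cz Z') (fun _ => 1) fun _ => 1 := by
    rw [expect_four]
    simp only [QQ, ← expect_sum_comm, mul_expect, one_mul, ← mul_sum, ← sum_mul]
    refine expect_congr rfl fun T _ => expect_congr rfl fun T' _ => ?_
    rw [ind_and, ind_and, ind_cross, ind_cross, expect_eq_sum_div, expect_eq_sum_div]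
    field_simp
  have e2 : (𝔼 A, 𝔼 t, 𝔼 B, 𝔼 t', a A t * a B t' *
      ind (Match A t B t' ∧ Wit g A t B ∧ Wit g' B t' A)) ≤
      ∑ Z : ZT F e h, ∑ Z' : ZT F e h, QQ a g g' (cz Z) (cz Z')
        (fun T => ind (Forced T.1 T.2 (cz Z))) fun T => ind (Forced T.1 T.2 (cz Z')) := by
    rw [expect_four]
    simp only [QQ, ← expect_sum_comm]
    refine expect_mono fun T => expect_mono fun T' => ?_
    have h1 := sum_forced_ge g T.1 T.2 T'.1
    have h2 := sum_forced_ge g' T'.1 T'.2 T.1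
    have h3 := mul_le_mul h1 h2 (ind_nonneg _) ((ind_nonneg _).trans h1)
    have h4 := mul_le_mul_of_nonneg_left h3 (mul_nonneg (mul_nonneg (ha T.1 T.2) (ha T'.1 T'.2))
      (ind_nonneg (Match T.1 T.2 T'.1 T'.2)))
    rw [ind_and, ind_and, ← mul_assoc]
    refine h4.trans (le_of_eq ?_)
    rw [sum_mul_sum, mul_sum]
    refine sum_congr rfl fun Z _ => ?_
    rw [mul_sum]
    exact sum_congr rfl fun Z' _ => by ring
  have e3 : ∀ Z Z' : ZT F e h, QQ a g g' (cz Z) (cz Z')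
      (fun T => ind (Forced T.1 T.2 (cz Z))) (fun T => ind (Forced T.1 T.2 (cz Z'))) -
      QQ a g g' (cz Z) (cz Z') (fun _ => 1) (fun _ => 1) ≤
      2 * εH + ind (∀ s k, LowRk e R (cz Z s k)) * ind (∀ s k, LowRk e R (cz Z' s k)) *
        (4 * (2 * h + 1) * εL) := by
    intro Z Z'
    have o1 : ∀ _ : LP F e n h, |(1 : ℝ)| ≤ 1 := fun _ => by simp
    by_cases l1 : ∀ s k, LowRk e R (cz Z s k)
    · by_cases l2 : ∀ s k, LowRk e R (cz Z' s k)
      · have h1 := QQ_not_forced g g' _ _ (hLo g g' Z (cz Z') l1) _ o1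
        have h2 := QQ_not_forced g' g _ _ (hLo g' g Z' (cz Z) l2)
          (fun T => ind (Forced T.1 T.2 (cz Z))) fun T => abs_ind_le _
        rw [QQ_symm a g' g, QQ_symm a g' g] at h2
        rw [ind_pos l1, ind_pos l2]
        have := abs_le.mp h1
        have := abs_le.mp h2
        linarith
      · obtain ⟨s, hs⟩ := not_forall.mp l2
        obtain ⟨k, hk⟩ := not_forall.mp hs
        have h1 := abs_le.mp (hHi g' g _ (cz Z) s k hk _ _ o1 o1)
        have h2 := abs_le.mp (hHi g' g _ (cz Z) s k hk (fun T => ind (Forced T.1 T.2 (cz Z')))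
          (fun T => ind (Forced T.1 T.2 (cz Z))) (fun T => abs_ind_le _) fun T => abs_ind_le _)
        rw [QQ_symm a g' g] at h1 h2
        rw [ind_neg l2]
        linarith
    · obtain ⟨s, hs⟩ := not_forall.mp l1
      obtain ⟨k, hk⟩ := not_forall.mp hs
      have h1 := abs_le.mp (hHi g g' _ (cz Z') s k hk _ _ o1 o1)
      have h2 := abs_le.mp (hHi g g' _ (cz Z') s k hk (fun T => ind (Forced T.1 T.2 (cz Z)))
        (fun T => ind (Forced T.1 T.2 (cz Z'))) (fun T => abs_ind_le _) fun T => abs_ind_le _)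
      rw [ind_neg l1]
      linarith
  have e4 := sum_le_sum fun Z (_ : Z ∈ univ) => sum_le_sum fun Z' (_ : Z' ∈ univ) => e3 Z Z'
  simp only [sum_sub_distrib, sum_add_distrib, sum_const, card_univ, nsmul_eq_mul, ← sum_mul,
    ← mul_sum] at e4
  rw [e1]
  linarith

theorem sum_low_le {R : ℕ} (hR : 2 * R ≤ e) :
    ∑ Z : ZT F e h, ind (∀ s k, LowRk e R (cz Z s k)) ≤
      (Fintype.card F : ℝ) ^ ((6 * R + 1) * (4 * (2 * h + 1))) := by
  classical
  have h1 : ∑ Z : ZT F e h, ind (∀ s k, LowRk e R (cz Z s k)) =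
      (Nat.card {Z : ZT F e h // ∀ s k, LowRk e R (cz Z s k)} : ℝ) := by
    rw [Nat.card_eq_fintype_card, Fintype.card_subtype, card_filter]
    push_cast
    exact sum_congr rfl fun Z _ => by simp [ind]
  have h2 : Nat.card {Z : ZT F e h // ∀ s k, LowRk e R (cz Z s k)} ≤
      Nat.card (Slot → Ix h → {z : Y F (4 * e) // LowRk e R z}) :=
    Nat.card_le_card_of_injective (fun Z s k => ⟨_, Z.2 s k⟩) fun Z Z' hZ =>
      Subtype.ext (_root_.funext fun s => _root_.funext fun k => Subtype.ext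
        (by have := congrArg Subtype.val (congrFun (congrFun hZ s) k); exact this))
  rw [Nat.card_fun, Nat.card_fun, Nat.card_eq_fintype_card (α := Ix h), card_Ix,
    Nat.card_eq_fintype_card (α := Slot), ← pow_mul] at h2
  have h3 := h2.trans (Nat.pow_le_pow_left (card_lowRk hR) _)
  rw [← pow_mul] at h3
  rw [h1]
  have : (2 * h + 1) * Fintype.card Slot = 4 * (2 * h + 1) := by simp [mul_comm]
  rw [this] at h3
  exact_mod_cast h3

theorem card_ZT : Fintype.card (ZT F e h) = Fintype.card (XX F (4 * e)) ^ (4 * (2 * h + 1)) := by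
  rw [Fintype.card_fun, Fintype.card_fun, card_Ix, ← pow_mul]
  simp [mul_comm]

end ErrMainAux

theorem eventually_le_pow_sq (c : ℝ) (m : ℕ) :
    ∀ᶠ κ : ℕ in atTop, c * ((4 : ℝ) ^ κ) ^ m ≤ ((4 : ℝ) ^ κ) ^ (κ ^ 2) := by
  filter_upwards [eventually_ge_atTop (m + 1),
    (tendsto_pow_atTop_atTop_of_one_lt (by norm_num : (1 : ℝ) < 4)).eventually_ge_atTop c]
    with κ h1 h2
  calc c * ((4 : ℝ) ^ κ) ^ m ≤ ((4 : ℝ) ^ κ) ^ (m + 1) := by
        rw [pow_succ']; gcongr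
    _ ≤ _ := pow_le_pow_right₀ (one_le_pow₀ (by norm_num))
        (h1.trans (Nat.le_self_pow (by norm_num) κ))

theorem high_num {q κm x : ℝ} (hq : 1 ≤ q) {h D e : ℕ} (he : 1 ≤ e)
    (hx : x ^ 2 ≤ κm ^ 4 * (q ^ (D * (4 * e))) ^ 2 *
      (q ^ ((4 * D + 16 + 40 * (2 * h + 1) + 1) * (e + 1)) /
        q ^ ((4 * D + 16 + 40 * (2 * h + 1) + 1) * (4 * e)))) :
    |x| ≤ κm ^ 2 / (q ^ e * (q ^ (4 * e)) ^ 4 * (q ^ ((4 * e + 1) * (4 * (2 * h + 1)))) ^ 2) := by
  refine abs_le_of_sq_le_sq (hx.trans ?_) (by positivity)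
  rw [div_pow, ← pow_mul κm, mul_assoc, div_eq_mul_one_div (κm ^ _)]
  refine mul_le_mul_of_nonneg_left ?_ (by positivity)
  rw [← mul_div_assoc, div_le_div_iff₀ (by positivity) (by positivity), one_mul]
  simp only [← pow_mul, ← pow_add]
  refine pow_le_pow_right₀ hq ?_
  obtain ⟨f, rfl⟩ := Nat.exists_eq_add_of_le he
  nlinarith [Nat.zero_le (D * f), Nat.zero_le (h * f)]

theorem low_num {q κm η x : ℝ} (hq : 1 ≤ q) (hη : 0 < η) {D e L : ℕ} (hL : L ≠ 0) (hL2 : Even L)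
    (hx : x ^ L ≤ κm ^ L * q ^ (D * (4 * e)) * 3 ^ L * (1 / q ^ (3 * e)) ^ (2 * (D + 1)))
    (hκ : 0 ≤ κm) (hs : (3 * κm / η) ^ L ≤ q ^ e) : |x| ≤ η := by
  refine le_of_pow_le_pow_left₀ hL hη.le ?_
  rw [hL2.pow_abs]
  refine hx.trans ?_
  rw [div_pow, div_le_iff₀ (by positivity), mul_pow] at hs
  have h1 : q ^ (D * (4 * e)) * (1 / q ^ (3 * e)) ^ (2 * (D + 1)) * q ^ e ≤ 1 := by
    rw [one_div_pow, ← pow_mul, mul_one_div, div_mul_eq_mul_div, div_le_one (by positivity),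
      ← pow_add]
    refine pow_le_pow_right₀ hq ?_
    nlinarith [Nat.zero_le (D * e)]
  calc _ = q ^ (D * (4 * e)) * (1 / q ^ (3 * e)) ^ (2 * (D + 1)) * (3 ^ L * κm ^ L) := by ring
    _ ≤ q ^ (D * (4 * e)) * (1 / q ^ (3 * e)) ^ (2 * (D + 1)) * (q ^ e * η ^ L) := by gcongr
    _ ≤ 1 * η ^ L := by rw [← mul_assoc]; gcongr
    _ = _ := one_mul _

/-- J8a: Fourier expansion, forced class, summation of the error terms -/
theorem cross_lower (h D C : ℕ) (κm δ : ℝ) (hκ : 0 ≤ κm) (hδ : 0 < δ) : ∀ᶠ κ : ℕ in atTop,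
    ∀ (F : Type) [Field F] [Fintype F] [Algebra K F], Fintype.card F = 4 ^ κ →
    ∀ (hh : (Fin 2 → Vtx F (κ ^ 2) (4 * κ ^ 2) h) → ℝ)
      (a : (Fin 2 → Vtx F (κ ^ 2) (4 * κ ^ 2) h) → (Slot → F) → ℝ),
      Dens hh (((4 : ℝ) ^ κ) ^ (D * (4 * κ ^ 2))) (4 ^ κ) → WtOK hh a κm (((4 : ℝ) ^ κ) ^ C) →
      ∀ g g' : Gs h,
        (𝔼 A, 𝔼 t, 𝔼 B, 𝔼 t', a A t * a B t' *
            ind (Match A t B t' ∧ Wit g A t B ∧ Wit g' B t' A)) -
          δ / (Fintype.card (Fin (4 * κ ^ 2) → F) : ℝ) ^ 4 ≤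
        (Fintype.card (XX F (4 * κ ^ 2)) : ℝ) ^ (8 * (2 * h + 1)) *
          𝔼 A, 𝔼 t, 𝔼 B, 𝔼 t', a A t * a B t' *
            ind (Match A t B t' ∧ Cross g A t B ∧ Cross g' B t' A) := by
  obtain ⟨R, hR⟩ : ∃ R, R = 4 * D + 16 + 40 * (2 * h + 1) := ⟨_, rfl⟩
  obtain ⟨L, hL⟩ : ∃ L, L = 2 * (D + 1) * (2 * (R + 2) ^ 2 + 1) := ⟨_, rfl⟩
  obtain ⟨c₁, hc₁⟩ : ∃ c₁, c₁ = (6 * R + 1) * (4 * (2 * h + 1)) := ⟨_, rfl⟩
  filter_upwards [eventually_ge_atTop (6 * R + 6), eventually_le_pow_sq (4 * κm ^ 2 / δ) 0,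
    eventually_le_pow_sq (2 * κm) (C + (R + 6 + 2 * (R + 2) * L)),
    eventually_le_pow_sq ((3 * κm * (8 * (2 * h + 1)) / δ) ^ L) (c₁ * 2 * L)]
    with κ k1 k2 k3 k4 F _ _ _ hq hh a hd ha g g'
  have he : 6 * R + 6 ≤ κ ^ 2 := k1.trans (Nat.le_self_pow (by norm_num) κ)
  have hq' : (Fintype.card F : ℝ) = 4 ^ κ := by rw [hq]; push_cast; rfl
  have hN : (Fintype.card (Fin (4 * κ ^ 2) → F) : ℝ) = (4 ^ κ) ^ (4 * κ ^ 2) := by
    rw [Fintype.card_fun, Fintype.card_fin, Nat.cast_pow, hq']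
  have hq1 : (1 : ℝ) ≤ 4 ^ κ := one_le_pow₀ (by norm_num)
  generalize (4 : ℝ) ^ κ = q at *
  generalize κ ^ 2 = e at *
  have hq0 : 0 < q := by linarith
  have main := cross_abstract ha.nonneg (R := R)
    (εH := κm ^ 2 / (q ^ e * (q ^ (4 * e)) ^ 4 * (q ^ ((4 * e + 1) * (4 * (2 * h + 1)))) ^ 2))
    (εL := δ / (8 * (2 * h + 1) * (q ^ c₁) ^ 2) / (q ^ (4 * e)) ^ 4) (by positivity)
    (by positivity) (fun g g' Z Z' s k hZ φ φ' h1 h2 => by
      rw [QQ_eq_term]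
      have := term_high hd hκ Z s k hZ _ _
        (fun A t => (abs_wt_le (ha.nonneg A t) (h1 (A, t)) (ownZ g A t Z)).trans (ha.le A t))
        (fun A t h0 => ha.surj A t (left_ne_zero_of_mul h0))
        (fun A t => (abs_wt_le (ha.nonneg A t) (h2 (A, t)) (ownZ g' A t Z')).trans (ha.le A t))
        (θ := fun A _ c _ =>
          sgn (∑ j, ∑ k, (A j).u (U (c 0) (Z' (0, j) k) + U (c 1) (Z' (1, j) k)) k))
        fun _ _ _ _ => (abs_sgn _).le
      rw [hq', hR] at this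
      exact high_num hq1 (by omega) this)
    (fun g g' Z Z' hZ j k φ φ' h1 h2 h3 => by
      rw [QQ_eq_term]
      have := term_low hd hκ (by positivity) ha (cz Z) he j k
        (fun i => ⟨(Z (i, j) k).2, hZ _ _⟩) _ _
        (fun A t => abs_wt_le (ha.nonneg A t) (h1 (A, t)) (ownZ g A t (cz Z)))
        (fun A t h0 => h3 (A, t) (left_ne_zero_of_mul (right_ne_zero_of_mul h0)))
        (fun A t => abs_wt_le (ha.nonneg A t) (h2 (A, t)) (ownZ g' A t Z'))
        (θ := fun A _ c _ =>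
          sgn (∑ j, ∑ k, (A j).u (U (c 0) (Z' (0, j) k) + U (c 1) (Z' (1, j) k)) k))
        (fun _ _ _ _ => (abs_sgn _).le) (D + 1) L hL (1 / q ^ (3 * e)) (by positivity)
        (by rw [div_le_one (by positivity)]; exact one_le_pow₀ hq1) (by
          rw [hq', div_le_div_iff₀ (by positivity) (by positivity), one_mul, mul_assoc (2 * κm),
            ← pow_add, show 4 * e = e + 3 * e by ring, pow_add q e]
          gcongr)
      have h4 := low_num (η := δ / (8 * (2 * h + 1) * (q ^ c₁) ^ 2)) hq1 (by positivity)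
        (by rw [hL]; positivity) (by rw [hL, mul_assoc]; exact even_two_mul _) this hκ (by
          refine le_of_eq_of_le ?_ k4
          rw [pow_mul q (c₁ * 2), ← mul_pow, pow_mul]
          congr 1
          field_simp)
      rw [hN, abs_mul, abs_of_pos (by positivity)] at h4
      rw [le_div_iff₀' (by positivity)]
      exact h4) g g'
  have hcard : (Fintype.card (ZT F e h) : ℝ) ^ 2 =
      (Fintype.card (XX F (4 * e)) : ℝ) ^ (8 * (2 * h + 1)) := by
    rw [card_ZT, Nat.cast_pow, ← pow_mul]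
    congr 1
    ring
  rw [← hcard, hN]
  refine le_trans (sub_le_sub_left ?_ _) main
  have b1 : (Fintype.card (ZT F e h) : ℝ) ≤ q ^ ((4 * e + 1) * (4 * (2 * h + 1))) := by
    rw [card_ZT, Nat.cast_pow, pow_mul q, ← hq']
    gcongr
    exact_mod_cast card_XX_le
  have b2 := sum_low_le (F := F) (h := h) (by omega : 2 * R ≤ e)
  rw [hq', ← hc₁] at b2
  have b3 : 0 ≤ ∑ Z : ZT F e h, ind (∀ s k, LowRk e R (cz Z s k)) :=
    sum_nonneg fun _ _ => ind_nonneg _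
  rw [pow_zero, mul_one, div_le_iff₀ hδ] at k2
  calc _ ≤ (q ^ ((4 * e + 1) * (4 * (2 * h + 1)))) ^ 2 * (2 * (κm ^ 2 / (q ^ e * (q ^ (4 * e)) ^ 4 *
        (q ^ ((4 * e + 1) * (4 * (2 * h + 1)))) ^ 2))) + (q ^ c₁) ^ 2 * (4 * (2 * h + 1) *
        (δ / (8 * (2 * h + 1) * (q ^ c₁) ^ 2) / (q ^ (4 * e)) ^ 4)) := by gcongr
    _ = (4 * κm ^ 2 / q ^ e / 2 + δ / 2) / (q ^ (4 * e)) ^ 4 := by field_simp; ring
    _ ≤ (δ / 2 + δ / 2) / (q ^ (4 * e)) ^ 4 := by
        gcongr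
        rw [div_le_iff₀' (by positivity)]
        exact k2
    _ = _ := by ring

end Vale.Agent.P060
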