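import Vale.Agent.P060.Low

namespace Vale.Agent.P060

open Finset Polynomial Filter
open scoped BigOperators

variable {F : Type} [Field F] [Fintype F] [Algebra K F] {e n h M : ℕ}

set_option linter.unusedSectionVars false

theorem pow_div_le_V {a b c d : ℕ} (h : a + d ≤ c + b) :
    (Fintype.card F : ℝ) ^ a / (Fintype.card F : ℝ) ^ b ≤
      (Fintype.card F : ℝ) ^ c / (Fintype.card F : ℝ) ^ d := by
  have h1 : (1 : ℝ) ≤ Fintype.card F := by exact_mod_cast Fintype.card_pos
  rw [div_le_div_iff₀ (by positivity) (by positivity), ← pow_add, ← pow_add]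
  exact pow_le_pow_right₀ h1 h

theorem natCard_V (V : Type) [AddCommGroup V] [Module F V] [Module.Finite F V] :
    Nat.card V = Fintype.card F ^ Module.finrank F V := by
  rw [Module.natCard_eq_pow_finrank (K := F), Nat.card_eq_fintype_card]

theorem expect_union_V {α Φ : Type} [Fintype α] [Finite Φ] (P : Φ → α → Prop) {b : ℝ}
    (h : ∀ φ, 𝔼 a, ind (P φ a) ≤ b) : 𝔼 a, ind (∃ φ, P φ a) ≤ Nat.card Φ * b := by
  haveI := Fintype.ofFinite Φ
  refine (expect_mono fun a => ind_exists_le fun φ => P φ a).trans ?_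
  rw [expect_sum_comm, Nat.card_eq_fintype_card]
  refine (sum_le_sum fun φ _ => h φ).trans ?_
  simp

theorem exists_surj_kill {V : Type} [AddCommGroup V] [Module F V] [FiniteDimensional F V]
    (W : Submodule F V) {k : ℕ} (h : Module.finrank F W + k ≤ Module.finrank F V) :
    ∃ Ψ : V →ₗ[F] (Fin k → F), Function.Surjective Ψ ∧ ∀ a ∈ W, Ψ a = 0 := by
  have h1 := W.finrank_quotient_add_finrank
  have h2 : k ≤ Module.finrank F (V ⧸ W) := by omega
  refine ⟨(LinearMap.funLeft F F (Fin.castLE h2)).comp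
    ((Module.finBasis F (V ⧸ W)).equivFun.toLinearMap.comp W.mkQ), ?_, fun a ha => ?_⟩
  · exact (LinearMap.funLeft_surjective_of_injective F F _ (Fin.castLE_injective h2)).comp
      ((Module.finBasis F (V ⧸ W)).equivFun.surjective.comp W.mkQ_surjective)
  · rw [LinearMap.comp_apply, LinearMap.comp_apply, Submodule.mkQ_apply,
      (Submodule.Quotient.mk_eq_zero W).2 ha, map_zero, map_zero]

theorem finrank_ker_cstar (c : Frame F e n) :
    n ≤ Module.finrank F (LinearMap.ker (cstar c)) + e := by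
  have h1 := LinearMap.finrank_range_add_finrank_ker (cstar c)
  have h2 := Submodule.finrank_le (LinearMap.range (cstar c))
  rw [finrank_Y] at h2
  simp only [Module.finrank_fintype_fun_eq_card, Fintype.card_option, Fintype.card_fin] at h1
  omega

/-- the part of `cstar` that is additive in the frame -/
def cs0 (c : Frame F e n) : (Option (Fin n) → F) →ₗ[F] Y F e where
  toFun α := ∑ a, α (some a) • c a
  map_add' α β := by simp only [Pi.add_apply, add_smul, Finset.sum_add_distrib]
  map_smul' a α := by simp [mul_smul, Finset.smul_sum]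

/-- Lemma V -/
theorem lemV {ι₁ ι₂ : Type} [Fintype ι₁] [Fintype ι₂] (Ψ₁ : Y F e →ₗ[F] (ι₁ → F))
    (Ψ₂ : Y F e →ₗ[F] (ι₂ → F)) (hΨ : Function.Surjective (Ψ₁.prod Ψ₂)) (w : Fin n → ι₁ → F)
    (N : Submodule F (Option (Fin n) → F)) :
    𝔼 c : Frame F e n, ind ((∀ a, Ψ₁ (c a) = w a) ∧ ∀ α ∈ N, Ψ₂ (cstar c α) = 0) ≤
      (Fintype.card F : ℝ) ^ Fintype.card ι₂ / ((Fintype.card F : ℝ) ^ (n * Fintype.card ι₁) *
        (Fintype.card F : ℝ) ^ (Fintype.card ι₂ * Module.finrank F N)) := by
  classical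
  let N₀ : Submodule F (Option (Fin n) → F) :=
    N ⊓ LinearMap.ker (LinearMap.proj none : (Option (Fin n) → F) →ₗ[F] F)
  have hN : Module.finrank F N ≤ Module.finrank F N₀ + 1 := by
    simpa using finrank_le_inf_ker N (LinearMap.proj none : (Option (Fin n) → F) →ₗ[F] F)
  let f : Frame F e n →+ (Fin n → ι₁ → F) × (N₀ →ₗ[F] (ι₂ → F)) :=
    AddMonoidHom.mk' (fun c => (fun a => Ψ₁ (c a), (Ψ₂.comp (cs0 c)).comp N₀.subtype))
      fun c c' => Prod.ext (funext fun a => map_add Ψ₁ _ _) (LinearMap.ext fun α => by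
        simp [cs0, sum_add_distrib])
  have hf : Function.Surjective f := by
    rintro ⟨w', L⟩
    obtain ⟨L', rfl⟩ := LinearMap.exists_extend L
    choose c hc using fun a => hΨ (w' a, L' (Pi.single (some a) 1))
    refine ⟨c, Prod.ext (funext fun a => congrArg Prod.fst (hc a)) (LinearMap.ext fun α => ?_)⟩
    have h1 : ∀ a, Ψ₂ (c a) = L' (Pi.single (some a) 1) := fun a => congrArg Prod.snd (hc a)
    have h2 : α.1 none = 0 := α.2.2
    change Ψ₂ (∑ a, α.1 (some a) • c a) = L' α.1
    conv_rhs => rw [pi_eq_sum_univ' α.1, Fintype.sum_option, h2, zero_smul, zero_add]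
    simp only [map_sum, map_smul, h1]
  refine (expect_mono (g := fun c => ind (f c = (w, 0))) fun c => ind_mono fun hc => ?_).trans
    ((expect_ind_addHom_le f _).trans ?_)
  · refine Prod.ext (funext hc.1) (LinearMap.ext fun α => ?_)
    have h1 := hc.2 α.1 α.2.1
    have h2 : α.1 none = 0 := α.2.2
    change Ψ₂ (α.1 none • Pi.single 0 1 + cs0 c α.1) = 0 at h1
    rw [h2, zero_smul, zero_add] at h1
    exact h1
  · rw [AddMonoidHom.range_eq_top.2 hf, AddSubgroup.card_top, natCard_V (F := F),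
      Module.finrank_prod, Module.finrank_linearMap, Module.finrank_pi_fintype, ← pow_add,
      ← pow_zero (Fintype.card F : ℝ), Nat.cast_pow]
    refine pow_div_le_V ?_
    simp only [Module.finrank_fintype_fun_eq_card, sum_const, card_univ, Fintype.card_fin,
      smul_eq_mul]
    nlinarith [Nat.mul_le_mul_left (Fintype.card ι₂) hN]

theorem lemV_two {k : ℕ} (Ψ : Y F e →ₗ[F] (Fin k → F)) (hΨ : Function.Surjective Ψ)
    (N : Submodule F (Option (Fin n) → F)) :
    𝔼 c : Frame F e n, ind (∀ α ∈ N, Ψ (cstar c α) = 0) ≤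
      (Fintype.card F : ℝ) ^ k / (Fintype.card F : ℝ) ^ (k * Module.finrank F N) := by
  have := lemV (ι₁ := Empty) 0 Ψ (fun y => by
    obtain ⟨a, ha⟩ := hΨ y.2
    exact ⟨a, Prod.ext (Subsingleton.elim _ _) ha⟩) 0 N
  simpa using this

theorem indep_pt : Indep (pt : Frame F e n → F → Fin n → F) (e + 1) := by
  classical
  intro ι _ τ hτ hι w
  let f : Frame F e n →+ (ι → Fin n → F) := AddMonoidHom.mk' (fun c a => pt c (τ a))
    fun c c' => funext fun a => funext fun k => by simp [pt, poly_add]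
  have hf : Function.Surjective f := fun y => by
    refine ⟨fun k => cfs e (Lagrange.interpolate univ τ fun a => y a k),
      funext fun a => funext fun k => ?_⟩
    have h1 := Lagrange.degree_interpolate_lt (s := univ) (fun a => y a k) hτ.injOn
    change (poly (cfs e _)).eval (τ a) = _
    rw [poly_cfs, Lagrange.eval_interpolate_at_node _ hτ.injOn (mem_univ a)]
    by_cases h0 : (Lagrange.interpolate univ τ fun a => y a k) = 0
    · simp [h0]
    · have h2 := (natDegree_lt_iff_degree_lt h0).2 h1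
      rw [card_univ] at h2
      omega
  have h1 := expect_addHom f hf fun y => ind (y = w)
  rw [expect_ind_eq, Fintype.card_fun (α := ι), Nat.cast_pow] at h1
  rw [← h1]
  exact expect_congr rfl fun c _ => ind_congr funext_iff.symm

theorem indep_vp : Indep (vp : Vtx F e n h → F → Fin n → F) (e + 1) := by
  intro ι _ τ hτ hι w
  rw [expect_prod, ← indep_pt ι τ hτ hι w]
  exact expect_congr rfl fun c _ => expect_const univ_nonempty (ind (∀ a, pt c (τ a) = w a))

theorem surj_prob : 𝔼 c : Frame F e n, ind (¬ Surj c) ≤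
    (Fintype.card F : ℝ) ^ (e + 1) / (Fintype.card F : ℝ) ^ n := by
  haveI : Finite (Y F e →ₗ[F] (Fin 1 → F)) := DFunLike.finite _
  have h1 := expect_union_V (fun (Ψ : Y F e →ₗ[F] (Fin 1 → F)) (c : Frame F e n) =>
    Function.Surjective Ψ ∧ ∀ α ∈ (⊤ : Submodule F (Option (Fin n) → F)), Ψ (cstar c α) = 0)
    (b := (Fintype.card F : ℝ) ^ 1 / (Fintype.card F : ℝ) ^ (n + 1)) fun Ψ => by
      by_cases hΨ : Function.Surjective Ψ
      · simpa [hΨ] using lemV_two (n := n) Ψ hΨ ⊤
      · simp only [hΨ, false_and, ind_false, expect_const_zero]; positivity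
  refine (expect_mono fun c => ind_mono fun hc => ?_).trans (h1.trans ?_)
  · have h2 : LinearMap.range (cstar c) ≠ ⊤ := fun h => hc (LinearMap.range_eq_top.1 h)
    obtain ⟨Ψ, h3, h4⟩ := exists_surj_kill (LinearMap.range (cstar c)) (k := 1)
      (Submodule.finrank_lt h2)
    exact ⟨Ψ, h3, fun α _ => h4 _ ⟨α, rfl⟩⟩
  · rw [natCard_V (F := F), Nat.cast_pow, ← mul_div_assoc, ← pow_add]
    refine pow_div_le_V ?_
    simp [Module.finrank_linearMap]
    omega

theorem pairGood_prob (R : ℕ) (c' : Frame F e n) : 𝔼 c : Frame F e n, ind (¬ PairGood R c c') ≤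
    (Fintype.card F : ℝ) ^ ((R + 1) * (2 * e + 2)) / (Fintype.card F : ℝ) ^ ((R + 1) * n) := by
  haveI : Finite (Y F e →ₗ[F] (Fin (R + 1) → F)) := DFunLike.finite _
  have h1 := expect_union_V (fun (Ψ : Y F e →ₗ[F] (Fin (R + 1) → F)) (c : Frame F e n) =>
    Function.Surjective Ψ ∧ ∀ α ∈ LinearMap.ker (cstar c'), Ψ (cstar c α) = 0)
    (b := (Fintype.card F : ℝ) ^ (R + 1) / (Fintype.card F : ℝ) ^
      ((R + 1) * Module.finrank F (LinearMap.ker (cstar c')))) fun Ψ => by
      by_cases hΨ : Function.Surjective Ψ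
      · simpa only [hΨ, true_and] using lemV_two (n := n) Ψ hΨ (LinearMap.ker (cstar c'))
      · simp only [hΨ, false_and, ind_false, expect_const_zero]; positivity
  refine (expect_mono fun c => ind_mono fun hc => ?_).trans (h1.trans ?_)
  · obtain ⟨Ψ, h3, h4⟩ := exists_surj_kill ((LinearMap.ker (cstar c')).map (cstar c))
      (k := R + 1) (by rw [finrank_Y]; unfold PairGood at hc; omega)
    exact ⟨Ψ, h3, fun α hα => h4 _ ⟨α, hα, rfl⟩⟩
  · rw [natCard_V (F := F), Nat.cast_pow, ← mul_div_assoc, ← pow_add]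
    refine pow_div_le_V ?_
    rw [Module.finrank_linearMap, finrank_Y, Module.finrank_fintype_fun_eq_card, Fintype.card_fin]
    nlinarith [Nat.mul_le_mul_left (R + 1) (finrank_ker_cstar c')]

theorem high_prob {R : ℕ} {z : Y F (4 * e)} (hz : ¬ LowRk e R z) (ψ : TV F n) :
    𝔼 c : Frame F e n, ind (Surj c ∧ U c z = ψ) ≤
      (Fintype.card F : ℝ) ^ ((R + 1) * (e + 1)) / (Fintype.card F : ℝ) ^ ((R + 1) * n) := by
  by_cases h0 : ∃ c₀ : Frame F e n, U c₀ z = ψ
  swap
  · refine expect_le_const (by positivity) fun c => ?_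
    rw [ind_neg fun h => h0 ⟨c, h.2⟩]
    positivity
  obtain ⟨c₀, rfl⟩ := h0
  obtain ⟨Ψ, h3, h4⟩ := exists_surj_kill (Ker e z) (k := R + 1)
    (by rw [finrank_Y]; unfold LowRk at hz; omega)
  refine (expect_mono fun c => ind_mono fun hc α hα => ?_).trans
    ((lemV_two Ψ h3 (LinearMap.ker (cstar c₀))).trans (pow_div_le_V ?_))
  · exact h4 _ (map_ker_le_Ker hc.1 hc.2 ⟨α, hα, rfl⟩)
  · nlinarith [Nat.mul_le_mul_left (R + 1) (finrank_ker_cstar c₀)]

theorem nonnew_prob {r p₀ : ℕ} {z : Y F (4 * e)} (hz : LowRk e r z) {t t' : F}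
    (h₁ : ∃ a ∈ Ker e z, (poly a).eval t ≠ 0 ∧ (poly a).eval t' = 0)
    (h₂ : ∃ a ∈ Ker e z, (poly a).eval t = 0 ∧ (poly a).eval t' ≠ 0)
    (P : Submodule F (Option (Fin n) → F)) (hP : n + 1 ≤ Module.finrank F P + p₀)
    (w w' : Fin n → F) :
    𝔼 c : Frame F e n, ind (pt c t = w ∧ pt c t' = w' ∧ (Ker e z).comap (cstar c) ⊔ P ≠ ⊤) ≤
      (Fintype.card F : ℝ) ^ (r + p₀) / (Fintype.card F : ℝ) ^ (3 * n) := by
  haveI : Finite (Y F e ⧸ Ker e z) := Finite.of_surjective _ (Ker e z).mkQ_surjective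
  haveI : Finite (Module.Dual F (Y F e ⧸ Ker e z)) := DFunLike.finite _
  have h1 := expect_union_V (fun (μ : Module.Dual F (Y F e ⧸ Ker e z)) (c : Frame F e n) =>
    μ ≠ 0 ∧ pt c t = w ∧ pt c t' = w' ∧ ∀ α ∈ P, μ ((Ker e z).mkQ (cstar c α)) = 0)
    (b := (Fintype.card F : ℝ) ^ 1 / (Fintype.card F : ℝ) ^ (n * 2 + Module.finrank F P))
    fun μ => by
      by_cases hμ : μ = 0
      · simp only [hμ, ne_eq, not_true, false_and, ind_false, expect_const_zero]; positivity
      have := lemV (ι₁ := Fin 2) (ι₂ := Unit) (LinearMap.pi fun i => evL e (![t, t'] i))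
        (LinearMap.pi fun _ => μ.comp (Ker e z).mkQ) (by
          rintro ⟨u, v⟩
          obtain ⟨a₁, k₁, b₁, b₁'⟩ := h₁
          obtain ⟨a₂, k₂, b₂, b₂'⟩ := h₂
          obtain ⟨y, hy⟩ := LinearMap.surjective_of_ne_zero hμ (v ())
          obtain ⟨b, rfl⟩ := (Ker e z).mkQ_surjective y
          have m₁ : (Ker e z).mkQ a₁ = 0 := (Submodule.Quotient.mk_eq_zero _).2 k₁
          have m₂ : (Ker e z).mkQ a₂ = 0 := (Submodule.Quotient.mk_eq_zero _).2 k₂
          refine ⟨b + ((u 0 - evL e t b) / evL e t a₁) • a₁ +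
            ((u 1 - evL e t' b) / evL e t' a₂) • a₂, Prod.ext (funext fun i => ?_)
              (funext fun _ => ?_)⟩
          · rw [← evL_apply] at b₁ b₁' b₂ b₂'
            fin_cases i
            · change evL e t _ = u 0
              rw [map_add, map_add, map_smul, map_smul, b₂, smul_eq_mul, div_mul_cancel₀ _ b₁]
              simp
            · change evL e t' _ = u 1
              rw [map_add, map_add, map_smul, map_smul, b₁', smul_eq_mul, smul_eq_mul,
                div_mul_cancel₀ _ b₂']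
              simp
          · change μ ((Ker e z).mkQ _) = v ()
            simp only [map_add, map_smul, m₁, m₂, map_zero, smul_zero, add_zero, hy]) (fun a i => ![w a, w' a] i) P
      rw [← pow_add] at this
      simp only [Fintype.card_unique, Fintype.card_fin, one_mul] at this
      refine (expect_mono fun c => ind_mono fun hc => ⟨fun a => funext fun i => ?_,
        fun α hα => funext fun _ => hc.2.2.2 α hα⟩).trans this
      fin_cases i
      · exact congrFun hc.2.1 a
      · exact congrFun hc.2.2.1 a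
  refine (expect_mono fun c => ind_mono fun hc => ?_).trans (h1.trans ?_)
  · obtain ⟨l, l0, hl⟩ := Submodule.exists_le_ker_of_lt_top _ (lt_top_iff_ne_top.2 hc.2.2)
    have h2 : l ∈ (LinearMap.ker ((Ker e z).mkQ.comp (cstar c))).dualAnnihilator := by
      rw [Submodule.mem_dualAnnihilator, LinearMap.ker_comp, Submodule.ker_mkQ]
      exact fun α hα => hl (Submodule.mem_sup_left hα)
    rw [← LinearMap.range_dualMap_eq_dualAnnihilator_ker] at h2
    obtain ⟨μ, rfl⟩ := h2
    exact ⟨μ, fun h => l0 (by rw [h, map_zero]), hc.1, hc.2.1,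
      fun α hα => hl (Submodule.mem_sup_right hα)⟩
  · rw [natCard_V (F := F), Nat.cast_pow, ← mul_div_assoc, ← pow_add]
    refine pow_div_le_V ?_
    have h2 := (Ker e z).finrank_quotient_add_finrank
    rw [finrank_Y] at h2
    rw [Subspace.dual_finrank_eq]
    unfold LowRk at hz
    omega

end Vale.Agent.P060
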