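import Vale.Agent.P060.Basic

set_option linter.unusedSectionVars false

namespace Vale.Agent.P060

open Finset Polynomial Filter
open scoped BigOperators

section aux
variable {Ω L V : Type} [Fintype Ω] [Fintype L] [Fintype V]

theorem expect_dens_trim (hh : (Fin 2 → Ω) → ℝ) (p : Ω → L → V) (i : Fin 2) {ι : Type} [Fintype ι]
    [DecidableEq ι] (x : Ω) (τ : ι → L) (f : (ι → V) → ℝ) :
    𝔼 y, hh (pr i x y) * f (fun a => p y (τ a)) = 𝔼 w, dens hh p i x τ w * f w := by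
  rw [expect_fiber (fun y a => p y (τ a)) fun y w => hh (pr i x y) * f w]
  refine expect_congr rfl fun w _ => ?_
  rw [dens, Fintype.card_fun, Nat.cast_pow, mul_assoc, expect_mul]
  congr 1
  refine expect_congr rfl fun y _ => ?_
  rw [ind_congr funext_iff]
  ring

theorem indep_expect_trim {p : Ω → L → V} {k : ℕ} (hp : Indep p k) {ι : Type} [Fintype ι]
    [DecidableEq ι] (τ : ι → L) (hτ : Function.Injective τ) (hι : Fintype.card ι ≤ k)
    (f : (ι → V) → ℝ) : 𝔼 x, f (fun a => p x (τ a)) = 𝔼 w, f w := by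
  rw [expect_fiber (fun x a => p x (τ a)) fun _ w => f w]
  refine expect_congr rfl fun w _ => ?_
  have h0 : (0 : ℝ) < Fintype.card (ι → V) := by exact_mod_cast Fintype.card_pos_iff.2 ⟨w⟩
  have h1 : 𝔼 x, ind ((fun a => p x (τ a)) = w) = 1 / (Fintype.card (ι → V) : ℝ) := by
    rw [Fintype.card_fun, Nat.cast_pow, ← hp ι τ hτ hι w]
    exact expect_congr rfl fun x _ => ind_congr funext_iff
  rw [← expect_mul, h1]
  field_simp

theorem not_inj_trim {ι : Type} [Fintype ι] [DecidableEq ι] [Nonempty L] :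
    𝔼 τ : ι → L, ind (¬ Function.Injective τ) ≤ (Fintype.card ι : ℝ) ^ 2 / Fintype.card L := by
  have h1 : ∀ τ : ι → L, ind (¬ Function.Injective τ) ≤
      ∑ z : ι × ι, ind (z.1 ≠ z.2 ∧ τ z.1 = τ z.2) := fun τ =>
    le_trans (ind_mono fun h => by
      obtain ⟨a, b, h1, h2⟩ := Function.not_injective_iff.1 h
      exact ⟨(a, b), h2, h1⟩) (ind_exists_le _)
  refine (expect_mono h1).trans ?_
  rw [expect_sum_comm]
  refine (sum_le_card_nsmul _ _ (1 / (Fintype.card L : ℝ)) fun z _ => ?_).trans (le_of_eq ?_)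
  · by_cases hz : z.1 = z.2
    · simp only [hz, ne_eq, not_true_eq_false, false_and, ind_false, Fintype.expect_const]
      positivity
    · rw [expect_update z.1]
      refine expect_le_const (by positivity) fun τ => ?_
      rw [← expect_ind_eq (τ z.2)]
      refine expect_mono fun b => ind_mono fun h => ?_
      simpa [Function.update_of_ne (Ne.symm hz)] using h.2
  · rw [card_univ, Fintype.card_prod, nsmul_eq_mul]
    push_cast
    ring

theorem avg_le_trim {s : ℕ} (hs : 0 < s) (g : Fin s → ℝ) {a b θ : ℝ} (hb : 0 ≤ b) (hθ : 0 ≤ θ)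
    (hg : ∀ r, g r ≤ a + b) :
    (∑ r, g r) / s ≤ a + b ∧
      (∑ r, g r) / s ≤ a + b * Real.exp (-(θ * a * s)) * ∏ r, Real.exp (θ * g r) := by
  have hs' : (0 : ℝ) < s := by exact_mod_cast hs
  have h1 : (∑ r, g r) / s ≤ a + b := by
    rw [div_le_iff₀ hs']
    have := sum_le_card_nsmul univ g (a + b) fun r _ => hg r
    rw [card_univ, Fintype.card_fin, nsmul_eq_mul] at this
    linarith
  refine ⟨h1, ?_⟩
  rw [← Real.exp_sum, mul_assoc, ← Real.exp_add, ← mul_sum]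
  by_cases h : (∑ r, g r) / s ≤ a
  · exact h.trans (le_add_of_nonneg_right (by positivity))
  · rw [not_le, lt_div_iff₀ hs'] at h
    have h2 : 1 ≤ Real.exp (-(θ * a * s) + θ * ∑ r, g r) := Real.one_le_exp (by nlinarith)
    nlinarith

/-- the main deviation estimate -/
theorem dev_trim [Nonempty L] {p : Ω → L → V} {k : ℕ} (hp : Indep p k) {ι : Type} [Fintype ι]
    [DecidableEq ι] {s : ℕ} (hs : 0 < s) (hsk : s * Fintype.card ι ≤ k) (ω : Ω → ℝ) {Λ : ℝ}
    (h0 : ∀ y, 0 ≤ ω y) (h1 : ∀ y, ω y ≤ Λ) (hΛ : 0 ≤ Λ) (g : (ι → L) → (ι → V) → ℝ)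
    {a b θ B : ℝ} (hb : 0 ≤ b) (hθ : 0 ≤ θ) (hB0 : 0 ≤ B) (hg : ∀ τ w, g τ w ≤ a + b)
    (hB : ∀ τ, 𝔼 w, Real.exp (θ * g τ w) ≤ B) :
    𝔼 y, ω y * 𝔼 τ : ι → L, g τ (fun c => p y (τ c)) ≤
      (𝔼 y, ω y) * (a + b * ((k : ℝ) ^ 2 / Fintype.card L))
        + Λ * (b * Real.exp (-(θ * a * s)) * B ^ s) := by
  have hs' : (0 : ℝ) < s := by exact_mod_cast hs
  have hcard : Fintype.card (Fin s × ι) ≤ k := by rwa [Fintype.card_prod, Fintype.card_fin]
  let c := b * Real.exp (-(θ * a * s))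
  have hc : 0 ≤ c := by positivity
  let P : Ω → (Fin s × ι → L) → ℝ := fun y T => ind (Function.Injective T) *
    ∏ r, Real.exp (θ * g (fun c => T (r, c)) fun c => p y (T (r, c)))
  have hP0 : ∀ y T, 0 ≤ P y T := fun y T =>
    mul_nonneg (ind_nonneg _) (prod_nonneg fun r _ => (Real.exp_pos _).le)
  have e1 : ∀ y, 𝔼 τ : ι → L, g τ (fun c => p y (τ c)) ≤
      (a + b * ((k : ℝ) ^ 2 / Fintype.card L)) + c * 𝔼 T, P y T := by
    intro y
    have f1 : ∀ r : Fin s, 𝔼 T : Fin s × ι → L, g (fun c => T (r, c)) (fun c => p y (T (r, c)))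
        = 𝔼 τ : ι → L, g τ (fun c => p y (τ c)) := fun r =>
      expect_comp_inj (fun c => (r, c)) (fun _ _ h => (Prod.ext_iff.1 h).2)
        fun τ => g τ fun c => p y (τ c)
    have f2 : 𝔼 τ : ι → L, g τ (fun c => p y (τ c)) = 𝔼 T : Fin s × ι → L,
        (∑ r, g (fun c => T (r, c)) (fun c => p y (T (r, c)))) / s := by
      rw [← expect_div, expect_sum_comm]
      simp only [f1, sum_const, card_univ, Fintype.card_fin, nsmul_eq_mul]
      field_simp
    have f3 : 𝔼 T : Fin s × ι → L, ind (¬ Function.Injective T) ≤ (k : ℝ) ^ 2 / Fintype.card L := by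
      refine not_inj_trim.trans ?_
      gcongr
    rw [f2]
    calc _ ≤ 𝔼 T : Fin s × ι → L, (a + b * ind (¬ Function.Injective T) + c * P y T) := by
          refine expect_mono fun T => ?_
          have := avg_le_trim hs (fun r => g (fun c => T (r, c)) fun c => p y (T (r, c))) hb hθ
            fun r => hg _ _
          by_cases hT : Function.Injective T
          · simp only [P, ind_pos hT, ind_neg (not_not.2 hT), mul_zero, add_zero, one_mul]
            exact this.2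
          · simp only [P, ind_pos hT, ind_neg hT, mul_zero, add_zero, mul_one, zero_mul]
            exact this.1
      _ ≤ _ := by
          rw [expect_add_distrib, expect_add_distrib, Fintype.expect_const, ← mul_expect,
            ← mul_expect]
          gcongr
  have e2 : 𝔼 y, 𝔼 T, P y T ≤ B ^ s := by
    rw [expect_comm]
    refine expect_le_const (by positivity) fun T => ?_
    by_cases hT : Function.Injective T
    · simp only [P, ind_pos hT, one_mul]
      rw [indep_expect_trim hp T hT hcard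
        fun W => ∏ r, Real.exp (θ * g (fun c => T (r, c)) fun c => W (r, c)),
        ← expect_equiv' (Equiv.curry (Fin s) ι V).symm]
      have := expect_pi_prod (α := fun _ : Fin s => ι → V)
        fun r w => Real.exp (θ * g (fun c => T (r, c)) w)
      refine le_trans (le_of_eq this) ?_
      exact (prod_le_prod (fun r _ => expect_nonneg' fun w => (Real.exp_pos _).le)
        fun r _ => hB _).trans_eq (by simp)
    · simp only [P, ind_neg hT, zero_mul, expect_const_zero]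
      positivity
  calc _ ≤ 𝔼 y, (ω y * (a + b * ((k : ℝ) ^ 2 / Fintype.card L)) + Λ * (c * 𝔼 T, P y T)) := by
        refine expect_mono fun y => (mul_le_mul_of_nonneg_left (e1 y) (h0 y)).trans ?_
        rw [mul_add]
        exact add_le_add le_rfl (mul_le_mul_of_nonneg_right (h1 y)
          (mul_nonneg hc (expect_nonneg' (hP0 y))))
    _ ≤ _ := by
        rw [expect_add_distrib, ← expect_mul, ← mul_expect, ← mul_expect]
        gcongr

end aux

/-- TB: after trimming, the pair density is at most `Λ₁` times the product of the law of one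
vertex and independent uniform points of the other vertex. -/
theorem trim_bound {Ω L V : Type} [Fintype Ω] [Fintype L] [Fintype V] {hh : (Fin 2 → Ω) → ℝ}
    {p : Ω → L → V} {n : ℕ} {Λ₁ δ : ℝ} (h0 : ∀ A, 0 ≤ hh A) (hT : Trim hh p n Λ₁ δ) (hΛ : 0 ≤ Λ₁)
    (i : Fin 2) (ι : Type) [Fintype ι] [DecidableEq ι] (hι : Fintype.card ι ≤ n)
    (f : Ω → (ι → L) → (ι → V) → ℝ) (hf0 : ∀ x τ w, 0 ≤ f x τ w) (hf1 : ∀ x τ w, f x τ w ≤ 1) :
    𝔼 A, hh A * 𝔼 τ : ι → L, f (A i) τ (fun a => p (A i.rev) (τ a)) ≤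
      δ + Λ₁ * 𝔼 x, 𝔼 τ, 𝔼 w, f x τ w := by
  refine le_trans ?_ (add_le_add (hT i ι hι) le_rfl)
  rw [expect_pr i, expect_pr i fun A => hh A * _, mul_expect, ← expect_add_distrib]
  refine expect_mono fun x => ?_
  simp only [pr_self, pr_rev, mul_expect]
  rw [expect_comm, expect_comm univ univ fun y τ => hh (pr i x y) * _, ← expect_add_distrib]
  refine expect_mono fun τ => ?_
  rw [expect_dens_trim hh p i x τ (f x τ),
    expect_dens_trim hh p i x τ fun w => ind (Λ₁ < dens hh p i x τ w), ← expect_add_distrib]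
  refine expect_mono fun w => ?_
  have hd : 0 ≤ dens hh p i x τ w :=
    mul_nonneg (by positivity) (expect_nonneg' fun y => mul_nonneg (h0 _) (ind_nonneg _))
  have := hf0 x τ w
  have := hf1 x τ w
  by_cases h : Λ₁ < dens hh p i x τ w
  · rw [ind_pos h]
    nlinarith
  · rw [ind_neg h]
    nlinarith

section parts
variable {Ω L V : Type} [Fintype Ω] [Fintype L] [Fintype V]

theorem trim_part [Nonempty L] {p : Ω → L → V} {k n s : ℕ} (hp : Indep p k) (hs : 0 < s)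
    (hsk : s * n ≤ k) {hh : (Fin 2 → Ω) → ℝ} {Λ M ε θ : ℝ} (hd : Dens hh Λ M) (hM : 0 < M)
    (hε : 0 ≤ ε) (hθ : 0 ≤ θ) (hβ : (k : ℝ) ^ 2 / Fintype.card L ≤ ε)
    (ht : Λ * (Real.exp (-(θ * ε * s)) * 2 ^ s) ≤ ε) : Trim hh p n (Real.exp θ * M) (3 * ε) := by
  intro i ι _ _ hι
  have hΩ := hd.nonempty
  have hV : Nonempty V := ⟨p (Classical.arbitrary Ω) (Classical.arbitrary L)⟩
  have hΛ : 0 ≤ Λ := (hd.nonneg fun _ => Classical.arbitrary Ω).trans (hd.le _)
  rw [expect_pr i]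
  simp only [pr_self, pr_rev]
  have h1 : ∀ x, 𝔼 y, hh (pr i x y) * 𝔼 τ : ι → L, ind (Real.exp θ * M <
      dens hh p i x τ fun a => p y (τ a)) ≤ (𝔼 y, hh (pr i x y)) * (2 * ε) + ε := by
    intro x
    refine (dev_trim hp hs ((Nat.mul_le_mul_left s hι).trans hsk) (fun y => hh (pr i x y))
      (fun y => hd.nonneg _) (fun y => hd.le _) hΛ
      (fun τ w => ind (Real.exp θ * M < dens hh p i x τ w)) (a := ε) (b := 1) (B := 2) zero_le_one hθ
      (by norm_num) (fun τ w => (ind_le_one _).trans (by linarith)) fun τ => ?_).trans ?_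
    · have e1 := expect_dens_trim hh p i x τ fun _ => 1
      simp only [mul_one] at e1
      have e2 : 𝔼 w, dens hh p i x τ w / M ≤ 1 := by
        rw [← expect_div, ← e1, div_le_one hM]
        exact hd.marg i x
      calc _ ≤ 𝔼 w, (1 + dens hh p i x τ w / M) := by
            refine expect_mono fun w => ?_
            have hd0 : 0 ≤ dens hh p i x τ w :=
              mul_nonneg (by positivity)
                (expect_nonneg' fun y => mul_nonneg (hd.nonneg _) (ind_nonneg _))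
            by_cases h : Real.exp θ * M < dens hh p i x τ w
            · rw [ind_pos h, mul_one]
              have := (lt_div_iff₀ hM).2 h
              linarith
            · rw [ind_neg h, mul_zero, Real.exp_zero]
              exact le_add_of_nonneg_right (by positivity)
        _ ≤ 2 := by
            rw [expect_add_distrib, Fintype.expect_const]
            linarith
    · rw [one_mul, one_mul]
      exact add_le_add (mul_le_mul_of_nonneg_left (by linarith)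
        (expect_nonneg' fun y => hd.nonneg _)) ht
  refine (expect_mono h1).trans (le_of_eq ?_)
  rw [expect_add_distrib, ← expect_mul, ← expect_pr i, hd.total, Fintype.expect_const]
  ring

theorem dev_centered [Nonempty L] [Nonempty V] {p : Ω → L → V} {k : ℕ} (hp : Indep p k) {ι : Type}
    [Fintype ι] [DecidableEq ι] {s : ℕ} (hs : 0 < s) (hsk : s * Fintype.card ι ≤ k) (ω : Ω → ℝ)
    {Λ ε : ℝ} (h0 : ∀ y, 0 ≤ ω y) (h1 : ∀ y, ω y ≤ Λ) (hΛ : 0 ≤ Λ) (hε : 0 ≤ ε) (hε1 : ε ≤ 1)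
    (hβ : (k : ℝ) ^ 2 / Fintype.card L ≤ ε) (Z : (ι → V) → ℝ) (hZ : ∀ w, |Z w| ≤ 1) :
    𝔼 y, ω y * 𝔼 τ : ι → L, (Z (fun c => p y (τ c)) - 𝔼 w, Z w) ≤
      (𝔼 y, ω y) * (3 * ε) + Λ * (2 * Real.exp (-(ε ^ 2 / 16 * s))) := by
  have hE : |𝔼 w, Z w| ≤ 1 := (abs_expect_le' Z).trans (expect_le_const zero_le_one hZ)
  have h2 : ∀ w, |Z w - 𝔼 w, Z w| ≤ 2 := fun w =>
    (abs_sub _ _).trans (by have := hZ w; linarith)
  refine (dev_trim hp hs hsk ω h0 h1 hΛ (fun _ w => Z w - 𝔼 w, Z w) (a := ε) (b := 2) (θ := ε / 8)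
    (B := Real.exp (ε ^ 2 / 16)) (by norm_num) (by positivity) (Real.exp_pos _).le
    (fun _ w => (le_abs_self _).trans ((h2 w).trans (by linarith))) fun _ => ?_).trans ?_
  · calc _ ≤ 𝔼 w, (1 + ε ^ 2 / 16 + ε / 8 * (Z w - 𝔼 w, Z w)) := by
          refine expect_mono fun w => ?_
          have e0 : |ε / 8 * (Z w - 𝔼 w, Z w)| ≤ ε / 4 := by
            rw [abs_mul, abs_of_nonneg (by positivity)]
            have := h2 w
            nlinarith
          have e1 := (abs_le.1 (Real.abs_exp_sub_one_sub_id_le (e0.trans (by linarith)))).2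
          have e2 : (ε / 8 * (Z w - 𝔼 w, Z w)) ^ 2 ≤ (ε / 4) ^ 2 := by
            rw [← sq_abs]
            exact pow_le_pow_left₀ (abs_nonneg _) e0 2
          linarith
      _ ≤ _ := by
          rw [expect_add_distrib, ← mul_expect, expect_sub_distrib, Fintype.expect_const,
            Fintype.expect_const, sub_self, mul_zero, add_zero, add_comm]
          exact Real.add_one_le_exp _
  · refine add_le_add (mul_le_mul_of_nonneg_left (by linarith) (expect_nonneg' h0)) (le_of_eq ?_)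
    rw [← Real.exp_nat_mul, mul_assoc 2, ← Real.exp_add]
    congr 3
    ring

theorem unif_upper [Nonempty L] {p : Ω → L → V} {k n s : ℕ} (hp : Indep p k) (hs : 0 < s)
    (hsk : s * n ≤ k) {hh : (Fin 2 → Ω) → ℝ} {Λ M Λ₁ ε : ℝ} (hd : Dens hh Λ M) (hM : 0 ≤ M)
    (hM1 : M ≤ Λ₁) (hε : 0 < ε) (hε1 : ε ≤ 1) (hβ : (k : ℝ) ^ 2 / Fintype.card L ≤ ε)
    (hT : Trim hh p n Λ₁ (3 * ε)) (ht : Λ₁ * (2 * Real.exp (-(ε ^ 2 / 16 * s))) ≤ ε * ε)
    {ι₀ ι₁ : Type} [Fintype ι₀] [DecidableEq ι₀] [Fintype ι₁] [DecidableEq ι₁]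
    (h₀ : Fintype.card ι₀ ≤ n) (h₁ : Fintype.card ι₁ ≤ n) (Z : (ι₀ → V) → (ι₁ → V) → ℝ)
    (hZ : ∀ w w', |Z w w'| ≤ 1) :
    𝔼 A, hh A * 𝔼 τ₁ : ι₁ → L, 𝔼 τ₀ : ι₀ → L,
      Z (fun c => p (A 0) (τ₀ c)) (fun c => p (A 1) (τ₁ c)) ≤ (𝔼 w', 𝔼 w, Z w w') + 16 * ε := by
  have hΩ := hd.nonempty
  have hV : Nonempty V := ⟨p (Classical.arbitrary Ω) (Classical.arbitrary L)⟩
  have hΛ₁ : 0 ≤ Λ₁ := hM.trans hM1
  have hx : 0 ≤ 2 * Real.exp (-(ε ^ 2 / 16 * s)) := by positivity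
  let ψ : Ω → (ι₁ → V) → ℝ := fun x w' =>
    𝔼 τ₀ : ι₀ → L, (Z (fun c => p x (τ₀ c)) w' - 𝔼 w, Z w w')
  have hZ1 : ∀ w', |𝔼 w, Z w w'| ≤ 1 := fun w' =>
    (abs_expect_le' _).trans (expect_le_const zero_le_one fun w => hZ w w')
  have hψ : ∀ x w', ψ x w' ≤ 4 * ε + 2 * ind (4 * ε < ψ x w') := by
    intro x w'
    by_cases h : 4 * ε < ψ x w'
    · rw [ind_pos h]
      refine (expect_le_const (by norm_num) (c := 2) fun τ₀ => ?_).trans (by linarith)
      have := (abs_le.1 (hZ (fun c => p x (τ₀ c)) w')).2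
      have := (abs_le.1 (hZ1 w')).1
      linarith
    · rw [ind_neg h]
      linarith
  have h2 : ∀ w', ε * 𝔼 x, ind (4 * ε < ψ x w') ≤ 2 * Real.exp (-(ε ^ 2 / 16 * s)) := by
    intro w'
    have e1 := dev_centered hp hs ((Nat.mul_le_mul_left s h₀).trans hsk)
      (fun x => ind (4 * ε < ψ x w')) (fun _ => ind_nonneg _) (fun _ => ind_le_one _) zero_le_one
      hε.le hε1 hβ (fun w => Z w w') fun w => hZ w w'
    have e2 : (𝔼 x, ind (4 * ε < ψ x w')) * (4 * ε) ≤ 𝔼 x, ind (4 * ε < ψ x w') * ψ x w' := by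
      rw [expect_mul]
      refine expect_mono fun x => ?_
      by_cases h : 4 * ε < ψ x w'
      · rw [ind_pos h]
        linarith
      · rw [ind_neg h]
        simp
    have e3 := e2.trans e1
    linarith
  have h3 := trim_bound hd.nonneg hT hΛ₁ 0 ι₁ h₁ (fun x _ w' => ind (4 * ε < ψ x w'))
    (fun _ _ _ => ind_nonneg _) fun _ _ _ => ind_le_one _
  have h4 : Λ₁ * 𝔼 x, 𝔼 _τ : ι₁ → L, 𝔼 w', ind (4 * ε < ψ x w') ≤ ε := by
    simp only [Fintype.expect_const]
    rw [expect_comm]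
    refine le_of_mul_le_mul_left ?_ hε
    rw [mul_left_comm, mul_expect]
    exact (mul_le_mul_of_nonneg_left (expect_le_const hx h2) hΛ₁).trans ht
  have h5 := dev_centered hp hs ((Nat.mul_le_mul_left s h₁).trans hsk)
    (fun y => 𝔼 x, hh (pr 1 y x)) (fun y => expect_nonneg' fun x => hd.nonneg _) (hd.marg 1) hM
    hε.le hε1 hβ (fun w' => 𝔼 w, Z w w') hZ1
  rw [← expect_pr 1, hd.total] at h5
  have h6 : M * (2 * Real.exp (-(ε ^ 2 / 16 * s))) ≤ ε :=
    ((mul_le_mul_of_nonneg_right hM1 hx).trans ht).trans (by nlinarith)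
  have h7 : 𝔼 A, hh A * 𝔼 τ₁ : ι₁ → L, ((𝔼 w, Z w fun c => p (A 1) (τ₁ c)) - 𝔼 w', 𝔼 w, Z w w')
      ≤ 4 * ε := by
    rw [expect_pr 1]
    simp only [pr_self, ← expect_mul]
    linarith
  calc _ ≤ 𝔼 A, (hh A * ((𝔼 w', 𝔼 w, Z w w') + 4 * ε)
        + 2 * (hh A * 𝔼 τ₁ : ι₁ → L, ind (4 * ε < ψ (A 0) fun c => p (A (0 : Fin 2).rev) (τ₁ c)))
        + hh A * 𝔼 τ₁ : ι₁ → L, ((𝔼 w, Z w fun c => p (A 1) (τ₁ c)) - 𝔼 w', 𝔼 w, Z w w')) := by
        refine expect_mono fun A => ?_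
        rw [mul_left_comm, ← mul_add, ← mul_add]
        refine mul_le_mul_of_nonneg_left ?_ (hd.nonneg A)
        rw [mul_expect, ← Fintype.expect_const (ι := ι₁ → L) ((𝔼 w', 𝔼 w, Z w w') + 4 * ε),
          ← expect_add_distrib, ← expect_add_distrib]
        refine expect_mono fun τ₁ => ?_
        have e1 := hψ (A 0) fun c => p (A 1) (τ₁ c)
        have e2 : ψ (A 0) (fun c => p (A 1) (τ₁ c)) = (𝔼 τ₀ : ι₀ → L,
            Z (fun c => p (A 0) (τ₀ c)) fun c => p (A 1) (τ₁ c))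
              - 𝔼 w, Z w fun c => p (A 1) (τ₁ c) := by
          simp only [ψ]
          rw [expect_sub_distrib, Fintype.expect_const]
        have e3 : (0 : Fin 2).rev = 1 := rfl
        rw [e3]
        linarith
    _ ≤ _ := by
        rw [expect_add_distrib, expect_add_distrib, ← expect_mul, hd.total, ← mul_expect]
        linarith

theorem unif_part [Nonempty L] {p : Ω → L → V} {k n s : ℕ} (hp : Indep p k) (hs : 0 < s)
    (hsk : s * n ≤ k) {hh : (Fin 2 → Ω) → ℝ} {Λ M Λ₁ ε : ℝ} (hd : Dens hh Λ M) (hM : 0 ≤ M)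
    (hM1 : M ≤ Λ₁) (hε : 0 < ε) (hε1 : ε ≤ 1) (hβ : (k : ℝ) ^ 2 / Fintype.card L ≤ ε)
    (hT : Trim hh p n Λ₁ (3 * ε)) (ht : Λ₁ * (2 * Real.exp (-(ε ^ 2 / 16 * s))) ≤ ε * ε) :
    Unif hh (fun _ _ _ => 1) (fun A i => p (A i)) n (16 * ε) := by
  intro ι _ _ sd hι
  have key : ∀ Z : (ι → V) → ℝ, (∀ v, |Z v| ≤ 1) →
      (𝔼 A, hh A * 𝔼 τ : ι → L, Z fun a => p (A (sd a)) (τ a)) ≤ (𝔼 v, Z v) + 16 * ε := by
    intro Z hZ
    let eL := (Equiv.piEquivPiSubtypeProd (fun a => sd a = 0) fun _ => L).symm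
    let eV := (Equiv.piEquivPiSubtypeProd (fun a => sd a = 0) fun _ => V).symm
    have h := unif_upper hp hs hsk hd hM hM1 hε hε1 hβ hT ht
      ((Fintype.card_subtype_le fun a => sd a = 0).trans hι)
      ((Fintype.card_subtype_le fun a => ¬ sd a = 0).trans hι) (fun w w' => Z (eV (w, w')))
      fun _ _ => hZ _
    rw [expect_comm univ univ fun w' w => Z (eV (w, w')), ← expect_prod fun z => Z (eV z),
      expect_equiv' eV Z] at h
    refine le_trans (le_of_eq (expect_congr rfl fun A _ => ?_)) h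
    rw [← expect_equiv' eL, expect_prod, expect_comm]
    congr 1
    refine expect_congr rfl fun τ₁ _ => expect_congr rfl fun τ₀ _ => ?_
    congr 1
    funext a
    by_cases ha : sd a = 0
    · simp [eL, eV, ha]
    · have : sd a = 1 := by omega
      simp [eL, eV, this]
  intro Z hZ
  simp only [prod_const_one, one_mul]
  have h1 := key Z hZ
  have h2 := key (fun v => - Z v) fun v => by rw [abs_neg]; exact hZ v
  simp only [expect_neg_distrib, mul_neg] at h2
  exact abs_le.2 ⟨by linarith, by linarith⟩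

end parts

theorem ev_lin_trim (a b c : ℝ) (hc : 0 < c) : ∀ᶠ κ : ℕ in atTop, a * κ + b ≤ c * (κ : ℝ) ^ 2 := by
  obtain ⟨N, hN⟩ := exists_nat_ge ((|a| + |b|) / c)
  filter_upwards [eventually_ge_atTop (N + 1)] with κ hκ
  have h1 : (N : ℝ) + 1 ≤ κ := by exact_mod_cast hκ
  have h0 : (0 : ℝ) ≤ N := Nat.cast_nonneg N
  rw [div_le_iff₀ hc] at hN
  have h2 : |a| + |b| ≤ c * κ := by nlinarith
  have h3 := mul_le_mul_of_nonneg_right h2 (by linarith : (0 : ℝ) ≤ κ)
  have h4 := mul_le_mul_of_nonneg_right (le_abs_self a) (by linarith : (0 : ℝ) ≤ κ)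
  have h5 := mul_le_mul_of_nonneg_left (by linarith : (1 : ℝ) ≤ κ) (abs_nonneg b)
  have h6 := le_abs_self b
  nlinarith

theorem ev_beta_trim (ε : ℝ) (hε : 0 < ε) :
    ∀ᶠ κ : ℕ in atTop, ((κ ^ 2 + 1 : ℕ) : ℝ) ^ 2 / (4 : ℝ) ^ κ ≤ ε := by
  have h := tendsto_pow_const_div_const_pow_of_one_lt 4 (by norm_num : (1 : ℝ) < 4)
  filter_upwards [h.eventually (ge_mem_nhds (by positivity : 0 < ε / 4)), eventually_ge_atTop 1]
    with κ h1 h2
  have h3 : (1 : ℝ) ≤ κ := by exact_mod_cast h2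
  have h4 : (1 : ℝ) ≤ (κ : ℝ) ^ 2 := one_le_pow₀ h3
  rw [div_le_iff₀ (by positivity)] at h1 ⊢
  push_cast
  nlinarith

/-- J3 -/
theorem trim_unif (D n : ℕ) (δ : ℝ) (hδ : 0 < δ) : ∃ C : ℕ, ∀ᶠ κ : ℕ in atTop,
    ∀ (Ω L V : Type) [Fintype Ω] [Fintype L] [Fintype V] (p : Ω → L → V)
      (hh : (Fin 2 → Ω) → ℝ), Fintype.card L = 4 ^ κ → Indep p (κ ^ 2 + 1) →
      Dens hh (((4 : ℝ) ^ κ) ^ (D * (4 * κ ^ 2))) (4 ^ κ) →
      Trim hh p n (((4 : ℝ) ^ κ) ^ C) δ ∧ Unif hh (fun _ _ _ => 1) (fun A i => p (A i)) n δ := by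
  obtain ⟨ε, hε, hε1, hεδ⟩ : ∃ ε : ℝ, 0 < ε ∧ ε ≤ 1 ∧ 16 * ε ≤ δ :=
    ⟨min (δ / 16) 1, by positivity, min_le_right _ _, by have := min_le_left (δ / 16) 1; linarith⟩
  obtain ⟨C, hC⟩ := exists_nat_ge ((4 * D + 2) * (2 * (n + 1)) / ε)
  rw [div_le_iff₀ hε] at hC
  refine ⟨C + 1, ?_⟩
  have hl : 1 ≤ Real.log 4 := by
    have := Real.log_two_gt_d9
    rw [Real.log_four_eq]
    linarith
  filter_upwards [ev_beta_trim ε hε, eventually_ge_atTop (n + 1),
    ev_lin_trim ((C + 1) * Real.log 4) (Real.log (2 / (ε * ε))) (ε ^ 2 / 16 / (2 * (n + 1)))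
      (by positivity)] with κ hβ hκ h3
  intro Ω L V _ _ _ p hh hL hp hd
  have hLne : Nonempty L := Fintype.card_pos_iff.1 (by rw [hL]; positivity)
  obtain ⟨s, hs⟩ : ∃ s, s = κ ^ 2 / (n + 1) := ⟨_, rfl⟩
  have hκ2 : n + 1 ≤ κ ^ 2 := hκ.trans (Nat.le_self_pow (by norm_num) κ)
  have hs0 : 0 < s := hs ▸ Nat.div_pos hκ2 (by omega)
  have hs1 : s * (n + 1) ≤ κ ^ 2 := hs ▸ Nat.div_mul_le_self _ _
  have hs2 : κ ^ 2 ≤ 2 * (n + 1) * s := by
    have := Nat.lt_mul_div_succ (κ ^ 2) (by omega : 0 < n + 1)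
    rw [← hs] at this
    nlinarith
  have hsk : s * n ≤ κ ^ 2 + 1 := by nlinarith
  have hs1' : (s : ℝ) ≤ (κ : ℝ) ^ 2 := by exact_mod_cast (by nlinarith : s ≤ κ ^ 2)
  have hs2' : (κ : ℝ) ^ 2 ≤ 2 * (n + 1) * s := by exact_mod_cast hs2
  have hκ1 : (1 : ℝ) ≤ κ := by exact_mod_cast (by omega : 1 ≤ κ)
  have hβ' : ((κ ^ 2 + 1 : ℕ) : ℝ) ^ 2 / Fintype.card L ≤ ε := by
    rw [hL]
    push_cast at hβ ⊢
    exact hβ
  obtain ⟨l, hl'⟩ : ∃ l : ℝ, l = κ * Real.log 4 := ⟨_, rfl⟩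
  have hl1 : 1 ≤ l := by nlinarith
  have hq : (4 : ℝ) ^ κ = Real.exp l := by
    rw [hl', Real.exp_nat_mul, Real.exp_log (by norm_num)]
  have hq2 : Real.exp (C * l) * 4 ^ κ = (4 ^ κ) ^ (C + 1) := by
    rw [Real.exp_nat_mul, ← hq, pow_succ]
  have hT := trim_part hp hs0 hsk hd (by positivity) hε.le (θ := C * l) (by positivity) hβ' (by
    have e1 : (2 : ℝ) ^ s ≤ Real.exp (l * s) := by
      rw [mul_comm, Real.exp_nat_mul]
      exact pow_le_pow_left₀ (by norm_num) (by have := Real.add_one_le_exp l; linarith) s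
    have e2 : (4 * D + 2) * (κ : ℝ) ^ 2 ≤ C * ε * s := by
      have := mul_le_mul_of_nonneg_right hC (Nat.cast_nonneg (α := ℝ) s)
      have := mul_le_mul_of_nonneg_left hs2' (by positivity : (0 : ℝ) ≤ 4 * D + 2)
      linarith
    have e3 : 1 / (4 : ℝ) ^ κ ≤ ε := by
      refine le_trans ?_ hβ
      gcongr
      exact one_le_pow₀ (by exact_mod_cast Nat.le_add_left _ _)
    calc _ ≤ Real.exp l ^ (D * (4 * κ ^ 2)) * (Real.exp (-(C * l * ε * s)) * Real.exp (l * s)) := by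
          rw [hq]
          gcongr
      _ = Real.exp (l * (4 * D * (κ : ℝ) ^ 2 + s - C * ε * s)) := by
          rw [← Real.exp_nat_mul, ← Real.exp_add, ← Real.exp_add]
          congr 1
          push_cast
          ring
      _ ≤ Real.exp (-l) := by
          apply Real.exp_le_exp.2
          have : 4 * D * (κ : ℝ) ^ 2 + s - C * ε * s ≤ -1 := by nlinarith
          nlinarith
      _ ≤ ε := by rwa [Real.exp_neg, ← hq, ← one_div])
  rw [hq2] at hT
  refine ⟨fun i ι _ _ hι => (hT i ι hι).trans (by linarith), fun ι _ _ sd hι Z hZ =>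
    (unif_part hp hs0 hsk hd (by positivity) (le_self_pow₀ (one_le_pow₀ (by norm_num)) (by omega))
      hε hε1 hβ' hT ?_ ι sd hι Z hZ).trans hεδ⟩
  have e1 : ε ^ 2 / 16 / (2 * (n + 1)) * (κ : ℝ) ^ 2 ≤ ε ^ 2 / 16 * s := by
    rw [div_mul_eq_mul_div, div_le_iff₀ (by positivity), mul_assoc]
    exact mul_le_mul_of_nonneg_left (by linarith) (by positivity)
  have e2 : Real.exp (((C + 1 : ℕ) : ℝ) * l + -(ε ^ 2 / 16 * s)) ≤ Real.exp (-Real.log (2 / (ε * ε))) := by
    apply Real.exp_le_exp.2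
    push_cast
    rw [hl']
    linarith
  rw [Real.exp_add, Real.exp_nat_mul, ← hq, Real.exp_neg (Real.log _),
    Real.exp_log (by positivity), inv_div, le_div_iff₀ (by norm_num)] at e2
  linarith

end Vale.Agent.P060
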