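import Vale.Agent.P060.Spec
import Vale.Agent.P060.LemV
import Vale.Agent.P060.Trim

namespace Vale.Agent.P060

open Finset Polynomial Filter
open scoped BigOperators

theorem pow_div_le_good {q : ℝ} (hq : 1 ≤ q) {a b c : ℕ} (h : a + b + 1 ≤ c) :
    q ^ a * (q ^ b / q ^ c) ≤ 1 / q := by
  rw [← mul_div_assoc, ← pow_add, div_le_div_iff₀ (by positivity) (by positivity), one_mul,
    ← pow_succ]
  exact pow_le_pow_right₀ hq h

theorem good_mass (D : ℕ) : ∃ R : ℕ, ∀ (h r : ℕ) (γ : ℝ), 0 < γ → ∀ᶠ κ : ℕ in atTop,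
    ∀ (F : Type) [Field F] [Fintype F] [Algebra K F], Fintype.card F = 4 ^ κ →
    ∀ hh : (Fin 2 → Vtx F (κ ^ 2) (4 * κ ^ 2) h) → ℝ,
      Dens hh (((4 : ℝ) ^ κ) ^ (D * (4 * κ ^ 2))) (4 ^ κ) →
      𝔼 A, hh A * ind (¬ GoodPair R r γ A) ≤ 1 / 2 := by
  refine ⟨4 * D, fun h r γ hγ => ?_⟩
  filter_upwards [notBad_prob h r 2 γ hγ, eventually_ge_atTop 2] with κ hb hκ F _ _ _ hq hh hd
  have hq1 : (16 : ℝ) ≤ 4 ^ κ := by
    calc (16 : ℝ) = 4 ^ 2 := by norm_num
      _ ≤ 4 ^ κ := pow_le_pow_right₀ (by norm_num) hκ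
  have hq' : (Fintype.card F : ℝ) = 4 ^ κ := by rw [hq]; push_cast; rfl
  have he : 4 ≤ κ ^ 2 := by nlinarith
  have key : ∀ A : Fin 2 → Vtx F (κ ^ 2) (4 * κ ^ 2) h, hh A * ind (¬ GoodPair (4 * D) r γ A) ≤
      ∑ i, (hh A * ind (¬ Surj (A i).c) + hh A * ind (Surj (A i).c ∧ ¬ NotBad r γ (A i) fun _ => 1) +
        hh A * ind (¬ PairGood (4 * D) (A i).c (A i.rev).c)) := by
    intro A
    simp only [← mul_add, ← mul_sum]
    refine mul_le_mul_of_nonneg_left ?_ (hd.nonneg A)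
    refine le_trans (ind_mono (Q := ∃ i, (¬ Surj (A i).c ∨ (Surj (A i).c ∧
      ¬ NotBad r γ (A i) fun _ => 1)) ∨ ¬ PairGood (4 * D) (A i).c (A i.rev).c) fun hA => ?_)
      ((ind_exists_le _).trans (sum_le_sum fun i _ => (ind_or_le _ _).trans
        (add_le_add (ind_or_le _ _) le_rfl)))
    simp only [GoodPair, GoodV, not_forall] at hA
    obtain ⟨i, hi⟩ := hA
    exact ⟨i, by tauto⟩
  have h1 : ∀ i, 𝔼 A, hh A * ind (¬ Surj (A i).c) ≤ 1 / 4 ^ κ := fun i => by
    refine (hd.expect_marg_le i (fun x => ind (¬ Surj x.c)) fun x => ind_nonneg _).trans ?_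
    rw [expect_prod]
    simp only [Vtx.c, Fintype.expect_const]
    refine (mul_le_mul_of_nonneg_left surj_prob (by positivity)).trans ?_
    rw [hq']
    simpa using pow_div_le_good (q := 4 ^ κ) (by linarith) (a := 1) (b := κ ^ 2 + 1)
      (c := 4 * κ ^ 2) (by omega)
  have h2 : ∀ i, 𝔼 A, hh A * ind (Surj (A i).c ∧ ¬ NotBad r γ (A i) fun _ => 1) ≤ 1 / 4 ^ κ := by
    intro i
    refine (hd.expect_marg_le i (fun x => ind (Surj x.c ∧ ¬ NotBad r γ x fun _ => 1))
      fun x => ind_nonneg _).trans ?_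
    rw [expect_prod]
    refine (mul_le_mul_of_nonneg_left (expect_le_const (c := 1 / (4 ^ κ) ^ 2) (by positivity)
      fun c => ?_) (by positivity)).trans (le_of_eq (by field_simp))
    by_cases hc : Surj c
    · exact (expect_mono fun ut => ind_mono fun h => h.2).trans (hb F hq c hc _ (by simp))
    · refine expect_le_const (by positivity) fun ut => ?_
      rw [ind_neg fun h => hc h.1]; positivity
  have h3 : ∀ i, 𝔼 A, hh A * ind (¬ PairGood (4 * D) (A i).c (A i.rev).c) ≤ 1 / 4 ^ κ := by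
    intro i
    refine (hd.expect_le (fun A => ind (¬ PairGood (4 * D) (A i).c (A i.rev).c))
      fun x => ind_nonneg _).trans ?_
    rw [expect_pr i, expect_comm]
    simp only [pr_self, pr_rev]
    refine (mul_le_mul_of_nonneg_left (expect_le_const (by positivity) fun y => ?_)
      (by positivity)).trans (pow_div_le_good (q := 4 ^ κ) (by linarith)
        (b := (4 * D + 1) * (2 * κ ^ 2 + 2)) (c := (4 * D + 1) * (4 * κ ^ 2)) (by
          nlinarith [Nat.mul_le_mul_left D he]))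
    rw [expect_prod]
    simp only [Vtx.c, Fintype.expect_const]
    rw [← hq']
    exact pairGood_prob _ _
  refine (expect_mono key).trans ?_
  rw [expect_sum_comm]
  refine (sum_le_card_nsmul _ _ (3 * (1 / 4 ^ κ)) fun i _ => ?_).trans ?_
  · rw [expect_add_distrib, expect_add_distrib]
    linarith [h1 i, h2 i, h3 i]
  · have : (1 : ℝ) / 4 ^ κ ≤ 1 / 16 := one_div_le_one_div_of_le (by norm_num) hq1
    simp only [card_univ, Fintype.card_fin, nsmul_eq_mul]
    push_cast
    linarith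

theorem badMass_ev (h r D N : ℕ) (γ δ : ℝ) (hγ : 0 < γ) (hδ : 0 < δ) : ∀ᶠ κ : ℕ in atTop,
    ∀ (F : Type) [Field F] [Fintype F] [Algebra K F], Fintype.card F = 4 ^ κ →
    ∀ hh : (Fin 2 → Vtx F (κ ^ 2) (4 * κ ^ 2) h) → ℝ,
      Dens hh (((4 : ℝ) ^ κ) ^ (D * (4 * κ ^ 2))) (4 ^ κ) →
      (∀ A, hh A ≠ 0 → ∀ i, Surj (A i).c) → BadMass hh r γ N δ := by
  obtain ⟨C, hC⟩ := trim_unif D N (δ / 2) (by positivity)
  filter_upwards [hC, notBad_prob h r (C + 1) γ hγ, (tendsto_pow_atTop_atTop_of_one_lt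
    (by norm_num : (1 : ℝ) < 4)).eventually_ge_atTop (2 / δ)] with κ hT hb hκ F _ _ _ hq hh hd hs
  intro ι _ _ sd hι i G hG
  have hT' := (hT _ F _ vp hh hq indep_vp hd).1
  have key := trim_bound hd.nonneg hT' (by positivity) i ι hι
    (fun x τ w => ind (Surj x.c ∧ ¬ NotBad r γ x
      (G x.c τ fun a => if sd a = i then pt x.c (τ a) else w a)))
    (fun _ _ _ => ind_nonneg _) fun _ _ _ => ind_le_one _
  refine le_trans (expect_mono fun A => ?_) (key.trans ?_)
  · by_cases hA : hh A = 0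
    · simp [hA]
    refine mul_le_mul_of_nonneg_left (expect_mono fun τ => ind_mono fun h' => ⟨hs A hA i, ?_⟩)
      (hd.nonneg A)
    convert h' using 3
    funext a
    split_ifs with ha
    · rw [ha]; rfl
    · rw [(by decide : ∀ i j : Fin 2, ¬ j = i → j = i.rev) i _ ha]
  · have h1 : 𝔼 x : Vtx F (κ ^ 2) (4 * κ ^ 2) h, 𝔼 τ : ι → F, 𝔼 w : ι → Fin (4 * κ ^ 2) → F,
        ind (Surj x.c ∧ ¬ NotBad r γ x
          (G x.c τ fun a => if sd a = i then pt x.c (τ a) else w a)) ≤ 1 / (4 ^ κ) ^ (C + 1) := by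
      rw [expect_prod]
      refine expect_le_const (by positivity) fun c => ?_
      rw [expect_comm]
      refine expect_le_const (by positivity) fun τ => ?_
      rw [expect_comm]
      refine expect_le_const (by positivity) fun w => ?_
      by_cases hc : Surj c
      · exact (expect_mono fun ut => ind_mono fun h => h.2).trans 
          (hb F hq c hc _ (hG c τ fun a => if sd a = i then pt c (τ a) else w a))
      · refine expect_le_const (by positivity) fun ut => ?_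
        rw [ind_neg fun h => hc h.1]; positivity
    have h2 : ((4 : ℝ) ^ κ) ^ C * (1 / (4 ^ κ) ^ (C + 1)) ≤ δ / 2 := by
      rw [show ((4 : ℝ) ^ κ) ^ C * (1 / (4 ^ κ) ^ (C + 1)) = 1 / 4 ^ κ by field_simp; ring,
        div_le_div_iff₀ (by positivity) (by positivity)]
      rw [div_le_iff₀ hδ] at hκ
      linarith
    have h3 := mul_le_mul_of_nonneg_left h1 (show (0 : ℝ) ≤ (4 ^ κ) ^ C by positivity)
    linarith

end Vale.Agent.P060
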