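import Vale.Agent.P060.LatentAux

namespace Vale.Agent.P060

open Finset Polynomial Filter
open scoped BigOperators

namespace Lat

theorem tournament {V X : Type} [Fintype V] [Fintype X] (hX : Fintype.card X = 4)
    (G G' : V → X → ℝ) (hG0 : ∀ u x, 0 ≤ G u x) (hG1 : ∀ u x, G u x ≤ 1) (hG' : ∀ u y, 0 ≤ G' u y)
    (hs : ∀ u, ∑ y, G' u y = 1) (P : X → Prop) (hP : ∀ u y, G' u y ≠ 0 → P y)
    (R : X → X → V → V → Prop) (hR : ∀ x y u u', P x → P y → R x y u u' ∨ R x y u' u) :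
    (𝔼 u, ∑ x, G u x * ind (P x)) ^ 2 / 512 ≤
      𝔼 u', ∑ y, G' u' y * 𝔼 u, ∑ x, G u x * ind (R x y u u') := by
  let ψ : X × X → V → ℝ := fun z u => ind (P z.1 ∧ P z.2) * min (G u z.1) (G' u z.2)
  have hψ0 : ∀ z u, 0 ≤ ψ z u := fun z u => mul_nonneg (ind_nonneg _) (le_min (hG0 _ _) (hG' _ _))
  have hψ1 : ∀ z u, ψ z u ≤ min (G u z.1) (G' u z.2) := fun z u =>
    mul_le_of_le_one_left (le_min (hG0 _ _) (hG' _ _)) (ind_le_one _)
  have h1 : ∀ z : X × X, (𝔼 u, ψ z u) ^ 2 / 2 ≤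
      𝔼 u', 𝔼 u, G' u' z.2 * (G u z.1 * ind (R z.1 z.2 u u')) := by
    intro z
    have e1 : 𝔼 u', 𝔼 u, ψ z u' * (ψ z u * ind (R z.1 z.2 u u')) ≤
        𝔼 u', 𝔼 u, G' u' z.2 * (G u z.1 * ind (R z.1 z.2 u u')) :=
      expect_mono fun u' => expect_mono fun u =>
        mul_le_mul ((hψ1 z u').trans (min_le_right _ _))
          (mul_le_mul_of_nonneg_right ((hψ1 z u).trans (min_le_left _ _)) (ind_nonneg _))
          (mul_nonneg (hψ0 _ _) (ind_nonneg _)) (hG' _ _)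
    have e2 : 𝔼 u', 𝔼 u, ψ z u' * (ψ z u * ind (R z.1 z.2 u' u)) =
        𝔼 u', 𝔼 u, ψ z u' * (ψ z u * ind (R z.1 z.2 u u')) := by
      rw [expect_comm]
      exact expect_congr rfl fun u _ => expect_congr rfl fun u' _ => by ring
    have e3 : (𝔼 u, ψ z u) ^ 2 ≤ (𝔼 u', 𝔼 u, ψ z u' * (ψ z u * ind (R z.1 z.2 u u'))) +
        𝔼 u', 𝔼 u, ψ z u' * (ψ z u * ind (R z.1 z.2 u' u)) := by
      rw [sq, expect_mul, ← expect_add_distrib]
      refine expect_mono fun u' => ?_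
      rw [mul_expect, ← expect_add_distrib]
      refine expect_mono fun u => ?_
      rw [← mul_add, ← mul_add]
      refine mul_le_mul_of_nonneg_left ?_ (hψ0 _ _)
      by_cases hz : P z.1 ∧ P z.2
      · refine le_mul_of_one_le_right (hψ0 _ _) (le_trans ?_ (ind_or_le _ _))
        rw [ind_pos (hR _ _ u u' hz.1 hz.2)]
      · simp [ψ, ind_neg hz]
    linarith
  have h2 : (𝔼 u, ∑ x, G u x * ind (P x)) / 4 ≤ ∑ z, 𝔼 u, ψ z u := by
    rw [← expect_sum_comm, expect_div]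
    refine expect_mono fun u => ?_
    obtain ⟨y, -, hy⟩ : ∃ y ∈ (univ : Finset X), 1 / 4 ≤ G' u y := by
      refine exists_le_of_sum_le (univ_nonempty_iff.2 (Fintype.card_pos_iff.1 (by omega))) ?_
      rw [hs, sum_const, card_univ, hX]
      norm_num
    have hPy : P y := hP u y (by linarith)
    rw [Fintype.sum_prod_type, sum_div]
    refine sum_le_sum fun x _ => le_trans ?_
      (single_le_sum (f := fun y => ψ (x, y) u) (fun y _ => hψ0 _ _) (mem_univ y))
    by_cases hx : P x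
    · simp only [ψ, ind_pos hx, ind_pos (And.intro hx hPy), mul_one, one_mul]
      have := hG0 u x
      have := hG1 u x
      exact le_min (by linarith) (by linarith)
    · rw [ind_neg hx]
      simpa using hψ0 (x, y) u
  have h3 := sq_sum_le_card_mul_sum_sq (s := (univ : Finset (X × X))) (f := fun z => 𝔼 u, ψ z u)
  rw [card_univ, Fintype.card_prod, hX] at h3
  have h4 := sum_le_sum fun z (_ : z ∈ univ) => h1 z
  rw [← sum_div] at h4
  have h5 : ((𝔼 u, ∑ x, G u x * ind (P x)) / 4) ^ 2 ≤ (∑ z, 𝔼 u, ψ z u) ^ 2 :=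
    pow_le_pow_left₀ (div_nonneg (expect_nonneg' fun u => sum_nonneg fun x _ =>
      mul_nonneg (hG0 _ _) (ind_nonneg _)) (by norm_num)) h2 2
  have h6 : ∑ z : X × X, 𝔼 u', 𝔼 u, G' u' z.2 * (G u z.1 * ind (R z.1 z.2 u u')) =
      𝔼 u', ∑ y, G' u' y * 𝔼 u, ∑ x, G u x * ind (R x y u u') := by
    rw [← expect_sum_comm]
    refine expect_congr rfl fun u' _ => ?_
    rw [Fintype.sum_prod_type_right]
    refine sum_congr rfl fun y _ => ?_
    simp only [← mul_expect, ← mul_sum, expect_sum_comm]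
  push_cast at h3
  rw [← h6]
  nlinarith

/-- a family indexed by the four slots -/
def quad {α : Type} (a₀ a₁ b₀ b₁ : α) : Slot → α := fun s => ![![a₀, a₁], ![b₀, b₁]] s.1 s.2

theorem comp_quad {α β : Type} (f : α → β) (a₀ a₁ b₀ b₁ : α) :
    (fun s => f (quad a₀ a₁ b₀ b₁ s)) = quad (f a₀) (f a₁) (f b₀) (f b₁) := by
  funext ⟨i, j⟩
  fin_cases i <;> fin_cases j <;> rfl

theorem quad_swap {α : Type} (a₀ a₁ b₀ b₁ : α) :
    quad a₀ a₁ b₀ b₁ ∘ Prod.swap = quad a₀ b₀ a₁ b₁ := by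
  funext ⟨i, j⟩
  fin_cases i <;> fin_cases j <;> rfl

theorem quad_fst : quad (0 : Fin 2) 0 1 1 = Prod.fst := by
  funext ⟨i, j⟩
  fin_cases i <;> fin_cases j <;> rfl

variable {𝒜 V : Type} [Fintype 𝒜] [Fintype V] (M : Mod 𝒜 (V × K × K))
variable {ι : Type} [Fintype ι] [DecidableEq ι]

/-- the base samples have the prescribed values -/
def Good (S : Finset K) (e : K ⊕ K → ι) (s : ι → V × K × K) : Prop :=
  ∀ z, z.elim id id ∈ S → eta (s (e z)).2 = z.elim id id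

theorem good_prob (S : Finset K) (hS : S.Nonempty)
    (h8 : ∀ A, M.w A ≠ 0 → ∀ i, ∀ b ∈ S, (1 : ℝ) / 8 ≤ ∑ o, M.ν A i o * ind (eta o.2 = b))
    (sd : ι → Fin 2) (e : K ⊕ K → ι) (he : Function.Injective e) :
    1 / 2 ^ 15 ≤ ∑ s, ∑ u, Mg M sd 0 s u * (ind (Good S e s) *
      ∑ x, Gc M sd 0 s u x * ind (eta x ∈ S)) := by
  let Q : Option (K ⊕ K) → V × K × K → Prop :=
    ext (fun y => eta y.2 ∈ S) fun z y => z.elim id id ∈ S → eta y.2 = z.elim id id
  have h := M.sum_N_comp (ext 0 sd) (Option.map e) (Option.map_injective he)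
    fun o => ∏ z, ind (Q z (o z))
  have h1 : ∑ s, ∑ u, Mg M sd 0 s u * (ind (Good S e s) * ∑ x, Gc M sd 0 s u x * ind (eta x ∈ S))
      = ∑ s, M.N (ext 0 sd) s * ∏ z, ind (Q z ((s ∘ Option.map e) z)) := by
    rw [sum_ext]
    refine sum_congr rfl fun s _ => ?_
    rw [Fintype.sum_prod_type]
    refine sum_congr rfl fun u _ => ?_
    rw [mul_left_comm, mul_sum, mul_sum]
    refine sum_congr rfl fun x _ => ?_
    rw [← Mg_mul_Gc, Fintype.prod_option, ← ind_forall]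
    have : (∀ z, Q (some z) ((ext (u, x) s ∘ Option.map e) (some z))) = Good S e s := rfl
    rw [this]
    have : Q none ((ext (u, x) s ∘ Option.map e) none) = (eta x ∈ S) := rfl
    rw [this]
    ring
  rw [h1, h, M.sum_N_mul]
  refine le_trans (le_of_eq ?_) (M.mono_w (f := fun _ => 1 / 2 ^ 15) fun A hA => ?_)
  · rw [← expect_mul, M.w1, one_mul]
  · simp only [Mod.rho, ← prod_mul_distrib]
    rw [sum_pi_prod fun z y => M.ν A ((ext 0 sd ∘ Option.map e) z) y * ind (Q z y)]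
    refine le_trans (le_of_eq ?_) (prod_le_prod (f := fun _ => (1 : ℝ) / 8)
      (fun _ _ => by norm_num) fun z _ => ?_)
    · rw [prod_const, card_univ, Fintype.card_option, Fintype.card_sum, ZMod.card]
      norm_num
    · have key : ∀ b ∈ S, (∀ y : V × K × K, eta y.2 = b → Q z y) →
          1 / 8 ≤ ∑ y, M.ν A ((ext 0 sd ∘ Option.map e) z) y * ind (Q z y) := fun b hb hy =>
        (h8 A hA _ b hb).trans (sum_le_sum fun y _ =>
          mul_le_mul_of_nonneg_left (ind_mono (hy y)) (M.ν0 _ _ _))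
      obtain ⟨b, hb⟩ := hS
      cases z with
      | none => exact key b hb fun y hy => by rw [← hy] at hb; exact hb
      | some z =>
        by_cases hz : z.elim id id ∈ S
        · exact key _ hz fun y hy _ => hy
        · exact key b hb fun y _ h => absurd h hz

theorem upper (sd : ι → Fin 2) (e : K ⊕ K → ι) (he : Function.Injective e)
    (hsd : sd ∘ e = Sum.elim (fun _ => 0) fun _ => 1) (Φ : (Slot → V × K × K) → Prop)
    (Z : (ι → V × K × K) → V × K × K → V × K × K → Prop)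
    (hZ : ∀ s b a, Z s b a → ∃ c : K × K, Φ (quad (s (e (.inl c.1))) a b (s (e (.inr c.2))))) :
    ∑ s, ∑ b, ∑ a, M.N (ext 0 (ext 1 sd)) (ext a (ext b s)) * ind (Z s b a) ≤
      4 * ∑ o : Slot → V × K × K, M.N Prod.fst o * ind (Φ o) := by
  have h1 : ∀ c : K × K, ∑ s, ∑ b, ∑ a, M.N (ext 0 (ext 1 sd)) (ext a (ext b s)) *
      ind (Φ (quad (s (e (.inl c.1))) a b (s (e (.inr c.2))))) =
      ∑ o : Slot → V × K × K, M.N Prod.fst o * ind (Φ o) := by
    intro c
    have h := M.sum_N_comp (ext 0 (ext 1 sd))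
      (quad (some (some (e (.inl c.1)))) none (some none) (some (some (e (.inr c.2))))) (by
        rintro ⟨i, j⟩ ⟨i', j'⟩
        fin_cases i <;> fin_cases j <;> fin_cases i' <;> fin_cases j' <;>
          simp [quad, he.eq_iff]) fun o => ind (Φ o)
    have e1 : ext 0 (ext 1 sd) ∘
        quad (some (some (e (.inl c.1)))) none (some none) (some (some (e (.inr c.2)))) = Prod.fst := by
      rw [← quad_fst]
      refine (comp_quad _ _ _ _ _).trans ?_
      have f1 := congrFun hsd (.inl c.1)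
      have f2 := congrFun hsd (.inr c.2)
      simp only [Function.comp, Sum.elim_inl, Sum.elim_inr] at f1 f2
      simp only [ext_some, ext_none, f1, f2]
    rw [e1, sum_ext, sum_ext] at h
    rw [← h]
    refine sum_congr rfl fun s _ => sum_congr rfl fun b _ => sum_congr rfl fun a _ => ?_
    congr 3
    exact (comp_quad (ext a (ext b s)) (some (some (e (.inl c.1)))) none (some none)
      (some (some (e (.inr c.2))))).symm
  calc _ ≤ ∑ s, ∑ b, ∑ a, ∑ c : K × K, M.N (ext 0 (ext 1 sd)) (ext a (ext b s)) *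
          ind (Φ (quad (s (e (.inl c.1))) a b (s (e (.inr c.2))))) := by
        refine sum_le_sum fun s _ => sum_le_sum fun b _ => sum_le_sum fun a _ => ?_
        rw [← mul_sum]
        exact mul_le_mul_of_nonneg_left ((ind_mono (hZ s b a)).trans (ind_exists_le _))
          (M.N_nonneg _ _)
    _ = ∑ c : K × K, ∑ s, ∑ b, ∑ a, M.N (ext 0 (ext 1 sd)) (ext a (ext b s)) *
          ind (Φ (quad (s (e (.inl c.1))) a b (s (e (.inr c.2))))) := by
        rw [sum_comm (s := (univ : Finset (K × K)))]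
        exact sum_congr rfl fun s _ => (sum_comm3 _).symm
    _ = _ := by
        simp only [h1, sum_const, card_univ, Fintype.card_prod, ZMod.card, nsmul_eq_mul]
        norm_num

theorem step_a (sd : ι → Fin 2) {δ : ℝ} (hδ : 0 < δ) (hI : Inc M sd ≤ 4 * δ ^ 2)
    (Z : (ι → V × K × K) → V × K × K → V × K × K → Prop) :
    ∑ s, ∑ b, ∑ u, Mg M (ext 1 sd) 0 (ext b s) u * ∑ x, Gc M sd 0 s u x * ind (Z s b (u, x)) ≤
      ∑ s, ∑ b, ∑ a, M.N (ext 0 (ext 1 sd)) (ext a (ext b s)) * ind (Z s b a) + 5 * δ := by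
  have h1 : ∑ s, ∑ b, ∑ u, Mg M (ext 1 sd) 0 (ext b s) u = 1 := by
    simp only [sum_Mg, M.sum_N_ext, M.sum_N]
  have h2 : Inc M sd / (4 * δ) ≤ δ := by
    rw [div_le_iff₀ (by positivity)]
    linarith
  calc _ ≤ ∑ s, ∑ b, ∑ u, (∑ x, M.N (ext 0 (ext 1 sd)) (ext (u, x) (ext b s)) * ind (Z s b (u, x))
        + Mg M (ext 1 sd) 0 (ext b s) u * (4 * δ) + (∑ x, Mg M (ext 1 sd) 0 (ext b s) u *
          (Gc M (ext 1 sd) 0 (ext b s) u x - Gc M sd 0 s u x) ^ 2) / (4 * δ)) := by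
        refine sum_le_sum fun s _ => sum_le_sum fun b _ => sum_le_sum fun u _ => ?_
        have e : (4 : ℝ) * δ = ∑ _x : K × K, δ := by
          simp only [sum_const, card_univ, Fintype.card_prod, ZMod.card, nsmul_eq_mul]
          norm_num
        simp only [← Mg_mul_Gc, mul_assoc, ← mul_sum, mul_div_assoc, ← mul_add]
        refine mul_le_mul_of_nonneg_left ?_ (Mg_nonneg M _ _ _ _)
        rw [sum_div]
        nth_rewrite 1 [e]
        rw [← sum_add_distrib, ← sum_add_distrib]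
        refine sum_le_sum fun x _ => ?_
        have f1 := abs_le_amgm (Gc M (ext 1 sd) 0 (ext b s) u x - Gc M sd 0 s u x) hδ
        have f2 := neg_abs_le (Gc M (ext 1 sd) 0 (ext b s) u x - Gc M sd 0 s u x)
        have f3 := abs_nonneg (Gc M (ext 1 sd) 0 (ext b s) u x - Gc M sd 0 s u x)
        by_cases hz : Z s b (u, x)
        · rw [ind_pos hz]
          linarith
        · rw [ind_neg hz]
          linarith
    _ ≤ _ := by
        simp only [sum_add_distrib, ← sum_mul, ← sum_div, h1]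
        simp only [Inc, Fintype.sum_prod_type (α₁ := V)] at h2 ⊢
        linarith

theorem core [Nonempty V] (S : Finset K) (hS : S.Nonempty)
    (h1 : ∀ A, M.w A ≠ 0 → ∀ o, M.ν A 1 o ≠ 0 → eta o.2 ∈ S)
    (h8 : ∀ A, M.w A ≠ 0 → ∀ i, ∀ b ∈ S, (1 : ℝ) / 8 ≤ ∑ o, M.ν A i o * ind (eta o.2 = b))
    {J : ℕ} {δ δ' : ℝ} (hδ : 0 < δ) (hδ1 : δ ≤ 1 / 2 ^ 16) (hδ' : 0 < δ')
    (hJ : 1 < J * (4 * δ ^ 2)) (hδδ : 4 ^ (J + 5) * (2 * δ') ≤ δ)
    (hU : UnifM M (J + 7) (δ' ^ 2)) (ζ : (Slot → K × K) → (Slot → V) → Prop)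
    (hζ : ∀ lam v, ζ lam v ∨ ζ lam (v ∘ Prod.swap)) :
    1 / 2 ^ 41 - 7 * δ ≤ 4 * ∑ o : Slot → V × K × K, M.N Prod.fst o *
      ind (Adm (fun s => (o s).2) ∧ ζ (fun s => (o s).2) fun s => (o s).1) := by
  classical
  obtain ⟨ι, _, _, sd, e, he, hsd, hι, hI⟩ :=
    exists_index M (ι₀ := K ⊕ K) (Sum.elim (fun _ => 0) fun _ => 1) (4 * δ ^ 2) J
  have hI' := hI.resolve_right (not_le.2 ((En_le_one M sd).trans_lt hJ))
  rw [Fintype.card_sum, ZMod.card] at hι
  have hX : Fintype.card (K × K) = 4 := by rw [Fintype.card_prod, ZMod.card]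
  have herr : ∀ k ≤ J + 5, (Fintype.card (K × K) : ℝ) ^ k * (2 * δ') ≤ δ := fun k hk => by
    rw [hX]
    exact (mul_le_mul_of_nonneg_right (pow_le_pow_right₀ (by norm_num) hk)
      (by positivity)).trans hδδ
  let Φ : (Slot → V × K × K) → Prop := fun o =>
    Adm (fun s => (o s).2) ∧ ζ (fun s => (o s).2) fun s => (o s).1
  let Z : (ι → V × K × K) → V × K × K → V × K × K → Prop := fun s b a =>
    Φ (quad (s (e (.inl (eta b.2)))) a b (s (e (.inr (eta a.2)))))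
  have hu := upper M sd e he hsd Φ Z fun s b a h => ⟨(eta b.2, eta a.2), h⟩
  have ha := step_a M sd hδ hI' Z
  have hf01 : ∀ (i : Fin 2) s u (c : K × K → ℝ), (∀ x, 0 ≤ c x) → (∀ x, c x ≤ 1) →
      0 ≤ ∑ x, Gc M sd i s u x * c x ∧ ∑ x, Gc M sd i s u x * c x ≤ 1 := fun i s u c h0 h1 =>
    ⟨sum_nonneg fun x _ => mul_nonneg (Gc_nonneg M _ _ _ _ _) (h0 x),
      (sum_le_sum fun x _ => mul_le_of_le_one_right (Gc_nonneg M _ _ _ _ _) (h1 x)).trans
        (sum_Gc_le M _ _ _ _)⟩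
  have hZ01 := fun s u b => hf01 0 s u (fun x => ind (Z s b (u, x))) (fun _ => ind_nonneg _)
    fun _ => ind_le_one _
  have hb := (abs_le.1 ((fresh M hδ' hU (ext 1 sd) 0 (by simp; omega)
    (fun u s' => ∑ x, Gc M sd 0 (s' ∘ some) u x * ind (Z (s' ∘ some) (s' none) (u, x)))
    fun u s' => abs_le.2 ⟨by linarith [(hZ01 (s' ∘ some) u (s' none)).1],
      (hZ01 _ _ _).2⟩).trans (herr _ (by simp; omega)))).1
  rw [sum_ext, sum_ext fun s' => M.N _ s' * _] at hb
  simp only [ext_none, ext_comp_some] at hb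
  obtain ⟨b₀, hb₀⟩ := hS
  let G' : (ι → V × K × K) → V → K × K → ℝ := fun s u y =>
    if Mg M sd 1 s u = 0 then ind (y = (b₀, 0)) else Gc M sd 1 s u y
  have hG'0 : ∀ s u y, 0 ≤ G' s u y := fun s u y => by
    simp only [G']
    split_ifs
    exacts [ind_nonneg _, Gc_nonneg M _ _ _ _ _]
  have hG'1 : ∀ s u, ∑ y, G' s u y = 1 := fun s u => by
    by_cases h : Mg M sd 1 s u = 0
    · simp only [G', h, if_true]
      rw [sum_eq_single (b₀, 0) (fun y _ hy => ind_neg hy) (by simp), ind_pos rfl]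
    · simp only [G', h, if_false]
      exact sum_Gc M _ _ _ _ h
  have hG'S : ∀ s u y, G' s u y ≠ 0 → eta y ∈ S := fun s u y hy => by
    by_cases h : Mg M sd 1 s u = 0
    · simp only [G', h, if_true, ind_ne_zero] at hy
      simpa [hy, eta] using hb₀
    · simp only [G', h, if_false] at hy
      by_contra hn
      refine hy (div_eq_zero_iff.2 (Or.inl (expect_eq_zero fun A _ => ?_)))
      by_cases hA : M.w A = 0
      · rw [hA, zero_mul]
      · rw [M.rho_ext, not_not.1 fun h0 => hn (h1 A hA (u, y) h0), zero_mul, mul_zero]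
  have hGM : ∀ s u y, Mg M sd 1 s u * G' s u y = M.N (ext 1 sd) (ext (u, y) s) := fun s u y => by
    rw [← Mg_mul_Gc]
    by_cases h : Mg M sd 1 s u = 0 <;> simp [G', h]
  have hc := (abs_le.1 ((fresh M hδ' hU sd 1 (by omega)
    (fun u' s => ∑ y, G' s u' y * 𝔼 u, ∑ x, Gc M sd 0 s u x * ind (Z s (u', y) (u, x)))
    fun u' s => abs_le.2 ⟨le_trans (by norm_num) (sum_nonneg fun y _ => mul_nonneg (hG'0 _ _ _)
      (expect_nonneg' fun u => (hZ01 _ _ _).1)), (sum_le_sum fun y _ => mul_le_of_le_one_right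
        (hG'0 _ _ _) (expect_le_const zero_le_one fun u => (hZ01 _ _ _).2)).trans
          (hG'1 s u').le⟩).trans (herr _ (by omega)))).1
  have hbc : ∑ s, ∑ u', Mg M sd 1 s u' * ∑ y, G' s u' y * 𝔼 u, ∑ x, Gc M sd 0 s u x *
      ind (Z s (u', y) (u, x)) = ∑ s, ∑ b, M.N (ext 1 sd) (ext b s) *
        𝔼 u, ∑ x, Gc M sd 0 s u x * ind (Z s b (u, x)) := by
    refine sum_congr rfl fun s _ => ?_
    rw [Fintype.sum_prod_type (α₁ := V)]
    simp only [mul_sum univ _ (Mg M sd 1 s _), ← mul_assoc, hGM]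
  let hh : (ι → V × K × K) → ℝ := fun s =>
    𝔼 u, ind (Good S e s) * ∑ x, Gc M sd 0 s u x * ind (eta x ∈ S)
  have hS01 := fun s u => hf01 0 s u (fun x => ind (eta x ∈ S)) (fun _ => ind_nonneg _)
    fun _ => ind_le_one _
  have hf := (abs_le.1 ((fresh M hδ' hU sd 0 (by omega)
    (fun u s => ind (Good S e s) * ∑ x, Gc M sd 0 s u x * ind (eta x ∈ S))
    fun u s => abs_le.2 ⟨le_trans (by norm_num) (mul_nonneg (ind_nonneg _) (hS01 s u).1),
      mul_le_one₀ (ind_le_one _) (hS01 s u).1 (hS01 s u).2⟩).trans (herr _ (by omega)))).2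
  have hg := good_prob M S ⟨b₀, hb₀⟩ h8 sd e he
  have hd : ∀ s, (2 / 2 ^ 16 * hh s - 1 / 2 ^ 32) / 512 ≤
      𝔼 u', ∑ y, G' s u' y * 𝔼 u, ∑ x, Gc M sd 0 s u x * ind (Z s (u', y) (u, x)) := by
    intro s
    refine le_trans (b := hh s ^ 2 / 512) (by nlinarith [sq_nonneg (hh s - 1 / 2 ^ 16)]) ?_
    by_cases hs : Good S e s
    · simp only [hh, ind_pos hs, one_mul]
      refine tournament hX (Gc M sd 0 s) (G' s) (Gc_nonneg M _ _ _) (Gc_le_one M _ _ _) (hG'0 s)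
        (hG'1 s) (fun x => eta x ∈ S) (hG'S s) (fun x y u u' => Z s (u', y) (u, x))
        fun x y u u' hx hy => ?_
      simp only [Z, Φ, comp_quad Prod.snd, comp_quad Prod.fst]
      have hA : Adm (quad (s (e (.inl (eta y)))).2 x y (s (e (.inr (eta x)))).2) := by
        intro j
        fin_cases j
        · exact hs (.inl (eta y)) hy
        · exact (hs (.inr (eta x)) hx).symm
      rw [← quad_swap _ u u']
      exact (hζ _ _).imp (fun h => ⟨hA, h⟩) fun h => ⟨hA, h⟩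
    · simp only [hh, ind_neg hs, zero_mul, expect_const_zero]
      exact le_trans (by norm_num) (expect_nonneg' fun u' => sum_nonneg fun y _ =>
        mul_nonneg (hG'0 _ _ _) (expect_nonneg' fun u => (hZ01 _ _ _).1))
  have he1 := sum_le_sum fun s (_ : s ∈ univ) => mul_le_mul_of_nonneg_left (hd s) (M.N_nonneg sd s)
  have he2 : ∑ s, M.N sd s * ((2 / 2 ^ 16 * hh s - 1 / 2 ^ 32) / 512) =
      (2 / 2 ^ 16 * ∑ s, M.N sd s * hh s - 1 / 2 ^ 32) / 512 := by
    have : ∀ s, M.N sd s * ((2 / 2 ^ 16 * hh s - 1 / 2 ^ 32) / 512) =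
        (2 / 2 ^ 16 * (M.N sd s * hh s) - 1 / 2 ^ 32 * M.N sd s) / 512 := fun s => by ring
    simp only [this, ← sum_div, sum_sub_distrib, ← mul_sum, M.sum_N, mul_one]
  simp only [hh] at he1 he2
  linarith

end Lat

/-- J4 -/
theorem latent : ∃ c₀ : ℝ, 0 < c₀ ∧ ∃ (n : ℕ) (ε : ℝ), 0 < ε ∧
    ∀ (𝒜 L V : Type) [Fintype 𝒜] [Fintype L] [Fintype V] (w : 𝒜 → ℝ) (lw : 𝒜 → Fin 2 → L → ℝ)
      (p : 𝒜 → Fin 2 → L → V) (m : 𝒜 → Fin 2 → L → K × K) (S : Finset K),
      (∀ A, 0 ≤ w A) → 𝔼 A, w A = 1 → (∀ A i t, 0 ≤ lw A i t) →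
      (∀ A, w A ≠ 0 → ∀ i, 𝔼 t, lw A i t = 1) → S.Nonempty →
      (∀ A, w A ≠ 0 → ∀ t, lw A 1 t ≠ 0 → eta (m A 1 t) ∈ S) →
      (∀ A, w A ≠ 0 → ∀ i, ∀ b ∈ S, (1 : ℝ) / 8 ≤ 𝔼 t, lw A i t * ind (eta (m A i t) = b)) →
      Unif w lw p n ε →
      ∀ ζ : (Slot → K × K) → (Slot → V) → Prop, (∀ lam v, ζ lam v ∨ ζ lam (v ∘ Prod.swap)) →
        c₀ ≤ 𝔼 A, w A * 𝔼 t : Slot → L, (∏ s, lw A s.1 (t s)) *
          ind (Adm (fun s => m A s.1 (t s)) ∧
            ζ (fun s => m A s.1 (t s)) fun s => p A s.1 (t s)) := by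
  obtain ⟨J, hJ⟩ := exists_nat_gt (1 / (4 * (1 / 2 ^ 45 : ℝ) ^ 2))
  rw [div_lt_iff₀ (by positivity)] at hJ
  refine ⟨1 / 2 ^ 45, by positivity, J + 7, (1 / 2 ^ 45 / (2 * 4 ^ (J + 5))) ^ 2, by positivity, ?_⟩
  intro 𝒜 L V _ _ _ w lw p m S hw0 hw1 hl0 hl1 hS hS1 hS8 hU ζ hζ
  classical
  have hsum : ∀ A i (f : V × K × K → ℝ), ∑ o, (𝔼 t, lw A i t * ind ((p A i t, m A i t) = o)) * f o
      = 𝔼 t, lw A i t * f (p A i t, m A i t) := by
    intro A i f
    simp only [expect_mul]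
    rw [← expect_sum_comm]
    refine expect_congr rfl fun t _ => ?_
    rw [sum_eq_single (p A i t, m A i t) (fun o _ ho => by rw [ind_neg ho.symm]; simp) (by simp),
      ind_pos rfl, mul_one]
  let M : Lat.Mod 𝒜 (V × K × K) :=
    { w := w
      ν := fun A i o => 𝔼 t, lw A i t * ind ((p A i t, m A i t) = o)
      w0 := hw0
      w1 := hw1
      ν0 := fun A i o => expect_nonneg' fun t => mul_nonneg (hl0 _ _ _) (ind_nonneg _)
      ν1 := fun A hA i => by simpa [hl1 A hA i] using hsum A i fun _ => 1 }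
  have bridge : ∀ (ι : Type) [Fintype ι] [DecidableEq ι] (sd : ι → Fin 2)
      (F : (ι → V × K × K) → ℝ), ∑ s, M.N sd s * F s = 𝔼 A, w A * 𝔼 τ : ι → L,
        (∏ a, lw A (sd a) (τ a)) * F fun a => (p A (sd a) (τ a), m A (sd a) (τ a)) := by
    intro ι _ _ sd F
    rw [M.sum_N_mul]
    refine expect_congr rfl fun A _ => ?_
    congr 1
    simp only [Lat.Mod.rho, M]
    simp only [← expect_pi_prod (α := fun _ : ι => L), expect_mul]
    rw [← expect_sum_comm]
    refine expect_congr rfl fun τ _ => ?_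
    rw [sum_eq_single (fun a => (p A (sd a) (τ a), m A (sd a) (τ a))) (fun o _ ho => ?_) (by simp)]
    · simp [ind_pos]
    · rw [prod_mul_distrib, ← ind_forall, ind_neg fun h => ho (funext h).symm]
      simp
  obtain ⟨A₀, hA₀⟩ : ∃ A, w A ≠ 0 := by
    by_contra h
    push Not at h
    simp [h] at hw1
  have hL : Nonempty L := by
    by_contra h
    rw [not_nonempty_iff] at h
    simpa using hl1 A₀ hA₀ 0
  have hV : Nonempty V := ⟨p A₀ 0 (Classical.arbitrary L)⟩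
  have h := Lat.core M S hS (fun A hA o ho => by
      by_contra hn
      refine ho (expect_eq_zero fun t _ => ?_)
      by_cases ht : lw A 1 t = 0
      · rw [ht, zero_mul]
      · rw [ind_neg fun h => hn (by rw [← h]; exact hS1 A hA t ht), mul_zero])
    (fun A hA i b hb => (hS8 A hA i b hb).trans (hsum A i fun o => ind (eta o.2 = b)).ge)
    (J := J) (δ := 1 / 2 ^ 45) (δ' := 1 / 2 ^ 45 / (2 * 4 ^ (J + 5))) (by positivity)
    (by norm_num) (by positivity) hJ (le_of_eq (by field_simp))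
    (fun ι _ _ sd hι Z hZ => by rw [bridge]; exact hU ι sd hι Z hZ) ζ hζ
  rw [bridge] at h
  linarith

end Vale.Agent.P060
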