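import Vale.Agent.P060.Basic

set_option linter.unusedSectionVars false

namespace Vale.Agent.P060

open Finset
open scoped BigOperators

namespace Lat

theorem sum_pi_prod {ι Ω : Type} [Fintype ι] [DecidableEq ι] [Fintype Ω] (f : ι → Ω → ℝ) :
    ∑ o : ι → Ω, ∏ a, f a (o a) = ∏ a, ∑ y, f a y := by
  rw [Finset.prod_univ_sum, Fintype.piFinset_univ]

theorem sum_comp_inj {ι ι' Ω : Type} [Fintype ι] [DecidableEq ι] [Fintype ι'] [DecidableEq ι']
    [Fintype Ω] (f : ι' → Ω → ℝ) (hf : ∀ a, ∑ y, f a y = 1) (e : ι → ι')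
    (he : Function.Injective e) (F : (ι → Ω) → ℝ) :
    ∑ o : ι' → Ω, (∏ a, f a (o a)) * F (o ∘ e) = ∑ o : ι → Ω, (∏ b, f (e b) (o b)) * F o := by
  classical
  let e1 := Equiv.piEquivPiSubtypeProd (fun j => j ∈ Set.range e) fun _ => Ω
  let e2 : (ι → Ω) ≃ ({j // j ∈ Set.range e} → Ω) :=
    Equiv.arrowCongr (Equiv.ofInjective e he) (Equiv.refl Ω)
  rw [← e1.symm.sum_comp, Fintype.sum_prod_type, ← e2.sum_comp]
  refine sum_congr rfl fun o _ => ?_
  have h1 : ∀ y, (e1.symm (e2 o, y)) ∘ e = o := by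
    intro y
    funext b
    simp [e1, e2]
  have h2 : ∀ y : {j // ¬ j ∈ Set.range e} → Ω, ∏ a, f a (e1.symm (e2 o, y) a) =
      (∏ b, f (e b) (o b)) * ∏ a : {j // ¬ j ∈ Set.range e}, f a (y a) := by
    intro y
    rw [← Fintype.prod_subtype_mul_prod_subtype (fun j => j ∈ Set.range e)]
    congr 1
    · symm
      refine prod_bij (fun b _ => (⟨e b, b, rfl⟩ : {j // j ∈ Set.range e}))
        (fun _ _ => @mem_univ _ (_) _) (fun a _ b _ h => he (congrArg Subtype.val h)) ?_ fun b _ => ?_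
      · rintro ⟨_, b, rfl⟩ _
        exact ⟨b, mem_univ _, rfl⟩
      · exact (congrArg (f (e b)) (congrFun (h1 y) b)).symm
    · refine prod_congr rfl fun a _ => ?_
      simp [e1, a.2]
  simp only [h1, h2]
  rw [← sum_mul, ← mul_sum, sum_pi_prod fun (a : {j // ¬ j ∈ Set.range e}) y => f a y]
  simp [hf]

theorem abs_le_amgm (y : ℝ) {δ : ℝ} (hδ : 0 < δ) : |y| ≤ δ + y ^ 2 / (4 * δ) := by
  have : δ + y ^ 2 / (4 * δ) - |y| = (2 * δ - |y|) ^ 2 / (4 * δ) := by
    rw [← sq_abs y]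
    field_simp
    ring
  have h2 : 0 ≤ (2 * δ - |y|) ^ 2 / (4 * δ) := by positivity
  linarith

/-- a latent variable model with two sides -/
structure Mod (𝒜 Ω : Type) [Fintype 𝒜] [Fintype Ω] where
  w : 𝒜 → ℝ
  ν : 𝒜 → Fin 2 → Ω → ℝ
  w0 : ∀ A, 0 ≤ w A
  w1 : 𝔼 A, w A = 1
  ν0 : ∀ A i o, 0 ≤ ν A i o
  ν1 : ∀ A, w A ≠ 0 → ∀ i, ∑ o, ν A i o = 1

namespace Mod

variable {𝒜 Ω : Type} [Fintype 𝒜] [Fintype Ω] (M : Mod 𝒜 Ω)
variable {ι : Type} [Fintype ι] [DecidableEq ι]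

def rho (sd : ι → Fin 2) (A : 𝒜) (s : ι → Ω) : ℝ := ∏ a, M.ν A (sd a) (s a)

/-- the joint law of the samples -/
noncomputable def N (sd : ι → Fin 2) (s : ι → Ω) : ℝ := 𝔼 A, M.w A * M.rho sd A s

theorem rho_nonneg (sd : ι → Fin 2) (A : 𝒜) (s : ι → Ω) : 0 ≤ M.rho sd A s :=
  prod_nonneg fun _ _ => M.ν0 _ _ _

theorem N_nonneg (sd : ι → Fin 2) (s : ι → Ω) : 0 ≤ M.N sd s :=
  expect_nonneg' fun A => mul_nonneg (M.w0 A) (M.rho_nonneg _ _ _)

theorem sum_N_mul (sd : ι → Fin 2) (F : (ι → Ω) → ℝ) :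
    ∑ s, M.N sd s * F s = 𝔼 A, M.w A * ∑ s, M.rho sd A s * F s := by
  simp only [N, expect_mul, mul_sum, mul_assoc]
  exact (expect_sum_comm _ _ _).symm

theorem congr_w {f g : 𝒜 → ℝ} (h : ∀ A, M.w A ≠ 0 → f A = g A) :
    𝔼 A, M.w A * f A = 𝔼 A, M.w A * g A := by
  refine expect_congr rfl fun A _ => ?_
  by_cases hA : M.w A = 0
  · simp [hA]
  · rw [h A hA]

theorem mono_w {f g : 𝒜 → ℝ} (h : ∀ A, M.w A ≠ 0 → f A ≤ g A) :
    𝔼 A, M.w A * f A ≤ 𝔼 A, M.w A * g A := by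
  refine expect_mono fun A => ?_
  by_cases hA : M.w A = 0
  · simp [hA]
  · exact mul_le_mul_of_nonneg_left (h A hA) (M.w0 A)

theorem sum_N_comp {ι' : Type} [Fintype ι'] [DecidableEq ι'] (sd' : ι' → Fin 2) (e : ι → ι')
    (he : Function.Injective e) (F : (ι → Ω) → ℝ) :
    ∑ s, M.N sd' s * F (s ∘ e) = ∑ s, M.N (sd' ∘ e) s * F s := by
  rw [sum_N_mul, sum_N_mul]
  exact M.congr_w fun A hA => sum_comp_inj (fun a => M.ν A (sd' a)) (fun a => M.ν1 A hA _) e he F

theorem sum_rho (sd : ι → Fin 2) {A : 𝒜} (hA : M.w A ≠ 0) : ∑ s, M.rho sd A s = 1 := by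
  simp only [rho]
  rw [sum_pi_prod fun a y => M.ν A (sd a) y]
  simp [M.ν1 A hA]

theorem sum_N (sd : ι → Fin 2) : ∑ s, M.N sd s = 1 := by
  have := M.sum_N_mul sd fun _ => 1
  simp only [mul_one] at this
  rw [this, M.congr_w (g := fun _ => 1) fun A hA => M.sum_rho sd hA]
  simpa using M.w1

end Mod

/-- extension of a family by one element -/
def ext {ι α : Type} (b : α) (s : ι → α) : Option ι → α := fun a => a.elim b s

@[simp] theorem ext_none {ι α : Type} (b : α) (s : ι → α) : ext b s none = b := rfl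
@[simp] theorem ext_some {ι α : Type} (b : α) (s : ι → α) (a : ι) : ext b s (some a) = s a := rfl
@[simp] theorem ext_comp_some {ι α : Type} (b : α) (s : ι → α) : ext b s ∘ some = s := rfl

def extEquiv {ι α : Type} : (ι → α) × α ≃ (Option ι → α) where
  toFun z := ext z.2 z.1
  invFun s := (s ∘ some, s none)
  left_inv _ := rfl
  right_inv s := by
    funext a
    cases a <;> rfl

theorem sum_ext {ι Ω : Type} [Fintype ι] [DecidableEq ι] [Fintype Ω] (F : (Option ι → Ω) → ℝ) :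
    ∑ s, F s = ∑ s, ∑ b, F (ext b s) := by
  rw [← extEquiv.sum_comp, Fintype.sum_prod_type]
  rfl

theorem expect_ext {ι Ω : Type} [Fintype ι] [DecidableEq ι] [Fintype Ω] (F : (Option ι → Ω) → ℝ) :
    𝔼 s, F s = 𝔼 s, 𝔼 b, F (ext b s) := by
  rw [← expect_equiv' extEquiv, expect_prod]
  rfl

namespace Mod

variable {𝒜 Ω : Type} [Fintype 𝒜] [Fintype Ω] (M : Mod 𝒜 Ω)
variable {ι : Type} [Fintype ι] [DecidableEq ι]

theorem rho_ext (sd : ι → Fin 2) (i : Fin 2) (A : 𝒜) (s : ι → Ω) (b : Ω) :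
    M.rho (ext i sd) A (ext b s) = M.ν A i b * M.rho sd A s := by
  simp [rho, Fintype.prod_option]

theorem sum_N_ext (sd : ι → Fin 2) (i : Fin 2) (s : ι → Ω) :
    ∑ b, M.N (ext i sd) (ext b s) = M.N sd s := by
  simp only [N, rho_ext]
  rw [← expect_sum_comm]
  simp only [← mul_sum, ← sum_mul]
  exact M.congr_w fun A hA => by rw [M.ν1 A hA, one_mul]

theorem N_ext_comm (sd : ι → Fin 2) (i j : Fin 2) (s : ι → Ω) (a b : Ω) :
    M.N (ext i (ext j sd)) (ext a (ext b s)) = M.N (ext j (ext i sd)) (ext b (ext a s)) := by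
  simp only [N, rho_ext, mul_left_comm]

end Mod

section pts

variable {𝒜 V X : Type} [Fintype 𝒜] [Fintype V] [Fintype X] (M : Mod 𝒜 (V × X))

/-- near uniformity of the points -/
def UnifM (n : ℕ) (ε : ℝ) : Prop :=
  ∀ (ι : Type) [Fintype ι] [DecidableEq ι] (sd : ι → Fin 2), Fintype.card ι ≤ n →
    ∀ Z : (ι → V) → ℝ, (∀ v, |Z v| ≤ 1) →
      |∑ s, M.N sd s * Z (fun a => (s a).1) - 𝔼 v, Z v| ≤ ε

variable {ι : Type} [Fintype ι] [DecidableEq ι]

/-- the law of the samples and of the point of one more sample -/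
noncomputable def Mg (sd : ι → Fin 2) (i : Fin 2) (s : ι → V × X) (u : V) : ℝ :=
  ∑ x, M.N (ext i sd) (ext (u, x) s)

theorem Mg_nonneg (sd : ι → Fin 2) (i : Fin 2) (s : ι → V × X) (u : V) : 0 ≤ Mg M sd i s u :=
  sum_nonneg fun _ _ => M.N_nonneg _ _

theorem sum_Mg (sd : ι → Fin 2) (i : Fin 2) (s : ι → V × X) : ∑ u, Mg M sd i s u = M.N sd s := by
  rw [← M.sum_N_ext sd i s, Fintype.sum_prod_type]
  rfl

theorem fresh [Nonempty V] {n : ℕ} {δ : ℝ} (hδ : 0 < δ) (hU : UnifM M n (δ ^ 2)) (sd : ι → Fin 2)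
    (i : Fin 2) (hι : Fintype.card ι + 2 ≤ n) (f : V → (ι → V × X) → ℝ) (hf : ∀ u s, |f u s| ≤ 1) :
    |∑ s, ∑ u, Mg M sd i s u * f u s - ∑ s, M.N sd s * 𝔼 u, f u s|
      ≤ (Fintype.card X : ℝ) ^ Fintype.card ι * (2 * δ) := by
  classical
  let g : V → (ι → V × X) → ℝ := fun u s => f u s - 𝔼 u, f u s
  have hg : ∀ u s, |g u s| ≤ 2 := fun u s => by
    have h1 := (abs_expect_le' fun u => f u s).trans (expect_le_const zero_le_one fun u => hf u s)
    have h2 := hf u s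
    exact (abs_sub _ _).trans (by linarith)
  have hg0 : ∀ s, 𝔼 u, g u s = 0 := fun s => by
    simp only [g]
    rw [expect_sub_distrib, Fintype.expect_const, sub_self]
  let φ : 𝒜 → (ι → V × X) → ℝ := fun A s => ∑ o, M.ν A i o * g o.1 s
  have h1 : ∑ s, ∑ u, Mg M sd i s u * f u s - ∑ s, M.N sd s * 𝔼 u, f u s
      = 𝔼 A, M.w A * ∑ s, M.rho sd A s * φ A s := by
    calc _ = ∑ s, ∑ u, Mg M sd i s u * g u s := by
          rw [← sum_sub_distrib]
          refine sum_congr rfl fun s _ => ?_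
          simp only [g, mul_sub, sum_sub_distrib, ← sum_mul, sum_Mg]
      _ = ∑ s : Option ι → V × X, M.N (ext i sd) s * g (s none).1 (s ∘ some) := by
          rw [sum_ext]
          refine sum_congr rfl fun s _ => ?_
          rw [Fintype.sum_prod_type]
          simp only [Mg, sum_mul, ext_none, ext_comp_some]
      _ = _ := by
          rw [M.sum_N_mul]
          refine expect_congr rfl fun A _ => ?_
          rw [sum_ext]
          simp only [M.rho_ext, φ, mul_sum, ext_none, ext_comp_some]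
          exact sum_congr rfl fun s _ => sum_congr rfl fun b _ => by ring
  have h2 : ∀ μ : ι → X, 𝔼 A, M.w A * ∑ s, M.rho sd A s * φ A (fun a => ((s a).1, μ a)) ^ 2
      ≤ 4 * δ ^ 2 := by
    intro μ
    let Z : (Option (Option ι) → V) → ℝ := fun v =>
      g (v none) (fun a => (v (some (some a)), μ a)) *
        g (v (some none)) (fun a => (v (some (some a)), μ a)) / 4
    have e1 := hU (Option (Option ι)) (ext i (ext i sd)) (by simp; omega) Z fun v => by
      simp only [Z]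
      rw [abs_div, abs_mul, div_le_one (by norm_num), abs_of_pos (by norm_num : (0 : ℝ) < 4)]
      exact (mul_le_mul (hg _ _) (hg _ _) (abs_nonneg _) (by norm_num)).trans (by norm_num)
    have e2 : 𝔼 v, Z v = 0 := by
      rw [expect_ext]
      simp only [Z, ext_none, ext_some, ← expect_div, ← expect_mul, hg0, zero_mul,
        expect_const_zero, zero_div]
    rw [e2, sub_zero, M.sum_N_mul] at e1
    refine le_trans (le_of_eq ?_) (mul_le_mul_of_nonneg_left (abs_le.1 e1).2 (by norm_num))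
    rw [mul_expect]
    refine expect_congr rfl fun A _ => ?_
    rw [sum_ext, sum_ext, mul_left_comm]
    congr 1
    rw [mul_sum]
    refine sum_congr rfl fun s _ => ?_
    simp only [M.rho_ext, φ, Z, ext_none, ext_some, sq, mul_sum, sum_mul]
    exact sum_congr rfl fun b _ => sum_congr rfl fun a _ => by ring
  rw [h1]
  calc _ ≤ 𝔼 A, M.w A * ∑ μ : ι → X,
          (δ + (∑ s, M.rho sd A s * φ A (fun a => ((s a).1, μ a)) ^ 2) / (4 * δ)) := by
        refine (abs_expect_le' _).trans ?_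
        simp only [abs_mul, abs_of_nonneg (M.w0 _)]
        refine M.mono_w fun A hA => (abs_sum_le_sum_abs _ _).trans ?_
        have e1 : ∀ μ : ι → X, δ + (∑ s, M.rho sd A s * φ A (fun a => ((s a).1, μ a)) ^ 2) / (4 * δ)
            = ∑ s, M.rho sd A s * (δ + φ A (fun a => ((s a).1, μ a)) ^ 2 / (4 * δ)) := by
          intro μ
          simp only [mul_add, sum_add_distrib, ← sum_mul, M.sum_rho sd hA, one_mul, sum_div,
            mul_div_assoc]
        simp only [e1]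
        rw [sum_comm]
        refine sum_le_sum fun s _ => ?_
        rw [abs_mul, abs_of_nonneg (M.rho_nonneg _ _ _), ← mul_sum]
        refine mul_le_mul_of_nonneg_left ((abs_le_amgm _ hδ).trans ?_) (M.rho_nonneg _ _ _)
        exact single_le_sum (f := fun μ : ι → X => δ + φ A (fun a => ((s a).1, μ a)) ^ 2 / (4 * δ))
          (fun μ _ => by positivity) (mem_univ fun a => (s a).2)
    _ = ∑ μ : ι → X, (δ + (𝔼 A, M.w A *
          ∑ s, M.rho sd A s * φ A (fun a => ((s a).1, μ a)) ^ 2) / (4 * δ)) := by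
        simp only [mul_sum univ _ (M.w _)]
        rw [expect_sum_comm]
        refine sum_congr rfl fun μ _ => ?_
        simp only [mul_add, expect_add_distrib, ← expect_mul, M.w1, one_mul, expect_div,
          mul_div_assoc, ← mul_sum]
    _ ≤ _ := by
        refine (sum_le_card_nsmul _ _ (2 * δ) fun μ _ => ?_).trans (le_of_eq ?_)
        · have := div_le_div_of_nonneg_right (h2 μ) (by positivity : 0 ≤ 4 * δ)
          have e : 4 * δ ^ 2 / (4 * δ) = δ := by field_simp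
          linarith
        · rw [card_univ, Fintype.card_fun, nsmul_eq_mul]
          push_cast
          rfl

/-- conditional law of the mark -/
noncomputable def Gc (sd : ι → Fin 2) (i : Fin 2) (s : ι → V × X) (u : V) (x : X) : ℝ :=
  M.N (ext i sd) (ext (u, x) s) / Mg M sd i s u

theorem Gc_nonneg (sd : ι → Fin 2) (i : Fin 2) (s : ι → V × X) (u : V) (x : X) :
    0 ≤ Gc M sd i s u x := div_nonneg (M.N_nonneg _ _) (Mg_nonneg M _ _ _ _)

theorem Mg_mul_Gc (sd : ι → Fin 2) (i : Fin 2) (s : ι → V × X) (u : V) (x : X) :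
    Mg M sd i s u * Gc M sd i s u x = M.N (ext i sd) (ext (u, x) s) := by
  by_cases h : Mg M sd i s u = 0
  · rw [h, zero_mul]
    exact ((sum_eq_zero_iff_of_nonneg fun _ _ => M.N_nonneg _ _).1 h x (mem_univ x)).symm
  · exact mul_div_cancel₀ _ h

theorem sum_Gc (sd : ι → Fin 2) (i : Fin 2) (s : ι → V × X) (u : V) (h : Mg M sd i s u ≠ 0) :
    ∑ x, Gc M sd i s u x = 1 := by
  simp only [Gc]
  rw [← sum_div]
  exact div_self h

theorem sum_Gc_le (sd : ι → Fin 2) (i : Fin 2) (s : ι → V × X) (u : V) :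
    ∑ x, Gc M sd i s u x ≤ 1 := by
  by_cases h : Mg M sd i s u = 0
  · simp [Gc, h]
  · exact (sum_Gc M sd i s u h).le

theorem Gc_le_one (sd : ι → Fin 2) (i : Fin 2) (s : ι → V × X) (u : V) (x : X) :
    Gc M sd i s u x ≤ 1 :=
  (single_le_sum (fun y _ => Gc_nonneg M sd i s u y) (mem_univ x)).trans (sum_Gc_le M sd i s u)

/-- the energy -/
noncomputable def En (sd : ι → Fin 2) : ℝ := ∑ s, ∑ u, ∑ x, Mg M sd 0 s u * Gc M sd 0 s u x ^ 2

/-- the energy increment -/
noncomputable def Inc (sd : ι → Fin 2) : ℝ := ∑ s, ∑ b, ∑ u, ∑ x,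
  Mg M (ext 1 sd) 0 (ext b s) u * (Gc M (ext 1 sd) 0 (ext b s) u x - Gc M sd 0 s u x) ^ 2

theorem En_nonneg (sd : ι → Fin 2) : 0 ≤ En M sd :=
  sum_nonneg fun _ _ => sum_nonneg fun _ _ => sum_nonneg fun _ _ =>
    mul_nonneg (Mg_nonneg M _ _ _ _) (sq_nonneg _)

theorem En_le_one (sd : ι → Fin 2) : En M sd ≤ 1 := by
  rw [← M.sum_N sd]
  refine sum_le_sum fun s _ => ?_
  rw [← sum_Mg M sd 0 s]
  refine sum_le_sum fun u _ => ?_
  rw [← mul_sum]
  refine mul_le_of_le_one_right (Mg_nonneg M _ _ _ _) (le_trans (sum_le_sum fun x _ => ?_)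
    (sum_Gc_le M sd 0 s u))
  have := Gc_nonneg M sd 0 s u x
  have := Gc_le_one M sd 0 s u x
  nlinarith

theorem sum_comm3 {α β γ : Type} [Fintype α] [Fintype β] [Fintype γ] (f : α → β → γ → ℝ) :
    ∑ a, ∑ b, ∑ c, f a b c = ∑ b, ∑ c, ∑ a, f a b c := by
  rw [sum_comm]
  exact sum_congr rfl fun b _ => sum_comm

theorem En_ext (sd : ι → Fin 2) : En M (ext 1 sd) = En M sd + Inc M sd := by
  rw [En, sum_ext, En, Inc, ← sum_add_distrib]
  refine sum_congr rfl fun s _ => ?_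
  rw [sum_comm3, sum_comm3 (α := V × X), ← sum_add_distrib]
  refine sum_congr rfl fun u _ => ?_
  rw [← sum_add_distrib]
  refine sum_congr rfl fun x _ => ?_
  have h1 : ∑ b, Mg M (ext 1 sd) 0 (ext b s) u * Gc M (ext 1 sd) 0 (ext b s) u x
      = Mg M sd 0 s u * Gc M sd 0 s u x := by
    simp only [Mg_mul_Gc, M.N_ext_comm sd 0 1, M.sum_N_ext]
  have h2 : ∑ b, Mg M (ext 1 sd) 0 (ext b s) u = Mg M sd 0 s u := by
    simp only [Mg]
    rw [sum_comm]
    simp only [M.N_ext_comm sd 0 1, M.sum_N_ext]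
  have h3 : ∀ b, Mg M (ext 1 sd) 0 (ext b s) u * (Gc M (ext 1 sd) 0 (ext b s) u x - Gc M sd 0 s u x) ^ 2
      = Mg M (ext 1 sd) 0 (ext b s) u * Gc M (ext 1 sd) 0 (ext b s) u x ^ 2
        - 2 * Gc M sd 0 s u x * (Mg M (ext 1 sd) 0 (ext b s) u * Gc M (ext 1 sd) 0 (ext b s) u x)
        + Gc M sd 0 s u x ^ 2 * Mg M (ext 1 sd) 0 (ext b s) u := fun b => by ring
  simp only [h3, sum_add_distrib, sum_sub_distrib, ← mul_sum, h1, h2]
  ring

theorem exists_index {ι₀ : Type} [Fintype ι₀] [DecidableEq ι₀] (sd₀ : ι₀ → Fin 2) (η : ℝ) (J : ℕ) :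
    ∃ (ι : Type) (_ : Fintype ι) (_ : DecidableEq ι) (sd : ι → Fin 2) (e : ι₀ → ι),
      Function.Injective e ∧ sd ∘ e = sd₀ ∧ Fintype.card ι ≤ Fintype.card ι₀ + J ∧
        (Inc M sd ≤ η ∨ J * η ≤ En M sd) := by
  induction J with
  | zero =>
    exact ⟨ι₀, inferInstance, inferInstance, sd₀, id, Function.injective_id, rfl, le_rfl,
      Or.inr (by simpa using En_nonneg M sd₀)⟩
  | succ J ih =>
    obtain ⟨ι, _, _, sd, e, h1, h2, h3, h4⟩ := ih
    by_cases h : Inc M sd ≤ η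
    · exact ⟨ι, inferInstance, inferInstance, sd, e, h1, h2, by omega, Or.inl h⟩
    · refine ⟨Option ι, inferInstance, inferInstance, ext 1 sd, some ∘ e,
        (Option.some_injective ι).comp h1, h2, by simp; omega, Or.inr ?_⟩
      have := h4.resolve_left h
      rw [En_ext]
      push_cast
      linarith [not_le.1 h]

end pts

end Lat

end Vale.Agent.P060
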