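import Vale.Agent.P060.Basic

namespace Vale.Agent.P060

open Finset Polynomial Filter
open scoped BigOperators

variable {F : Type} [Field F] [Fintype F] [Algebra K F] {e n h M : ℕ}

set_option linter.unusedSectionVars false

/-- `pair z` as a linear map -/
noncomputable def pairL (z : Y F M) : F[X] →ₗ[F] F where
  toFun := pair z
  map_add' := pair_add_right z
  map_smul' a f := pair_smul_right a z f

/-- `pair · f` as a linear map -/
noncomputable def pairR (f : F[X]) : Y F M →ₗ[F] F where
  toFun z := pair z f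
  map_add' z z' := pair_add_left z z' f
  map_smul' a z := pair_smul_left a z f

/-- `poly` as a linear map -/
noncomputable def polyL (M : ℕ) : Y F M →ₗ[F] F[X] where
  toFun := poly
  map_add' := poly_add
  map_smul' := poly_smul

/-- coefficient vectors -/
noncomputable def cfs (M : ℕ) : F[X] →ₗ[F] Y F M := LinearMap.pi fun i => lcoeff F (i : ℕ)

theorem poly_cfs {f : F[X]} (hf : f.natDegree ≤ M) : poly (cfs M f) = f := poly_of_natDegree_le hf

theorem poly_ne_zero {a : Y F M} (ha : a ≠ 0) : poly a ≠ 0 := fun h =>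
  ha (funext fun i => by rw [← poly_coeff a i, h]; simp)

theorem pair_sum_right {ι : Type*} (z : Y F M) (s : Finset ι) (f : ι → F[X]) :
    pair z (∑ i ∈ s, f i) = ∑ i ∈ s, pair z (f i) := map_sum (pairL z) f s

theorem pair_sum_left {ι : Type*} (s : Finset ι) (z : ι → Y F M) (f : F[X]) :
    pair (∑ i ∈ s, z i) f = ∑ i ∈ s, pair (z i) f := map_sum (pairR f) z s

theorem pair_sub_left (z z' : Y F M) (f : F[X]) : pair (z - z') f = pair z f - pair z' f :=
  map_sub (pairR f) z z'

theorem pair_K_smul (k : K) (z : Y F M) (f : F[X]) :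
    pair (k • z) f = algebraMap K F k * pair z f := by
  rw [← pair_smul_left, algebraMap_smul]

theorem pair_of_monomials (z : Y F M) (f : F[X]) {d : ℕ}
    (h : ∀ k ≤ d, pair z (f * X ^ k) = 0) {g : F[X]} (hg : g.natDegree ≤ d) :
    pair z (f * g) = 0 := by
  rw [as_sum_range' g (d + 1) (Nat.lt_succ_of_le hg), mul_sum, pair_sum_right]
  refine sum_eq_zero fun k hk => ?_
  rw [← smul_X_eq_monomial, mul_smul_comm, pair_smul_right,
    h k (Nat.lt_succ_iff.1 (mem_range.1 hk)), mul_zero]

theorem pair_prod_cstar (c : Frame F e n) (z : Y F M) (f : F[X]) {k : ℕ}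
    (α : Fin k → Option (Fin n) → F) : pair z (f * ∏ j, poly (cstar c (α j))) =
      ∑ idx : Fin k → Option (Fin n), (∏ j, α j (idx j)) * pair z (f * ∏ j, cpoly c (idx j)) := by
  simp only [poly_cstar]
  rw [Finset.prod_univ_sum, Fintype.piFinset_univ, mul_sum, pair_sum_right]
  refine sum_congr rfl fun idx _ => ?_
  rw [Finset.prod_smul, mul_smul_comm, pair_smul_right]

theorem prod_cpoly_natDegree_le (c : Frame F e n) {k : ℕ} (idx : Fin k → Option (Fin n)) :
    (∏ j, cpoly c (idx j)).natDegree ≤ k * e := by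
  refine (natDegree_prod_le _ _).trans ?_
  refine (sum_le_sum fun j _ => cpoly_natDegree_le c (idx j)).trans ?_
  simp

theorem exists_cstar {c : Frame F e n} (hc : Surj c) {g : F[X]} (hg : g.natDegree ≤ e) :
    ∃ α, poly (cstar c α) = g := by
  obtain ⟨α, hα⟩ := hc (cfs e g)
  exact ⟨α, by rw [hα, poly_cfs hg]⟩

/-- the tensor `U c z` as a four-linear form -/
theorem U_form (c : Frame F e n) (z : Y F (4 * e)) (α : Fin 4 → Option (Fin n) → F) :
    ∑ idx, U c z idx * ∏ j, α j (idx j) = pair z (∏ j, poly (cstar c (α j))) := by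
  have := pair_prod_cstar c z 1 α
  simp only [one_mul] at this
  rw [this]
  exact sum_congr rfl fun idx _ => mul_comm _ _

/-- under `Surj`, products of `k` frame polynomials span all polynomials of degree at most
`k * e` -/
theorem pair_eq_zero_of_surj {c : Frame F e n} (hc : Surj c) (z : Y F M) (f : F[X]) (k : ℕ)
    (hz : ∀ α : Fin k → Option (Fin n) → F, pair z (f * ∏ j, poly (cstar c (α j))) = 0)
    (g : F[X]) (hg : g.natDegree ≤ k * e) : pair z (f * g) = 0 := by
  induction k generalizing f g with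
  | zero =>
    refine pair_of_monomials z f (d := 0) (fun k hk => ?_) (by simpa using hg)
    have := hz fun j => j.elim0
    simpa [Nat.le_zero.1 hk] using this
  | succ k ih =>
    refine pair_of_monomials z f (fun m hm => ?_) hg
    obtain ⟨α₀, h₀⟩ := exists_cstar hc (g := X ^ min m e) (by simp)
    have : f * X ^ m = f * X ^ min m e * X ^ (m - min m e) := by
      rw [mul_assoc, ← pow_add, Nat.add_sub_of_le (min_le_left _ _)]
    rw [this]
    refine ih _ (fun α => ?_) _ ?_
    · have := hz (Fin.cons α₀ α)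
      rwa [Fin.prod_univ_succ, Fin.cons_zero, h₀, ← mul_assoc] at this
    · rw [natDegree_X_pow]
      rw [Nat.succ_mul] at hm
      omega

theorem U_injective {c : Frame F e n} (hc : Surj c) : Function.Injective (U c) := by
  refine (injective_iff_map_eq_zero _).2 fun z hz => funext fun i => ?_
  have := pair_eq_zero_of_surj hc z 1 4 (fun α => by
    rw [one_mul, ← U_form, hz]; simp) (X ^ (i : ℕ)) (by rw [natDegree_X_pow]; omega)
  rwa [one_mul, pair_X_pow] at this

theorem trunc_eq_zero_iff {c : Frame F e n} (hc : Surj c) (z : Y F (4 * e)) :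
    trunc e z = 0 ↔ ∀ idx, idx 0 = none → U c z idx = 0 := by
  constructor
  · intro h idx h0
    rw [U_apply, Fin.prod_univ_succ, h0, cpoly, one_mul,
      ← pair_trunc z (prod_cpoly_natDegree_le c _), h, pair_zero_left]
  · intro h
    funext i
    have := pair_eq_zero_of_surj hc z 1 3 (fun α => by
      rw [pair_prod_cstar]
      refine sum_eq_zero fun idx _ => ?_
      have := h (Fin.cons none idx) rfl
      rw [U_apply, Fin.prod_univ_succ] at this
      exact mul_eq_zero_of_right _ this) (X ^ (i : ℕ)) (by rw [natDegree_X_pow]; omega)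
    rwa [one_mul, ← pair_trunc z (by rw [natDegree_X_pow]; omega), pair_X_pow] at this

theorem sum_U_cons (c : Frame F e n) (z : Y F (4 * e)) (α : Option (Fin n) → F)
    (idx : Fin 3 → Option (Fin n)) : ∑ o, α o * U c z (Fin.cons o idx) =
      pair z (poly (cstar c α) * ∏ j, cpoly c (idx j)) := by
  rw [poly_cstar, sum_mul, pair_sum_right]
  refine sum_congr rfl fun o _ => ?_
  rw [smul_mul_assoc, pair_smul_right, U_apply, Fin.prod_univ_succ]
  rfl

/-- membership in the Hankel kernel is determined by the tensor -/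
theorem cstar_mem_Ker_iff {c : Frame F e n} (hc : Surj c) (z : Y F (4 * e))
    (α : Option (Fin n) → F) :
    cstar c α ∈ Ker e z ↔ ∀ idx : Fin 3 → Option (Fin n),
      ∑ o, α o * U c z (Fin.cons o idx) = 0 := by
  simp only [sum_U_cons]
  refine ⟨fun h idx => h _ (prod_cpoly_natDegree_le c idx), fun h g hg => ?_⟩
  refine pair_eq_zero_of_surj hc z _ 3 (fun β => ?_) g hg
  rw [pair_prod_cstar]
  exact sum_eq_zero fun idx _ => mul_eq_zero_of_right _ (h idx)

theorem map_ker_le_Ker {c c' : Frame F e n} (hc : Surj c) {y y' : Y F (4 * e)}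
    (hy : U c y = U c' y') : (LinearMap.ker (cstar c')).map (cstar c) ≤ Ker e y := by
  rintro _ ⟨α, hα, rfl⟩
  refine (cstar_mem_Ker_iff hc y α).2 fun idx => ?_
  rw [hy, sum_U_cons, LinearMap.mem_ker.1 hα, poly_zero, zero_mul, pair_zero_right]

theorem finrank_Y : Module.finrank F (Y F M) = M + 1 := by simp

theorem exists_mem_of_finrank {R : ℕ} (W : Submodule F (Y F e))
    (hW : e + 1 ≤ Module.finrank F W + R) (φ : Y F R →ₗ[F] Y F e) : ∃ b ≠ 0, φ b ∈ W := by
  have h1 := W.finrank_quotient_add_finrank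
  rw [finrank_Y] at h1
  have h2 : LinearMap.ker (W.mkQ.comp φ) ≠ ⊥ :=
    LinearMap.ker_ne_bot_of_finrank_lt (by rw [finrank_Y]; omega)
  obtain ⟨b, hb, hb0⟩ := Submodule.exists_mem_ne_zero_of_ne_bot h2
  exact ⟨b, hb0, (Submodule.Quotient.mk_eq_zero W).1 hb⟩

theorem natDegree_le_of_mul {ω g : F[X]} (hω : ω ≠ 0) {N : ℕ} (h : (ω * g).natDegree ≤ N) :
    g.natDegree ≤ N := by
  by_cases hg : g = 0
  · simp [hg]
  · rw [natDegree_mul hω hg] at h; omega

theorem exists_omega {R : ℕ} (hR : 2 * R ≤ e) (W : Submodule F (Y F e))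
    (hW : e + 1 ≤ Module.finrank F W + R) :
    ∃ ω : F[X], ω ≠ 0 ∧ ω.natDegree ≤ 2 * R ∧ ∀ z : Y F (4 * e), W ≤ Ker e z →
      Killed z ω (4 * e - 2 * R) ∧ Killed (trunc e z) ω (3 * e) := by
  obtain ⟨b, hb0, hb⟩ := exists_mem_of_finrank W hW ((cfs e).comp (polyL R))
  obtain ⟨b', hb0', hb'⟩ := exists_mem_of_finrank W hW
    ((cfs e).comp ((LinearMap.mulLeft F (X ^ (e - R))).comp (polyL R)))
  rw [LinearMap.comp_apply] at hb
  rw [LinearMap.comp_apply, LinearMap.comp_apply, LinearMap.mulLeft_apply] at hb'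
  replace hb : cfs e (poly b) ∈ W := hb
  replace hb' : cfs e (X ^ (e - R) * poly b') ∈ W := hb'
  have d1 := poly_natDegree_le b
  have d2 := poly_natDegree_le b'
  have hω := mul_ne_zero (poly_ne_zero hb0) (poly_ne_zero hb0')
  refine ⟨poly b * poly b', hω, natDegree_mul_le.trans (by omega), fun z hz => ?_⟩
  have h1 : Killed z (poly b * poly b') (4 * e - 2 * R) := fun g hg => by
    refine pair_of_monomials z _ (fun k hk => ?_) (natDegree_le_of_mul hω hg)
    by_cases hk' : k ≤ 3 * e - R
    · have := hz hb (poly b' * X ^ k)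
        (natDegree_mul_le.trans (by rw [natDegree_X_pow]; omega))
      rwa [poly_cfs (by omega), ← mul_assoc] at this
    · have := hz hb' (poly b * X ^ (k - (e - R)))
        (natDegree_mul_le.trans (by rw [natDegree_X_pow]; omega))
      rw [poly_cfs (natDegree_mul_le.trans (by rw [natDegree_X_pow]; omega))] at this
      have h2 : (X : F[X]) ^ k = X ^ (e - R) * X ^ (k - (e - R)) := by
        rw [← pow_add]; congr 1; omega
      rw [h2, ← this]
      congr 1
      ring
  exact ⟨h1, fun g hg => by rw [pair_trunc z hg]; exact h1 g (by omega)⟩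

theorem pair_sq {z : Y F M} (hz : z ∈ XX F M) {f : F[X]} (hf : 2 * f.natDegree ≤ M) :
    pair z (f ^ 2) = pair z f ^ 2 := by
  haveI := charTwo_F (F := F)
  induction hz using Submodule.span_induction with
  | mem x hx =>
    obtain ⟨t, rfl⟩ := hx
    rw [pair_ev t (natDegree_pow_le.trans hf), pair_ev t (by omega), eval_pow]
  | zero => simp
  | add x y _ _ hx hy => rw [pair_add_left, pair_add_left, hx, hy, CharTwo.add_sq]
  | smul a x _ hx => rcases K_cases a with rfl | rfl <;> simp [hx]

theorem Killed.of_dvd {ω ω' : F[X]} (h : ω ∣ ω') {z : Y F M} {N : ℕ} (hz : Killed z ω N) :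
    Killed z ω' N := by
  obtain ⟨q, rfl⟩ := h
  intro g hg
  rw [mul_assoc] at hg ⊢
  exact hz _ hg

/-- the vectors killed by the multiples of `ω` -/
def KS (M : ℕ) (ω : F[X]) (N : ℕ) : Submodule F (Y F M) where
  carrier := {z | Killed z ω N}
  add_mem' ha hb g hg := by rw [pair_add_left, ha g hg, hb g hg, add_zero]
  zero_mem' g _ := pair_zero_left _
  smul_mem' a z hz g hg := by rw [pair_smul_left, hz g hg, mul_zero]

/-- the low vectors -/
def LS (M : ℕ) (ω : F[X]) : Submodule K (Y F M) := XX F M ⊓ (KS M ω M).restrictScalars K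

theorem Killed.eq_zero {ω : F[X]} (hω : ω ≠ 0) {z : Y F M} {N : ℕ} (hz : Killed z ω N)
    (hN : ω.natDegree ≤ N) (h0 : ∀ i : Fin (M + 1), (i : ℕ) < ω.natDegree → z i = 0)
    (i : Fin (M + 1)) (hi : (i : ℕ) ≤ N) : z i = 0 := by
  have h1 := EuclideanDomain.div_add_mod (X ^ (i : ℕ) : F[X]) ω
  have h2 := degree_mod_lt (X ^ (i : ℕ) : F[X]) hω
  have h3 : (ω * (X ^ (i : ℕ) / ω)).natDegree ≤ N := by
    rw [eq_sub_of_add_eq h1]
    refine (natDegree_sub_le _ _).trans (max_le (by simpa using hi) ?_)
    exact (natDegree_le_natDegree h2.le).trans hN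
  rw [← pair_X_pow z i, ← h1, pair_add_right, hz _ h3, zero_add, pair]
  refine sum_eq_zero fun j _ => ?_
  by_cases hj : (j : ℕ) < ω.natDegree
  · rw [h0 j hj, mul_zero]
  · rw [coeff_eq_zero_of_degree_lt (h2.trans_le (degree_le_natDegree.trans
      (by exact_mod_cast not_lt.1 hj))), zero_mul]

theorem Low.of_dvd {ω ω' : F[X]} (h : ω ∣ ω') {z : Y F M} (hz : Low M ω z) : Low M ω' z :=
  ⟨hz.1, hz.2.of_dvd h⟩

theorem low_ev {ω : F[X]} {t : F} (h : ω.eval t = 0) : Low M ω (ev M t) :=
  ⟨ev_mem t, fun g hg => by rw [pair_ev t hg, eval_mul, h, zero_mul]⟩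

theorem low_span {ω : F[X]} {s : Set (Y F M)} (hs : ∀ z ∈ s, Low M ω z) {z : Y F M}
    (hz : z ∈ Submodule.span K s) : Low M ω z :=
  (Submodule.span_le (p := LS M ω)).2 hs hz

theorem not_low_ev {ω : F[X]} {t : F} (hω : ω.natDegree ≤ M) (h : ω.eval t ≠ 0) :
    ¬ Low M ω (ev M t) := fun hl => by
  have := hl.2 1 (by rwa [mul_one])
  rw [mul_one, pair_ev t hω] at this
  exact h this

theorem not_low_ev_add {ω : F[X]} {t t' : F} (hω : ω.natDegree + 1 ≤ M) (htt : t ≠ t')
    (h : ω.eval t ≠ 0) : ¬ Low M ω (ev M t + ev M t') := fun hl => by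
  have hd : (ω * (X - C t')).natDegree ≤ M :=
    natDegree_mul_le.trans (by rw [natDegree_X_sub_C]; exact hω)
  have := hl.2 _ hd
  rw [pair_add_left, pair_ev t hd, pair_ev t' hd] at this
  simp [h, sub_eq_zero, htt] at this

theorem ev_linearIndependent {ι : Type} [Fintype ι] (τ : ι → F) (hτ : Function.Injective τ)
    (hι : Fintype.card ι ≤ M + 1) : LinearIndependent F fun a => ev M (τ a) := by
  classical
  refine Fintype.linearIndependent_iff.2 fun g hg a => ?_
  have hd : (∏ b ∈ univ.erase a, (X - C (τ b))).natDegree ≤ M := by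
    rw [natDegree_prod_of_monic _ _ fun b _ => monic_X_sub_C _]
    simp only [natDegree_X_sub_C, sum_const, card_erase_of_mem (mem_univ a), card_univ,
      smul_eq_mul, mul_one]
    omega
  have := congrArg (fun z => pair z (∏ b ∈ univ.erase a, (X - C (τ b)))) hg
  simp only [pair_sum_left, pair_smul_left, pair_ev _ hd, pair_zero_left, eval_prod, eval_sub,
    eval_X, eval_C] at this
  rw [sum_eq_single a (fun b _ hb => mul_eq_zero_of_right _
    (prod_eq_zero (mem_erase.2 ⟨hb, mem_univ b⟩) (sub_self _))) (by simp)] at this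
  refine (mul_eq_zero.1 this).resolve_right (prod_ne_zero_iff.2 fun b hb => ?_)
  exact sub_ne_zero.2 fun h => (mem_erase.1 hb).1 (hτ h).symm

theorem XX_double {z : Y F M} (hz : z ∈ XX F M) (i : Fin (M + 1)) (hi : 2 * (i : ℕ) < M + 1) :
    z ⟨2 * i, hi⟩ = z i ^ 2 := by
  have := pair_sq hz (f := X ^ (i : ℕ)) (by rw [natDegree_X_pow]; omega)
  rw [pair_X_pow, ← pow_mul, mul_comm] at this
  rw [← this]
  exact (pair_X_pow z ⟨2 * i, hi⟩).symm

theorem linearIndependent_of_low {ω : F[X]} (hω : ω ≠ 0) (hM : 2 * ω.natDegree ≤ M) {ι : Type}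
    (r : ι → Y F M) (hr : LinearIndependent K r) (hl : ∀ l, Low M ω (r l)) :
    LinearIndependent F r := by
  classical
  haveI := charTwo_F (F := F)
  have hsq : ∀ a : F, ∃ b, b ^ 2 = a := fun a => by
    obtain ⟨b, hb⟩ := FiniteField.isSquare_of_char_two (ringChar.eq F 2) a
    exact ⟨b, by rw [hb, sq]⟩
  choose sq hsq using hsq
  have key : ∀ (s : Finset ι) (g : ι → F), ∑ i ∈ s, g i • r i = 0 →
      ∑ i ∈ s, sq (g i) • r i = 0 := fun s g hg => by
    have hk : Killed (∑ i ∈ s, sq (g i) • r i) ω M :=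
      (KS M ω M).sum_mem fun i _ => (KS M ω M).smul_mem _ (hl i).2
    funext j
    refine hk.eq_zero hω (by omega) (fun i hi => ?_) j (by omega)
    have h1 := congrFun hg ⟨2 * i, by omega⟩
    simp only [Finset.sum_apply, Pi.smul_apply, smul_eq_mul, Pi.zero_apply] at h1 ⊢
    refine pow_eq_zero_iff (n := 2) two_ne_zero |>.1 ?_
    rw [CharTwo.sum_sq, ← h1]
    exact sum_congr rfl fun l _ => by rw [mul_pow, hsq, XX_double (hl l).1]
  refine linearIndependent_iff'.2 fun s => ?_
  induction s using Finset.induction_on with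
  | empty => simp
  | insert a s ha ih =>
    have h1 : ∀ g : ι → F, ∑ i ∈ insert a s, g i • r i = 0 → g a ≠ 1 := fun g hg h1 => by
      have h2 := key _ g hg
      have h3 : sq 1 = 1 := by
        have := hsq 1
        rw [← sub_eq_zero, CharTwo.sub_eq_add, ← pow_eq_zero_iff (n := 2) two_ne_zero,
          CharTwo.add_sq, this, one_pow, CharTwo.add_self_eq_zero]
      have h4 : ∑ i ∈ s, (sq (g i) - g i) • r i = 0 := by
        rw [sum_insert ha, h1] at hg h2
        rw [h3] at h2
        simp only [sub_smul, sum_sub_distrib]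
        rw [sub_eq_zero, eq_neg_of_add_eq_zero_right hg, eq_neg_of_add_eq_zero_right h2]
      have h5 : ∀ i ∈ insert a s, g i = algebraMap K F (if g i = 0 then 0 else 1) := by
        intro i hi
        rcases mem_insert.1 hi with rfl | hi
        · simp [h1]
        · have h6 := sub_eq_zero.1 (ih _ h4 i hi)
          have h7 := hsq (g i)
          rw [h6, _root_.sq] at h7
          split_ifs with h0
          · simp [h0]
          · simpa using mul_left_cancel₀ h0 (h7.trans (mul_one _).symm)
      have h8 := linearIndependent_iff'.1 hr (insert a s) (fun i => if g i = 0 then 0 else 1)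
        (by rw [← hg]; exact sum_congr rfl fun i hi => by
              rw [← algebraMap_smul F, ← h5 i hi]) a (mem_insert_self _ _)
      simp [h1] at h8
    intro g hg
    have h2 : g a = 0 := by
      by_contra h2
      refine h1 (fun i => (g a)⁻¹ * g i) ?_ (inv_mul_cancel₀ h2)
      simp only [mul_smul, ← smul_sum, hg, smul_zero]
    rw [sum_insert ha, h2, zero_smul, zero_add] at hg
    exact forall_mem_insert _ _ _ |>.2 ⟨h2, ih g hg⟩

/-- `dim_K (Low ω) ≤ deg ω` -/
theorem card_le_of_low {ω : F[X]} (hω : ω ≠ 0) (hM : 2 * ω.natDegree ≤ M) {ι : Type} [Fintype ι]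
    (r : ι → Y F M) (hr : LinearIndependent K r) (hl : ∀ l, Low M ω (r l)) :
    Fintype.card ι ≤ ω.natDegree := by
  have h1 := linearIndependent_of_low hω hM r hr hl
  have h2 : LinearIndependent F fun l => fun i : Fin ω.natDegree => r l ⟨i, by omega⟩ := by
    refine Fintype.linearIndependent_iff.2 fun g hg => Fintype.linearIndependent_iff.1 h1 g ?_
    have hk : Killed (∑ i, g i • r i) ω M :=
      (KS M ω M).sum_mem fun i _ => (KS M ω M).smul_mem _ (hl i).2
    funext j
    refine hk.eq_zero hω (by omega) (fun i hi => ?_) j (by omega)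
    simpa using congrFun hg ⟨i, hi⟩
  simpa using h2.fintype_card_le_finrank

theorem ncard_low_le {ω : F[X]} (hω : ω ≠ 0) (hM : 2 * ω.natDegree ≤ M) :
    Nat.card {z : Y F M // Low M ω z} ≤ 2 ^ ω.natDegree := by
  haveI : Module.Finite K (LS M ω) := Module.Finite.of_finite
  have h1 : Nat.card (LS M ω) = Nat.card K ^ Module.finrank K (LS M ω) :=
    Module.natCard_eq_pow_finrank
  have h2 := card_le_of_low hω hM (fun l => (Module.finBasis K (LS M ω) l).1)
    ((Module.finBasis K (LS M ω)).linearIndependent.map' (LS M ω).subtype (by simp))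
    fun l => (Module.finBasis K (LS M ω) l).2
  rw [Nat.card_zmod] at h1
  refine h1.le.trans (Nat.pow_le_pow_right (by norm_num) (by simpa using h2))

theorem card_lowRk {R : ℕ} (hR : 2 * R ≤ e) :
    Nat.card {z : Y F (4 * e) // LowRk e R z} ≤ Fintype.card F ^ (6 * R + 1) := by
  have h := fun z : {z : Y F (4 * e) // LowRk e R z} => exists_omega hR (Ker e z.1) z.2
  choose ω h0 hd hk using h
  let f : {z : Y F (4 * e) // LowRk e R z} → Y F (2 * R) × (Fin (2 * R) → F) × (Fin (2 * R) → F) :=
    fun z => (cfs (2 * R) (ω z), fun i => z.1 ⟨i, by omega⟩, fun i => z.1 ⟨4 * e - i, by omega⟩)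
  have hf : Function.Injective f := fun z z' hz => by
    obtain ⟨h1, h2⟩ := Prod.mk.inj hz
    obtain ⟨h2, h3⟩ := Prod.mk.inj h2
    have h4 : ω z = ω z' := by rw [← poly_cfs (hd z), h1, poly_cfs (hd z')]
    have h5 : Killed (z.1 - z'.1) (ω z) (4 * e - 2 * R) :=
      (KS _ (ω z) (4 * e - 2 * R)).sub_mem (hk z z.1 le_rfl).1
        (by rw [h4]; exact (hk z' z'.1 le_rfl).1)
    have h6 := hd z
    refine Subtype.ext (funext fun i => ?_)
    by_cases hi : (i : ℕ) ≤ 4 * e - 2 * R
    · exact sub_eq_zero.1 (h5.eq_zero (h0 z) (by omega)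
        (fun j hj => sub_eq_zero.2 (congrFun h2 ⟨j, by omega⟩)) i hi)
    · have := congrFun h3 ⟨4 * e - i, by omega⟩
      have hi' : 4 * e - (4 * e - i) = i := by omega
      simpa [hi'] using this
  refine (Nat.card_le_card_of_injective f hf).trans (le_of_eq ?_)
  simp only [Nat.card_eq_fintype_card, Fintype.card_prod, Fintype.card_fun, Fintype.card_fin]
  ring

theorem pair_mul_of_killed {z : Y F M} {w g : F[X]} {t : F} {N : ℕ}
    (hz : Killed z (w * (X - C t)) N) (hw : w.natDegree ≤ N) (hg : (w * g).natDegree ≤ N) :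
    pair z (w * g) = g.eval t * pair z w := by
  obtain ⟨q, hq⟩ := X_sub_C_dvd_sub_C_eval (a := t) (p := g)
  have h1 : w * (X - C t) * q = w * g - g.eval t • w := by
    rw [mul_assoc, ← hq, smul_eq_C_mul]; ring
  have h2 := hz q (by
    rw [h1]
    exact (natDegree_sub_le _ _).trans (max_le hg ((natDegree_smul_le _ _).trans hw)))
  rw [h1] at h2
  have h3 := map_sub (pairL z) (w * g) (g.eval t • w)
  change pair z _ = pair z _ - pair z _ at h3
  rw [h2, pair_smul_right] at h3
  exact sub_eq_zero.1 h3.symm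

theorem one_label {z : Y F M} (hz : z ∈ XX F M) {ω : F[X]} (hω : ω ≠ 0) {N : ℕ} (hN : N ≤ M)
    (hd : 2 * ω.natDegree ≤ N) (hk : Killed z ω N) (t : F) :
    ∃ (ε : K) (w : F[X]), w ∣ ω ∧ w.eval t ≠ 0 ∧ Killed (z + ε • ev M t) w N := by
  haveI := charTwo_F (F := F)
  obtain ⟨w, hw, hw'⟩ := exists_eq_pow_rootMultiplicity_mul_and_not_dvd ω hω t
  generalize rootMultiplicity t ω = m at hw
  have hwt : w.eval t ≠ 0 := fun h => hw' (dvd_iff_isRoot.2 h)
  have hw0 : w ≠ 0 := by rintro rfl; simp at hwt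
  have hA : ∀ m, 2 * (w.natDegree + m) ≤ N → Killed z (w * (X - C t) ^ m) N →
      Killed z (w * (X - C t)) N := by
    intro m
    induction m with
    | zero => exact fun _ h => h.of_dvd ⟨X - C t, by simp⟩
    | succ m ih =>
      intro h1 h2
      rcases Nat.eq_zero_or_pos m with rfl | hm
      · simpa using h2
      refine ih (by omega) fun g hg => ?_
      have h3 : (w * (X - C t) ^ m).natDegree ≤ w.natDegree + m :=
        natDegree_mul_le.trans (by simp [natDegree_pow])
      rw [pow_succ, ← mul_assoc] at h2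
      have h4 : pair z (w * (X - C t) ^ m) = 0 := by
        have h5 := pair_mul_of_killed h2 (g := w * (X - C t) ^ m) (by omega)
          (natDegree_mul_le.trans (by omega))
        rw [← _root_.sq, pair_sq hz (by omega)] at h5
        simpa [hm.ne'] using h5
      rw [pair_mul_of_killed h2 (by omega) hg, h4, mul_zero]
  have hdeg : ω.natDegree = w.natDegree + m := by
    rw [hw, natDegree_mul (pow_ne_zero _ (X_sub_C_ne_zero t)) hw0]
    simp [natDegree_pow, add_comm]
  have hB := hA m (by omega) (by rwa [mul_comm, ← hw])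
  have h1 := pair_mul_of_killed hB (g := w) (by omega) (natDegree_mul_le.trans (by omega))
  rw [← _root_.sq, pair_sq hz (by omega), _root_.sq] at h1
  have hdvd : w ∣ ω := ⟨(X - C t) ^ m, by rw [hw, mul_comm]⟩
  by_cases h2 : pair z w = 0
  · refine ⟨0, w, hdvd, hwt, fun g hg => ?_⟩
    rw [zero_smul, add_zero, pair_mul_of_killed hB (by omega) hg, h2, mul_zero]
  · refine ⟨1, w, hdvd, hwt, fun g hg => ?_⟩
    rw [one_smul, pair_add_left, pair_mul_of_killed hB (by omega) hg, mul_right_cancel₀ h2 h1,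
      pair_ev t (hg.trans hN), eval_mul, mul_comm, CharTwo.add_self_eq_zero]

theorem finrank_le_inf_ker {V W : Type} [AddCommGroup V] [Module F V] [AddCommGroup W] [Module F W]
    [FiniteDimensional F V] [FiniteDimensional F W] (S : Submodule F V) (φ : V →ₗ[F] W) :
    Module.finrank F S ≤ Module.finrank F (S ⊓ LinearMap.ker φ : Submodule F V) +
      Module.finrank F W := by
  have h1 := LinearMap.finrank_range_add_finrank_ker (φ.domRestrict S)
  rw [LinearMap.ker_domRestrict, ← Submodule.finrank_map_subtype_eq,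
    Submodule.map_comap_subtype] at h1
  have h2 := Submodule.finrank_le (LinearMap.range (φ.domRestrict S))
  omega

/-- evaluation of coefficient vectors -/
noncomputable def evL (M : ℕ) (t : F) : Y F M →ₗ[F] F := (leval t).comp (polyL M)

theorem evL_apply (t : F) (a : Y F M) : evL M t a = (poly a).eval t := rfl

/-- local lemma: remove two given labels from the support of a low rank moment vector -/
theorem local_lemma {R : ℕ} (hR : 6 * R + 6 ≤ e) {z : Y F (4 * e)} (hz : z ∈ XX F (4 * e))
    (hl : LowRk e R z) {t t' : F} (htt : t ≠ t') :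
    ∃ ε ε' : K, LowRk e (R + 2) (z + ε • ev (4 * e) t + ε' • ev (4 * e) t') ∧
      (∃ a ∈ Ker e (z + ε • ev (4 * e) t + ε' • ev (4 * e) t'),
        (poly a).eval t ≠ 0 ∧ (poly a).eval t' = 0) ∧
      (∃ a ∈ Ker e (z + ε • ev (4 * e) t + ε' • ev (4 * e) t'),
        (poly a).eval t = 0 ∧ (poly a).eval t' ≠ 0) := by
  obtain ⟨ω, h0, hd, hk⟩ := exists_omega (by omega) (Ker e z) hl
  obtain ⟨ε, w, hw, hwt, hk1⟩ := one_label hz h0 (Nat.sub_le _ _) (by omega) (hk z le_rfl).1 t
  have hw0 : w ≠ 0 := by rintro rfl; simp at hwt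
  have hwd := natDegree_le_of_dvd hw h0
  obtain ⟨ε', w', hw', hwt', hk2⟩ := one_label
    (add_mem hz (Submodule.smul_mem _ _ (ev_mem t))) hw0 (Nat.sub_le _ _) (by omega) hk1 t'
  have hwd' := natDegree_le_of_dvd hw' hw0
  have hwt'' : w'.eval t ≠ 0 := fun h => hwt (eval_eq_zero_of_dvd_of_eval_eq_zero hw' h)
  have hmem : ∀ s : F, ∃ a ∈ Ker e (z + ε • ev (4 * e) t + ε' • ev (4 * e) t'),
      poly a = w' * (X - C s) := fun s => by
    have h1 : (w' * (X - C s)).natDegree ≤ 2 * R + 1 :=
      natDegree_mul_le.trans (by rw [natDegree_X_sub_C]; omega)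
    refine ⟨cfs e (w' * (X - C s)), fun g hg => ?_, poly_cfs (by omega)⟩
    rw [poly_cfs (by omega), mul_assoc]
    refine hk2 _ ?_
    rw [← mul_assoc]
    exact natDegree_mul_le.trans (by omega)
  refine ⟨ε, ε', ?_, ?_, ?_⟩
  · have h1 := finrank_le_inf_ker (Ker e z) ((evL e t).prod (evL e t'))
    have h2 : Ker e z ⊓ LinearMap.ker ((evL e t).prod (evL e t')) ≤
        Ker e (z + ε • ev (4 * e) t + ε' • ev (4 * e) t') := by
      rintro a ⟨ha, ha'⟩ g hg
      have h3 : (poly a * g).natDegree ≤ 4 * e :=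
        natDegree_mul_le.trans (by have := poly_natDegree_le a; omega)
      have h4 : (poly a).eval t = 0 := congrArg Prod.fst (LinearMap.mem_ker.1 ha')
      have h5 : (poly a).eval t' = 0 := congrArg Prod.snd (LinearMap.mem_ker.1 ha')
      rw [pair_add_left, pair_add_left, pair_K_smul, pair_K_smul, ha g hg, pair_ev _ h3,
        pair_ev _ h3, eval_mul, eval_mul, h4, h5]
      simp
    have h3 := Submodule.finrank_mono h2
    have h4 : Module.finrank F (F × F) = 2 := by simp
    have h5 : e + 1 ≤ _ := hl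
    change e + 1 ≤ _
    omega
  · obtain ⟨a, ha, ha'⟩ := hmem t'
    exact ⟨a, ha, by simp [ha', hwt'', sub_eq_zero, htt], by simp [ha']⟩
  · obtain ⟨a, ha, ha'⟩ := hmem t
    exact ⟨a, ha, by simp [ha'], by simp [ha', hwt', sub_eq_zero, htt.symm]⟩

theorem choose_le_card_XX {m : ℕ} (hm : 2 * m ≤ M + 1) :
    (Fintype.card F).choose m ≤ Fintype.card (XX F M) := by
  classical
  have key : ∀ s s' : Finset F, s.card = m → s'.card = m →
      ∑ t ∈ s, ev M t = ∑ t ∈ s', ev M t → s ⊆ s' := fun s s' hs hs' h a ha => by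
    by_contra ha'
    have hd : (∏ b ∈ s.erase a ∪ s', (X - C b)).natDegree ≤ M := by
      rw [natDegree_prod_of_monic _ _ fun b _ => monic_X_sub_C _]
      simp only [natDegree_X_sub_C, sum_const, smul_eq_mul, mul_one]
      have h1 := card_union_le (s.erase a) s'
      have h2 := card_erase_of_mem ha
      have h3 := card_pos.2 ⟨a, ha⟩
      omega
    have := congrArg (fun z => pair z (∏ b ∈ s.erase a ∪ s', (X - C b))) h
    simp only [pair_sum_left, pair_ev _ hd, eval_prod, eval_sub, eval_X, eval_C] at this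
    rw [sum_eq_single a (fun b hb hba =>
      prod_eq_zero (mem_union_left _ (mem_erase.2 ⟨hba, hb⟩)) (sub_self _)) (fun h => absurd ha h),
      sum_eq_zero fun b hb => prod_eq_zero (mem_union_right _ hb) (sub_self _)] at this
    refine prod_ne_zero_iff.2 (fun b hb => sub_ne_zero.2 ?_) this
    rintro rfl
    simp [ha'] at hb
  rw [← card_univ, ← card_powersetCard, ← card_univ]
  refine card_le_card_of_injOn (fun s => ⟨∑ t ∈ s, ev M t, sum_mem fun t _ => ev_mem t⟩)
    (fun _ _ => mem_coe.2 (mem_univ _)) fun s hs s' hs' h => ?_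
  have h1 := (mem_powersetCard.1 hs).2
  have h2 := (mem_powersetCard.1 hs').2
  have h3 := congrArg Subtype.val h
  exact subset_antisymm (key s s' h1 h2 h3) (key s' s h2 h1 h3.symm)

theorem card_XX_le : Fintype.card (XX F M) ≤ Fintype.card F ^ (M + 1) := by
  simpa using Fintype.card_le_of_injective (Subtype.val : XX F M → Y F M) Subtype.val_injective

end Vale.Agent.P060
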