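import Vale.Agent.P060.SelCore
import Vale.Agent.P060.Low

namespace Vale.Agent.P060

open Finset Polynomial Filter
open scoped BigOperators

/-! ### abstract counting lemmas -/

theorem expect_add_left_sel {N : Type*} [AddCommGroup N] [Fintype N] (g : N → ℝ) (x : N) :
    𝔼 c, g (x + c) = 𝔼 c, g c := expect_equiv' (Equiv.addLeft x) g

theorem cube_freq_sel {N : Type*} [AddCommGroup N] [Fintype N] (Q : N → K)
    (hQ : ∀ a b c, Q 0 + Q a + Q b + Q c + Q (a + b) + Q (a + c) + Q (b + c) + Q (a + b + c) = 0) :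
    (1 : ℝ) / 7 ≤ 𝔼 n, ind (Q n = Q 0) := by
  set g : N → ℝ := fun n => ind (Q n = Q 0) with hg
  have hpt : ∀ a b c, (1 : ℝ) ≤
      g a + g b + g c + g (a + b) + g (a + c) + g (b + c) + g (a + b + c) := by
    intro a b c
    have h0 : ∀ n, 0 ≤ g n := fun n => ind_nonneg _
    have h1 : ∀ n, Q n = Q 0 → g n = 1 := fun n hn => ind_pos hn
    have key : ∀ x₀ x₁ x₂ x₃ x₄ x₅ x₆ x₇ : K, x₀ + x₁ + x₂ + x₃ + x₄ + x₅ + x₆ + x₇ = 0 →
        x₁ = x₀ ∨ x₂ = x₀ ∨ x₃ = x₀ ∨ x₄ = x₀ ∨ x₅ = x₀ ∨ x₆ = x₀ ∨ x₇ = x₀ := by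
      intro x₀ x₁ x₂ x₃ x₄ x₅ x₆ x₇ hx
      have hne : ∀ x y : K, x ≠ y → x = y + 1 := by decide
      by_contra hn
      push Not at hn
      obtain ⟨a1, a2, a3, a4, a5, a6, a7⟩ := hn
      rw [hne _ _ a1, hne _ _ a2, hne _ _ a3, hne _ _ a4, hne _ _ a5, hne _ _ a6,
        hne _ _ a7] at hx
      have h8 : ∀ x : K, x + (x + 1) + (x + 1) + (x + 1) + (x + 1) + (x + 1) + (x + 1) +
          (x + 1) ≠ 0 := by decide
      exact h8 _ hx
    have := h0 a
    have := h0 b
    have := h0 c
    have := h0 (a + b)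
    have := h0 (a + c)
    have := h0 (b + c)
    have := h0 (a + b + c)
    rcases key _ _ _ _ _ _ _ _ (hQ a b c) with h | h | h | h | h | h | h <;>
      have := h1 _ h <;> linarith
  have h7 : 𝔼 a, 𝔼 b, 𝔼 c, (g a + g b + g c + g (a + b) + g (a + c) + g (b + c) +
      g (a + b + c)) = 7 * 𝔼 n, g n := by
    simp only [expect_add_distrib, expect_add_left_sel, Fintype.expect_const]
    ring
  have h1 : 𝔼 _a : N, 𝔼 _b : N, 𝔼 _c : N, (1 : ℝ) ≤ 7 * 𝔼 n, g n := by
    rw [← h7]
    exact expect_mono fun a => expect_mono fun b => expect_mono fun c => hpt a b c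
  simp only [Fintype.expect_const] at h1
  linarith

theorem expect_coset_sel {D : Type*} [AddCommGroup D] [Module K D] [Fintype D]
    (N : Submodule K D) [Fintype N] (d₀ : D) (g : D → ℝ) :
    𝔼 d, ind (d₀ + d ∈ N) * g d =
      (Fintype.card N / Fintype.card D : ℝ) * 𝔼 n : N, g (d₀ + n) := by
  classical
  rw [← expect_add_left_sel _ d₀]
  simp only [← add_assoc, add_self_K, zero_add]
  rw [expect_eq_sum_div, expect_eq_sum_div]
  have hN : (Fintype.card N : ℝ) ≠ 0 := by positivity
  have : ∑ d, ind (d ∈ N) * g (d₀ + d) = ∑ n : N, g (d₀ + n) := by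
    rw [← Finset.sum_subtype (univ.filter (· ∈ N)) (p := (· ∈ N)) (by simp)
      (fun d => g (d₀ + d)), sum_filter]
    refine sum_congr rfl fun d _ => ?_
    by_cases hd : d ∈ N
    · rw [ind_pos hd, if_pos hd, one_mul]
    · rw [ind_neg hd, if_neg hd, zero_mul]
  rw [this]
  field_simp

theorem expect_ker_ge_sel {G H : Type*} [AddCommGroup G] [AddCommGroup H] [Fintype G] [Fintype H]
    (f : G →+ H) : 1 / (Fintype.card H : ℝ) ≤ 𝔼 x, ind (f x = 0) := by
  classical
  have h := expect_addHom f.rangeRestrict f.rangeRestrict_surjective fun z => ind (z = 0)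
  rw [expect_ind_eq] at h
  have h2 : 𝔼 x, ind (f x = 0) = 𝔼 x, ind (f.rangeRestrict x = 0) :=
    expect_congr rfl fun x _ => ind_congr
      ⟨fun hx => Subtype.ext hx, fun hx => congrArg Subtype.val hx⟩
  rw [h2, h]
  have h3 : (Fintype.card f.range : ℝ) ≤ Fintype.card H := by
    exact_mod_cast Fintype.card_subtype_le _
  exact one_div_le_one_div_of_le (by positivity) h3

theorem chi_cube_sel {h : ℕ} (x a b c : GG h) :
    chi x + chi (x + a) + chi (x + b) + chi (x + c) + chi (x + (a + b)) + chi (x + (a + c)) +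
      chi (x + (b + c)) + chi (x + (a + b + c)) = 0 := by
  simp only [chi_add, BB_add_left, BB_add_right]
  linear_combination (exp := 1) (4 * chi x + 2 * chi a + 2 * chi b + 2 * chi c + 2 * BB x a +
    2 * BB x b + 2 * BB x c + BB a b + BB a c + BB b c) * (K_add_self 1)

variable {F : Type} [Field F] [Fintype F] [Algebra K F] {e n h M : ℕ}

variable (F) in
/-- even moment vectors -/
noncomputable def DD (M : ℕ) : Submodule K (Y F M) := XX F M ⊓ LinearMap.ker par

noncomputable instance (M : ℕ) : Fintype (DD F M) := Fintype.ofFinite _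

omit [Fintype F] in
theorem ev_add_mem_DD (t t' : F) : ev M t + ev M t' ∈ DD F M :=
  ⟨add_mem (ev_mem t) (ev_mem t'), by simp⟩

omit [Fintype F] in
theorem const_on_XX (φ : Y F M →ₗ[K] K) (k : K) (hk : ∀ t, φ (ev M t) = k) {z : Y F M}
    (hz : z ∈ XX F M) : φ z = k * par z := by
  induction hz using Submodule.span_induction with
  | mem x hx => obtain ⟨t, rfl⟩ := hx; rw [hk, par_ev, mul_one]
  | zero => simp
  | add x y _ _ hx hy => rw [map_add, map_add, hx, hy, mul_add]
  | smul a x _ hx => rw [map_smul, map_smul, hx, smul_eq_mul, smul_eq_mul, mul_left_comm]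

theorem char_equidist_sel {β : ℝ} (hβ : 0 ≤ β) (hW : Weil F M β) (φ : Y F M →ₗ[K] K) (t₀ : F) :
    |(𝔼 t, sgn (φ (ev M t))) - 𝔼 d : DD F M, sgn (φ (ev M t₀ + d))| ≤ β := by
  by_cases hc : ∃ k, ∀ t, φ (ev M t) = k
  · obtain ⟨k, hk⟩ := hc
    have : ∀ d : DD F M, φ (ev M t₀ + d) = k := fun d => by
      have h2 : par (d : Y F M) = 0 := d.2.2
      rw [map_add, hk, const_on_XX φ k hk d.2.1, h2, mul_zero, add_zero]
    simp only [hk, this, Fintype.expect_const, sub_self, abs_zero, hβ]
  · have h1 := (hW (fun t => φ (ev M t)) ⟨φ, fun _ => rfl⟩).resolve_left hc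
    have h2 : φ ∘ₗ (DD F M).subtype ≠ 0 := by
      intro h0
      refine hc ⟨φ (ev M t₀), fun t => ?_⟩
      have := LinearMap.congr_fun h0 ⟨_, ev_add_mem_DD t t₀⟩
      simp only [LinearMap.comp_apply, Submodule.subtype_apply, map_add,
        LinearMap.zero_apply] at this
      exact add_eq_zero_K.mp this
    have h3 := expect_sgn_linear (φ ∘ₗ (DD F M).subtype)
    rw [ind_neg h2] at h3
    simp only [map_add, sgn_add, ← mul_expect]
    simp only [LinearMap.comp_apply, Submodule.subtype_apply] at h3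
    rw [h3, mul_zero, sub_zero]
    exact h1

/-- the pairing of families of vectors -/
def dotJ {J : Type} [Fintype J] (a : J → GG h) : (J → GG h) →ₗ[K] K where
  toFun w := ∑ j, a j ⬝ᵥ w j
  map_add' w w' := by simp [sum_add_distrib]
  map_smul' c w := by simp [mul_sum]

theorem equidist_sel {β : ℝ} (hβ : 0 ≤ β) (hW : Weil F M β) {J : Type} [Fintype J]
    [DecidableEq J] (T : Y F M →ₗ[K] (J → GG h)) (t₀ : F) (f : (J → GG h) → ℝ)
    (hf : ∀ w, |f w| ≤ 1) :
    |(𝔼 t, f (T (ev M t))) - 𝔼 d : DD F M, f (T (ev M t₀ + d))| ≤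
      Fintype.card (J → GG h) * β := by
  have hinv := fourier_inv (fun a w : J → GG h => dotJ a w)
    (fun a a' w => by simp [dotJ, sum_add_distrib]) (fun a w w' => map_add _ _ _)
    (fun w hw => by
      funext j k
      have := hw (Pi.single j (Pi.single k 1))
      simp only [dotJ, LinearMap.coe_mk, AddHom.coe_mk] at this
      rw [sum_eq_single j (fun b _ hb => by simp [hb]) (by simp)] at this
      simpa using this) f
  set c : (J → GG h) → ℝ := fun a => 𝔼 w', f w' * sgn (dotJ a w') with hc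
  have hc1 : ∀ a, |c a| ≤ 1 := fun a =>
    (abs_expect_le' _).trans (expect_le_const zero_le_one fun w => by
      rw [abs_mul, abs_sgn, mul_one]; exact hf w)
  have h1 : 𝔼 t, f (T (ev M t)) = ∑ a, c a * 𝔼 t, sgn ((dotJ a ∘ₗ T) (ev M t)) := by
    simp only [mul_expect]
    rw [← expect_sum_comm]
    exact expect_congr rfl fun t _ => hinv _
  have h2 : 𝔼 d : DD F M, f (T (ev M t₀ + d)) =
      ∑ a, c a * 𝔼 d : DD F M, sgn ((dotJ a ∘ₗ T) (ev M t₀ + d)) := by
    simp only [mul_expect]
    rw [← expect_sum_comm]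
    exact expect_congr rfl fun t _ => hinv _
  rw [h1, h2, ← sum_sub_distrib]
  refine (abs_sum_le_sum_abs _ _).trans ?_
  rw [← card_univ, ← nsmul_eq_mul]
  refine sum_le_card_nsmul _ _ _ fun a _ => ?_
  rw [← mul_sub, abs_mul]
  calc _ ≤ 1 * β := mul_le_mul (hc1 a) (char_equidist_sel hβ hW _ t₀) (abs_nonneg _) zero_le_one
    _ = β := one_mul β

/-- frequency of a value of the quadratic function among selected labels -/
theorem freq_sel {β : ℝ} (hβ : 0 ≤ β) (hW : Weil F M β) {m : ℕ}
    (T : Y F M →ₗ[K] (Option (Option (Fin m)) → GG h)) (ρ : Fin m → GG h) (v : GG h)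
    (hsm : 63 * (Fintype.card (Option (Option (Fin m)) → GG h) : ℝ) ^ 2 * β ≤ 1)
    {z : Y F M} (hz : z ∈ XX F M) (hp : par z = 1) (h1 : ∀ l, T z (some (some l)) = ρ l)
    (h2 : chi (T z (some none) + v) = chi (T z (some none))) :
    (1 : ℝ) / 8 ≤ (𝔼 t, ind ((∀ l, T (ev M t) (some (some l)) = ρ l) ∧
        chi (T (ev M t) (some none) + v) = chi (T (ev M t) (some none))) *
        ind (chi (T (ev M t) none) + chi (T (ev M t) (some none)) =
          chi (T z none) + chi (T z (some none)))) /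
      𝔼 t, ind ((∀ l, T (ev M t) (some (some l)) = ρ l) ∧
        chi (T (ev M t) (some none) + v) = chi (T (ev M t) (some none))) := by
  classical
  obtain ⟨W, hWdef⟩ : ∃ W : ℝ, W = (Fintype.card (Option (Option (Fin m)) → GG h) : ℝ) :=
    ⟨_, rfl⟩
  rw [← hWdef] at hsm
  have hW0 : 0 < W := by rw [hWdef]; positivity
  let P : (Option (Option (Fin m)) → GG h) → Prop := fun w =>
    (∀ l, w (some (some l)) = ρ l) ∧ chi (w (some none) + v) = chi (w (some none))
  let q : (Option (Option (Fin m)) → GG h) → K := fun w => chi (w none) + chi (w (some none))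
  have e1 := equidist_sel hβ hW T 0 (fun w => ind (P w)) fun w => abs_ind_le _
  have e2 := equidist_sel hβ hW T 0 (fun w => ind (P w) * ind (q w = q (T z))) fun w => by
    rw [← ind_and]; exact abs_ind_le _
  rw [← hWdef] at e1 e2
  let d₀ : DD F M := ⟨ev M 0 + z, add_mem (ev_mem 0) hz, by simp [hp]⟩
  have hd₀ : ev M 0 + (d₀ : Y F M) = z := by
    change ev M 0 + (ev M 0 + z) = z
    rw [← add_assoc, add_self_K, zero_add]
  let N : Submodule K (DD F M) :=
    { carrier := {d | (∀ l, T d (some (some l)) = 0) ∧ BB (T d (some none)) v = 0}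
      add_mem' := fun {a b} ha hb => ⟨fun l => by simp [ha.1 l, hb.1 l],
        by simp [BB_add_left, ha.2, hb.2]⟩
      zero_mem' := by simp
      smul_mem' := fun c a ha => ⟨fun l => by simp [ha.1 l], by simp [BB_smul_left, ha.2]⟩ }
  have hsum : ∀ d : DD F M, T (ev M (0 : F) + d) = T z + T (d₀ + d : DD F M) := fun d => by
    rw [← map_add, ← hd₀, Submodule.coe_add]
    congr 1
    rw [add_assoc, ← add_assoc (d₀ : Y F M), add_self_K, zero_add]
  have hP : ∀ d : DD F M, P (T (ev M (0 : F) + d)) ↔ d₀ + d ∈ N := by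
    intro d
    rw [hsum]
    change (∀ l, _ = ρ l) ∧ _ ↔ (∀ l, _ = 0) ∧ _ = 0
    refine and_congr (forall_congr' fun l => ?_) ?_
    · rw [Pi.add_apply, h1, add_eq_left]
    · rw [chi_add _ v, add_assoc, add_eq_left] at h2 ⊢
      rw [Pi.add_apply, BB_add_left, ← add_assoc, h2, zero_add]
  have f1 := expect_coset_sel N d₀ fun _ => 1
  have f2 := expect_coset_sel N d₀ fun d => ind (q (T (ev M (0 : F) + d)) = q (T z))
  simp only [mul_one, Fintype.expect_const] at f1
  set p : ℝ := Fintype.card N / Fintype.card (DD F M) with hpdef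
  have hsh : ∀ x : N, T (ev M (0 : F) + (d₀ + x : DD F M)) = T z + T (x : DD F M) := fun x => by
    rw [hsum, ← add_assoc, add_self_K, zero_add]
  simp only [hsh] at f2
  have f3 := cube_freq_sel (fun x : N => q (T z + T (x : DD F M))) fun a b c => by
    simp only [q, Submodule.coe_add, Submodule.coe_zero, map_add, map_zero, add_zero,
      Pi.add_apply]
    linear_combination (exp := 1) chi_cube_sel (T z none) (T (a : DD F M) none)
      (T (b : DD F M) none) (T (c : DD F M) none) + chi_cube_sel (T z (some none))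
      (T (a : DD F M) (some none)) (T (b : DD F M) (some none)) (T (c : DD F M) (some none))
  simp only [Submodule.coe_zero, map_zero, add_zero] at f3
  have f4 : 1 / W ≤ p := by
    rw [← f1, ← expect_add_left_sel _ d₀, hWdef]
    simp only [← add_assoc, add_self_K, zero_add]
    refine (expect_ker_ge_sel (T ∘ₗ (DD F M).subtype).toAddMonoidHom).trans
      (expect_mono fun d => ind_mono fun hd => ?_)
    have hd' : T d = 0 := hd
    exact ⟨fun l => by rw [hd']; rfl, by rw [hd']; exact BB_zero_left v⟩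
  simp only [ind_congr (hP _)] at e1 e2
  rw [f1] at e1
  rw [f2] at e2
  have hε : 63 * (W * β) ≤ p := by
    refine le_trans ?_ f4
    rw [le_div_iff₀ hW0]
    nlinarith
  have hp0 : 0 < p := lt_of_lt_of_le (by positivity) f4
  have g1 := abs_le.mp e1
  have g2 := abs_le.mp e2
  have g3 := mul_le_mul_of_nonneg_left f3 hp0.le
  rw [le_div_iff₀ (by linarith)]
  linarith

theorem surj_rows_sel {r : ℕ} {γ : ℝ} (hγ : γ < 1) {x : Vtx F e n h}
    (hx : NotBad r γ x fun _ => 1) {ω : F[X]} (hω : ω ≠ 0) (hr : ω.natDegree ≤ r) {ι : Type}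
    [Fintype ι] (rr : ι → Y F (3 * e)) (hli : LinearIndependent K rr)
    (hlow : ∀ o, Low (3 * e) ω (rr o)) (w : ι → GG h) :
    ∃ z ∈ XX F (4 * e), par z = 1 ∧ ∀ o, x.T (rr o) (trunc e z) = w o := by
  classical
  let T : Y F (4 * e) →ₗ[K] (ι → GG h) :=
    LinearMap.pi fun o => x.T (rr o) ∘ₗ (trunc e).restrictScalars K
  have hT : ∀ z o, T z o = x.T (rr o) (trunc e z) := fun _ _ => rfl
  have htop : (DD F (4 * e)).map T = ⊤ := by
    by_contra hne
    obtain ⟨φ, hφ0, hφ⟩ := Submodule.exists_le_ker_of_lt_top _ (lt_top_iff_ne_top.mpr hne)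
    let α : ι → Ix h → K := fun o k => φ (Pi.single o (Pi.single k 1))
    have hφα : ∀ w, φ w = ∑ k, ∑ o, α o k * w o k := by
      intro w
      rw [sum_comm]
      conv_lhs => rw [← Finset.univ_sum_single w]
      rw [map_sum]
      refine sum_congr rfl fun o _ => ?_
      conv_lhs => rw [← Finset.univ_sum_single (w o)]
      have : ∀ u : GG h, φ (Pi.single o u) = (φ ∘ₗ LinearMap.single K (fun _ => GG h) o) u :=
        fun _ => rfl
      rw [this, map_sum]
      refine sum_congr rfl fun k _ => ?_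
      rw [show (Pi.single k (w o k) : GG h) = w o k • Pi.single k 1 by
        rw [← Pi.single_smul, smul_eq_mul, mul_one], map_smul, smul_eq_mul, mul_comm]
      rfl
    let ρ : Ix h → Y F (3 * e) := fun k => ∑ o, α o k • rr o
    have hρ : ρ ≠ 0 := by
      intro h0
      apply hφ0
      ext1 o
      ext1 k
      have := Fintype.linearIndependent_iff.mp hli (fun o => α o k) (congrFun h0 k) o
      ext
      exact this
    have hρl : ∀ k, Low (3 * e) ω (ρ k) := fun k =>
      low_span (s := Set.range rr) (by rintro _ ⟨o, rfl⟩; exact hlow o)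
        (Submodule.sum_mem _ fun o _ => Submodule.smul_mem _ _ (Submodule.subset_span ⟨o, rfl⟩))
    have hown : ∀ t, ownChar x 0 0 ρ t = φ (T (ev (4 * e) t)) := by
      intro t
      rw [hφα]
      simp only [ownChar, zero_dotProduct, zero_add, row, ρ, map_sum, map_smul,
        LinearMap.sum_apply, LinearMap.smul_apply, Finset.sum_apply, Pi.smul_apply, smul_eq_mul,
        hT, trunc_ev]
    refine (hx ω hω hr 0 0 ρ hρl (Or.inr (Or.inr hρ))).1 ?_
    have hconst : ∀ t, ownChar x 0 0 ρ t = φ (T (ev (4 * e) 0)) := by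
      intro t
      have := hφ ⟨_, ev_add_mem_DD t 0, rfl⟩
      rw [LinearMap.mem_ker, map_add, map_add] at this
      rw [hown, add_eq_zero_K.mp this]
    simp only [Corr, hconst, mul_one, Fintype.expect_const, abs_sgn, hγ]
  obtain ⟨d, hd, hd'⟩ : w + T (ev (4 * e) 0) ∈ (DD F (4 * e)).map T := htop ▸ Submodule.mem_top
  have hd2 : par d = 0 := hd.2
  refine ⟨d + ev (4 * e) 0, add_mem hd.1 (ev_mem 0), by simp [hd2], fun o => ?_⟩
  rw [← hT, map_add, hd', add_assoc, add_self_K, add_zero]

end Vale.Agent.P060
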