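import Vale.Agent.P060.WeilAux

namespace Vale.Agent.P060

open Finset Polynomial Filter
open scoped BigOperators

variable {F : Type} [Field F] [Fintype F] [Algebra K F] {e n h M : ℕ}

theorem bf_inj {d : ℕ} (hd : Odd d) {s t : Bool} {i j : ℕ}
    (h : (2 * i + if s then d else 0) = 2 * j + if t then d else 0) : s = t ∧ i = j := by
  obtain ⟨g, rfl⟩ := hd
  cases s <;> cases t <;> simp at h ⊢ <;> omega

theorem stepanov (κ : ℕ) (hq : Fintype.card F = 4 ^ κ) (f : F[X]) (hd : Odd f.natDegree)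
    (hM : (f.natDegree + 1) ^ 2 ≤ 2 ^ κ) (S : Finset F)
    (hS : ∀ x ∈ S, ∃ y, y * y = f.eval x + y) :
    2 * S.card ≤ 4 ^ κ + 2 * f.natDegree * 2 ^ κ := by
  classical
  have : CharP F 2 := charTwo_F
  have : Fact (Nat.Prime 2) := ⟨Nat.prime_two⟩
  obtain ⟨g, hg⟩ := id hd
  obtain ⟨h, hh⟩ : ∃ h, 2 ^ κ = 2 * h := by
    cases κ with
    | zero => rw [hg] at hM; simp at hM
    | succ k => exact ⟨2 ^ k, by ring⟩
  have h4 : 4 ^ κ = 2 ^ κ * 2 ^ κ := (mul_pow 2 2 κ)
  have hgh : 2 * g * g + 4 * g + 2 ≤ h := by rw [hg, hh] at hM; nlinarith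
  obtain ⟨a, ha⟩ : ∃ a, h = a + g := ⟨h - g, by have : g ≤ h := by nlinarith
                                                omega⟩
  have hv : ∀ (s : Bool) (i : ℕ), pv (bf f s i) ≤ 2 * i + (2 * g + 1) := fun s i => by
    rw [(bf_spec hd s i).2, hg]
    split_ifs <;> omega
  have hv1 : ∀ p : Bool × Fin a, pv (bf f p.1 p.2) < 2 ^ κ := fun p => by
    have := hv p.1 p.2
    have := p.2.2
    omega
  have hv2 : ∀ p : Bool × Fin (h + g + 1), pv (bf f p.1 p.2) + 1 ≤ 2 ^ κ + 2 * (2 * g + 1) :=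
    fun p => by
    have := hv p.1 p.2
    have := p.2.2
    omega
  obtain ⟨c, hc0, hc⟩ := exists_relation (f := f) (ι := (Bool × Fin a) × (Bool × Fin (h + g + 1)))
    (fun p => bf f p.1.1 p.1.2 ^ 2 ^ κ * bf f p.2.1 p.2.2) (2 * h * h + (2 * g + 1))
    (fun p => by
      have h1 := pv_pow hd (bf_spec hd p.1.1 p.1.2).1 (2 ^ κ)
      have h2 := pv_mul hd h1.1 (bf_spec hd p.2.1 p.2.2).1
      rw [(pv_key hd _ h2.1).2, h2.2, h1.2]
      have h3 := hv1 p.1
      have h5 := hv2 p.2
      have h6 : 2 ^ κ * (pv (bf f p.1.1 p.1.2) + 1) ≤ 2 ^ κ * 2 ^ κ := Nat.mul_le_mul_left _ h3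
      rw [hh] at h5 h6 ⊢
      nlinarith)
    (by
      simp only [Fintype.card_prod, Fintype.card_bool, Fintype.card_fin]
      subst ha
      nlinarith)
  set w : (Bool × Fin a) × (Bool × Fin (h + g + 1)) → CR f :=
    fun p => bf f p.1.1 p.1.2 * bf f p.2.1 p.2.2 ^ 2 ^ κ with hw
  have hws : ∀ p, w p ≠ 0 ∧ pv (w p) = pv (bf f p.1.1 p.1.2) + 2 ^ κ * pv (bf f p.2.1 p.2.2) :=
    fun p => by
      have h1 := pv_pow hd (bf_spec hd p.2.1 p.2.2).1 (2 ^ κ)
      have h2 := pv_mul hd (bf_spec hd p.1.1 p.1.2).1 h1.1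
      exact ⟨h2.1, by rw [h2.2, h1.2]⟩
  have hinj : Function.Injective fun p => pv (w p) := by
    intro p p' hp
    simp only [(hws _).2] at hp
    have e1 : pv (bf f p.1.1 p.1.2) = pv (bf f p'.1.1 p'.1.2) := by
      have := congrArg (· % 2 ^ κ) hp
      simpa [Nat.add_mul_mod_self_left, Nat.mod_eq_of_lt (hv1 _)] using this
    have e2 : pv (bf f p.2.1 p.2.2) = pv (bf f p'.2.1 p'.2.2) := by
      rw [e1] at hp
      exact Nat.eq_of_mul_eq_mul_left (by positivity) (Nat.add_left_cancel hp)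
    rw [(bf_spec hd _ _).2, (bf_spec hd _ _).2] at e1 e2
    obtain ⟨e3, e4⟩ := bf_inj hd e1
    obtain ⟨e5, e6⟩ := bf_inj hd e2
    exact Prod.ext (Prod.ext e3 (Fin.ext e4)) (Prod.ext e5 (Fin.ext e6))
  set u : CR f := ∑ p, c p ^ 2 ^ κ • w p with hu
  have hu0 : u ≠ 0 := by
    refine sum_ne_zero_of_pv hd w (fun p => (hws p).1) hinj _ ?_
    intro h0
    apply hc0
    funext p
    exact pow_eq_zero_iff (by positivity) |>.mp (congrFun h0 p)
  have humem : u ∈ PLt f (4 ^ κ + 2 * f.natDegree * 2 ^ κ) := by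
    refine Submodule.sum_mem _ fun p _ => Submodule.smul_mem _ _ ?_
    rw [(pv_key hd _ (hws p).1).2, (hws p).2, h4, hg]
    have h3 := hv1 p.1
    have h6 := Nat.mul_le_mul_left (2 ^ κ) (hv2 p.2)
    nlinarith
  have hvan : ∀ x y (hxy : y * y = f.eval x + y), evP f x y hxy u = 0 := by
    intro x y hxy
    have hpow : ∀ t : F, (t ^ 2 ^ κ) ^ 2 ^ κ = t := fun t => by
      rw [← pow_mul, ← h4, ← hq, FiniteField.pow_card]
    have h1 : evP f x y hxy u ^ 2 ^ κ = 0 := by
      have h2 := congrArg (evP f x y hxy) hc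
      rw [map_zero, map_sum] at h2
      rw [← h2, hu, map_sum, sum_pow_char_pow]
      refine sum_congr rfl fun p _ => ?_
      simp only [evP_smul, hw, map_mul, map_pow, mul_pow, hpow]
    exact pow_eq_zero_iff (by positivity) |>.mp h1
  have hroot : ∀ x ∈ S, u.re.eval x = 0 ∧ u.im.eval x = 0 := by
    intro x hx
    obtain ⟨y, hy⟩ := hS x hx
    have hy' : (y + 1) * (y + 1) = f.eval x + (y + 1) := by
      have : (2 : F) = 0 := CharTwo.two_eq_zero
      linear_combination hy + y * this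
    have h1 := hvan x y hy
    have h2 := hvan x (y + 1) hy'
    rw [evP_apply] at h1 h2
    have h3 : u.im.eval x = 0 := by linear_combination h2 - h1
    exact ⟨by rw [h3] at h1; simpa using h1, h3⟩
  by_cases him : u.im = 0
  · have hre : u.re ≠ 0 := by
      intro hr; apply hu0; ext1 <;> simp [hr, him]
    have h1 : S.card ≤ u.re.natDegree := card_le_degree_of_subset_roots fun x hx => by
      rw [mem_roots hre]; exact (hroot x hx).1
    have h2 := humem.1 _ (leadingCoeff_ne_zero.mpr hre)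
    omega
  · have h1 : S.card ≤ u.im.natDegree := card_le_degree_of_subset_roots fun x hx => by
      rw [mem_roots him]; exact (hroot x hx).2
    have h2 := humem.2 _ (leadingCoeff_ne_zero.mpr him)
    omega

theorem tr_sq (a : F) : Algebra.trace K F (a ^ 2) = Algebra.trace K F a := by
  have := Algebra.trace_eq_of_algEquiv (FiniteField.frobeniusAlgEquivOfAlgebraic K F) a
  rwa [FiniteField.coe_frobeniusAlgEquivOfAlgebraic, ZMod.card] at this

theorem exists_sq_eq (a : F) : ∃ b : F, b ^ 2 = a := by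
  obtain ⟨b, hb⟩ := (FiniteField.frobeniusAlgEquivOfAlgebraic K F).surjective a
  rw [FiniteField.coe_frobeniusAlgEquivOfAlgebraic, ZMod.card] at hb
  exact ⟨b, hb⟩

theorem artin_schreier (a : F) (ha : Algebra.trace K F a = 0) : ∃ y : F, y * y = a + y := by
  have : CharP F 2 := charTwo_F
  let A : F →ₗ[K] F := (FiniteField.frobeniusAlgEquivOfAlgebraic K F).toLinearMap - LinearMap.id
  have hA : ∀ y, A y = y ^ 2 - y := fun y => by
    have : (FiniteField.frobeniusAlgEquivOfAlgebraic K F) y = y ^ 2 := by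
      rw [FiniteField.coe_frobeniusAlgEquivOfAlgebraic, ZMod.card]
    simp only [A, LinearMap.sub_apply, AlgEquiv.toLinearMap_apply, this, LinearMap.id_apply]
  have h1 : LinearMap.range A ≤ LinearMap.ker (Algebra.trace K F) := by
    rintro _ ⟨y, rfl⟩
    rw [LinearMap.mem_ker, hA, map_sub, tr_sq, sub_self]
  have h2 : LinearMap.ker A ≤ Submodule.span K {(1 : F)} := by
    intro y hy
    rw [LinearMap.mem_ker, hA] at hy
    have : y * (y - 1) = 0 := by linear_combination hy
    rcases mul_eq_zero.mp this with h | h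
    · rw [h]; exact Submodule.zero_mem _
    · rw [sub_eq_zero.mp h]; exact Submodule.mem_span_singleton_self _
  have h3 := Submodule.finrank_mono h2
  rw [finrank_span_singleton one_ne_zero] at h3
  have h4 := LinearMap.finrank_range_add_finrank_ker A
  have h5 := LinearMap.finrank_range_add_finrank_ker (Algebra.trace K F)
  rw [LinearMap.range_eq_top.mpr (Algebra.trace_surjective K F), finrank_top,
    Module.finrank_self] at h5
  have h6 := Submodule.eq_of_le_of_finrank_le h1 (by omega)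
  have : a ∈ LinearMap.range A := by rw [h6]; exact ha
  obtain ⟨y, hy⟩ := this
  rw [hA] at hy
  exact ⟨y, by linear_combination hy⟩

theorem reduce_odd (n : ℕ) : ∀ f : F[X], f.natDegree ≤ n → ∃ g : F[X], g.natDegree ≤ n ∧
    (g.natDegree = 0 ∨ Odd g.natDegree) ∧
    ∀ t, Algebra.trace K F (g.eval t) = Algebra.trace K F (f.eval t) := by
  induction n with
  | zero => exact fun f hf => ⟨f, hf, Or.inl (by omega), fun _ => rfl⟩
  | succ n ih =>
    intro f hf
    rcases Nat.even_or_odd f.natDegree with ⟨k, hk⟩ | ho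
    · by_cases hk0 : k = 0
      · exact ⟨f, hf, Or.inl (by omega), fun _ => rfl⟩
      obtain ⟨b, hb⟩ := exists_sq_eq f.leadingCoeff
      obtain ⟨g, hg1, hg2, hg3⟩ := ih (f.eraseLead + C b * X ^ k) (by
        refine (natDegree_add_le _ _).trans (max_le ?_ ?_)
        · have := eraseLead_natDegree_le f
          omega
        · have := natDegree_C_mul_X_pow_le b k
          omega)
      refine ⟨g, by omega, hg2, fun t => ?_⟩
      rw [hg3]
      conv_rhs => rw [← eraseLead_add_C_mul_X_pow f]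
      simp only [eval_add, eval_mul, eval_C, eval_pow, eval_X, map_add]
      rw [← tr_sq (b * t ^ k), ← hb, hk]
      congr 2
      ring
    · exact ⟨f, hf, Or.inr ho, fun _ => rfl⟩

theorem code_trace {c : F → K} (hc : IsCode M c) :
    ∃ f : F[X], f.natDegree ≤ M ∧ ∀ t, c t = Algebra.trace K F (f.eval t) := by
  classical
  obtain ⟨φ, hφ⟩ := hc
  have key : ∀ ψ : F →ₗ[K] K, ∃ a : F, ∀ x, ψ x = Algebra.trace K F (a * x) := fun ψ => by
    refine ⟨((Algebra.traceForm K F).toDual (traceForm_nondegenerate K F)).symm ψ, fun x => ?_⟩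
    rw [← Algebra.traceForm_apply, ← LinearMap.BilinForm.toDual_def (traceForm_nondegenerate K F),
      LinearEquiv.apply_symm_apply]
  choose a ha using fun i : Fin (M + 1) => key (φ ∘ₗ LinearMap.single K (fun _ => F) i)
  refine ⟨∑ i, C (a i) * X ^ (i : ℕ), ?_, fun t => ?_⟩
  · refine natDegree_sum_le_of_forall_le _ _ fun i _ => ?_
    have := natDegree_C_mul_X_pow_le (a i) i
    have := i.2
    omega
  · rw [hφ, ← univ_sum_single (ev M t), map_sum, eval_finsetSum, map_sum]
    refine sum_congr rfl fun i _ => ?_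
    have := ha i (ev M t i)
    simpa [ev] using this

/-- J1. Bombieri-Stepanov bound for trace codewords. -/
theorem weil (κ : ℕ) (hq : Fintype.card F = 4 ^ κ) (hM : (M + 1) ^ 2 ≤ 2 ^ κ) :
    Weil F M (2 * (M + 1) / 2 ^ κ) := by
  classical
  intro c hc
  obtain ⟨f0, hf0, hc0⟩ := code_trace hc
  obtain ⟨f, hf, hdeg, hf3⟩ := reduce_odd M f0 hf0
  have hcf : ∀ t, c t = Algebra.trace K F (f.eval t) := fun t => by rw [hc0, hf3]
  rcases hdeg with h0 | hd
  · left
    refine ⟨Algebra.trace K F (f.coeff 0), fun t => ?_⟩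
    rw [hcf]
    conv_lhs => rw [eq_C_of_natDegree_eq_zero h0]
    rw [eval_C]
  right
  have hM' : (f.natDegree + 1) ^ 2 ≤ 2 ^ κ := le_trans (Nat.pow_le_pow_left (by omega) 2) hM
  obtain ⟨β, hβ⟩ := Algebra.trace_surjective K F 1
  have h1 := stepanov κ hq f hd hM' (univ.filter fun t => c t = 0) fun x hx =>
    artin_schreier _ (by rw [← hcf]; simpa using hx)
  have h2 := stepanov κ hq (f + C β) (by rwa [natDegree_add_C]) (by rwa [natDegree_add_C])
    (univ.filter fun t => ¬ c t = 0) fun x hx => artin_schreier _ (by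
      have : c x = 1 := K_ne_zero.mp (by simpa using hx)
      rw [eval_add, eval_C, map_add, ← hcf, this, hβ, K_add_self])
  rw [natDegree_add_C] at h2
  have h3 := card_filter_add_card_filter_not (s := (univ : Finset F)) (fun t => c t = 0)
  rw [card_univ, hq] at h3
  have h4 : ∑ t, sgn (c t) = ((univ.filter fun t => c t = 0).card : ℝ) -
      ((univ.filter fun t => ¬ c t = 0).card : ℝ) := by
    simp only [sgn]
    rw [sum_ite]
    simp [sub_eq_add_neg]
  have h5 : (4 : ℝ) ^ κ = 2 ^ κ * 2 ^ κ := by rw [← mul_pow]; norm_num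
  have h1' : 2 * ((univ.filter fun t => c t = 0).card : ℝ) ≤ 4 ^ κ + 2 * f.natDegree * 2 ^ κ := by
    exact_mod_cast h1
  have h2' : 2 * ((univ.filter fun t => ¬ c t = 0).card : ℝ) ≤
      4 ^ κ + 2 * f.natDegree * 2 ^ κ := by exact_mod_cast h2
  have h3' : ((univ.filter fun t => c t = 0).card : ℝ) +
      ((univ.filter fun t => ¬ c t = 0).card : ℝ) = 4 ^ κ := by exact_mod_cast h3
  have hfM : (f.natDegree : ℝ) ≤ M := by exact_mod_cast hf
  have hQ : (0 : ℝ) < 2 ^ κ := by positivity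
  rw [expect_eq_sum_div, h4, hq, abs_div, div_le_div_iff₀ (by positivity) hQ]
  push_cast
  rw [abs_of_pos (by positivity : (0 : ℝ) < 4 ^ κ)]
  have h6 : |((univ.filter fun t => c t = 0).card : ℝ) -
      ((univ.filter fun t => ¬ c t = 0).card : ℝ)| ≤ 2 * (M + 1) * 2 ^ κ := by
    have := mul_le_mul_of_nonneg_right hfM hQ.le
    rw [abs_le]
    constructor <;> nlinarith
  calc _ ≤ 2 * ((M : ℝ) + 1) * 2 ^ κ * 2 ^ κ := mul_le_mul_of_nonneg_right h6 hQ.le
    _ = _ := by rw [h5]; ring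

theorem weil_ev (β : ℝ) (hβ : 0 < β) : ∀ᶠ κ : ℕ in atTop, ∀ (F : Type) [Field F] [Fintype F]
    [Algebra K F], Fintype.card F = 4 ^ κ → Weil F (4 * κ ^ 2) β := by
  have t4 := tendsto_pow_const_div_const_pow_of_one_lt 4 (one_lt_two (α := ℝ))
  have t2 := tendsto_pow_const_div_const_pow_of_one_lt 2 (one_lt_two (α := ℝ))
  filter_upwards [t4.eventually (gt_mem_nhds (show (0 : ℝ) < 1 / 25 by norm_num)),
    t2.eventually (gt_mem_nhds (show (0 : ℝ) < β / 10 by positivity)), eventually_ge_atTop 1]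
    with κ h4 h2 h1 F _ _ _ hq
  have hQ : (0 : ℝ) < 2 ^ κ := by positivity
  have h1' : (1 : ℝ) ≤ (κ : ℝ) ^ 2 := one_le_pow₀ (by exact_mod_cast h1)
  rw [div_lt_iff₀ hQ] at h4 h2
  have hM : (4 * κ ^ 2 + 1) ^ 2 ≤ 2 ^ κ := by
    have : ((4 * κ ^ 2 + 1) ^ 2 : ℝ) ≤ 2 ^ κ := by nlinarith
    exact_mod_cast this
  intro c hc
  rcases weil κ hq hM c hc with h | h
  · exact Or.inl h
  · refine Or.inr (h.trans ?_)
    rw [div_le_iff₀ hQ]
    push_cast
    nlinarith

end Vale.Agent.P060
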