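import Vale.Agent.P060.SelCore
import Vale.Agent.P060.SelAux
import Vale.Agent.P060.Low
import Vale.Agent.P060.Weil

namespace Vale.Agent.P060

open Finset Polynomial Filter
open scoped BigOperators

section SelMain
variable {F : Type} [Field F] [Fintype F] [Algebra K F] {e n h : ℕ}

/-- selected moment vectors -/
def SelZ (sd : Side F e h) (A : Fin 2 → Vtx F e n h) (i : Fin 2) (z : Y F (4 * e)) : Prop :=
  (∀ l, (A i).T (sd.r i (some l)) (trunc e z) = sd.ρ i l) ∧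
    chi ((A i).T (sd.r i none) (trunc e z) + sd.v i) = chi ((A i).T (sd.r i none) (trunc e z))

noncomputable def etaZ (sd : Side F e h) (A : Fin 2 → Vtx F e n h) (i : Fin 2)
    (z : Y F (4 * e)) : K :=
  chi ((A i.rev).u (U (A i).c z)) + chi ((A i).T (sd.r i none) (trunc e z))

/-- the value `b` is taken on a selected odd vector of side `i` -/
def ValZ (sd : Side F e h) (A : Fin 2 → Vtx F e n h) (i : Fin 2) (b : K) : Prop :=
  ∃ z ∈ XX F (4 * e), par z = 1 ∧ SelZ sd A i z ∧ etaZ sd A i z = b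

omit [Fintype F] in
theorem eta_mark_sel (sd : Side F e h) (A : Fin 2 → Vtx F e n h) (i : Fin 2) (t : F) :
    eta (mark sd A i t) = etaZ sd A i (ev (4 * e) t) := by
  rw [etaZ, U_ev]
  rfl

theorem cls_of_val {β : ℝ} (hβ : 0 ≤ β) (hW : Weil F (4 * e) β) (sd : Side F e h)
    (A : Fin 2 → Vtx F e n h)
    (hsm : 63 * (Fintype.card (Option (Option (Fin sd.m)) → GG h) : ℝ) ^ 2 * β ≤ 1)
    (i : Fin 2) (b : K) (hb : ValZ sd A i b) :
    (1 : ℝ) / 8 ≤ 𝔼 t, lw sd A i t * ind (eta (mark sd A i t) = b) := by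
  obtain ⟨z, hz, hp, ⟨h1, h2⟩, rfl⟩ := hb
  let T : Y F (4 * e) →ₗ[K] (Option (Option (Fin sd.m)) → GG h) := LinearMap.pi fun o =>
    o.elim ((A i.rev).u ∘ₗ (U (A i).c).restrictScalars K)
      fun o' => (A i).T (sd.r i o') ∘ₗ (trunc e).restrictScalars K
  have := freq_sel hβ hW T (sd.ρ i) (sd.v i) hsm hz hp h1 h2
  simp only [lw, eta_mark_sel, div_mul_eq_mul_div]
  rw [← expect_div]
  exact this

/-- exchange of the two sides -/
def Side.swap (sd : Side F e h) : Side F e h where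
  m := sd.m
  r := sd.r ∘ Fin.rev
  ρ := sd.ρ ∘ Fin.rev
  v := sd.v ∘ Fin.rev

omit [Fintype F] in
theorem valZ_swap (sd : Side F e h) (A : Fin 2 → Vtx F e n h) (i : Fin 2) (b : K) :
    ValZ sd.swap (A ∘ Fin.rev) i b ↔ ValZ sd A i.rev b := by
  fin_cases i <;> rfl

omit [Fintype F] in
theorem link_swap {sd : Side F e h} {A : Fin 2 → Vtx F e n h} (hl : Link sd A) :
    Link sd.swap (A ∘ Fin.rev) := by
  intro y hy hU
  obtain ⟨a, b, hab⟩ := hl (y ∘ Fin.rev) (fun i => hy _) hU.symm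
  refine ⟨a, b, fun i t ht => ?_⟩
  fin_cases i
  · exact hab 1 t ht
  · exact hab 0 t ht

theorem finish_sel {β : ℝ} (hβ : 0 ≤ β) (hW : Weil F (4 * e) β) {r : ℕ} (hr : 2 * r ≤ 3 * e)
    (hsm : 63 * ((2 : ℝ) ^ ((2 * h + 1) * (r + 1))) ^ 2 * β ≤ 1) (sd : Side F e h)
    (A : Fin 2 → Vtx F e n h) (hok : SideOK r sd) (hl : Link sd A) (hne : ∀ i, ∃ b, ValZ sd A i b)
    (hno : ¬ ∃ s : Fin 2 → K, s 0 + s 1 = 1 ∧ ∀ i b, ValZ sd A i b → b = s i) :
    ∃ S : Finset K, S.Nonempty ∧ ∃ sd : Side F e h,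
      SideOK r sd ∧ ∃ B, (B = A ∨ B = A ∘ Fin.rev) ∧ Link sd B ∧ Cls S sd B := by
  classical
  have hm : sd.m + 1 ≤ r := by
    obtain ⟨hli, ⟨ω, hω, hd, hlow⟩, -⟩ := hok 0
    have := card_le_of_low hω (by omega) _ hli hlow
    rw [Fintype.card_option, Fintype.card_fin] at this
    omega
  have hsm' : 63 * (Fintype.card (Option (Option (Fin sd.m)) → GG h) : ℝ) ^ 2 * β ≤ 1 := by
    refine le_trans ?_ hsm
    rw [Fintype.card_fun, card_GG, Fintype.card_option, Fintype.card_option, Fintype.card_fin,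
      ← pow_mul]
    push_cast
    gcongr
    norm_num
  have main : ∀ (sd : Side F e h) (A : Fin 2 → Vtx F e n h),
      63 * (Fintype.card (Option (Option (Fin sd.m)) → GG h) : ℝ) ^ 2 * β ≤ 1 →
      (∃ b, ValZ sd A 1 b) → (∀ b, ValZ sd A 1 b → ValZ sd A 0 b) →
      ∃ S : Finset K, S.Nonempty ∧ Cls S sd A := by
    intro sd A hs ⟨b, hb⟩ hsub
    refine ⟨univ.filter (ValZ sd A 1), ⟨b, by simpa using hb⟩, fun t ht => ?_, fun i c hc => ?_⟩
    · rw [mem_filter, eta_mark_sel]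
      exact ⟨mem_univ _, _, ev_mem t, par_ev t, ht, rfl⟩
    · have hc' := (mem_filter.mp hc).2
      refine cls_of_val hβ hW sd A hs i c ?_
      fin_cases i
      · exact hsub c hc'
      · exact hc'
  by_cases h10 : ∀ b, ValZ sd A 1 b → ValZ sd A 0 b
  · obtain ⟨S, hS, hc⟩ := main sd A hsm' (hne 1) h10
    exact ⟨S, hS, sd, hok, A, Or.inl rfl, hl, hc⟩
  by_cases h01 : ∀ b, ValZ sd A 0 b → ValZ sd A 1 b
  · obtain ⟨S, hS, hc⟩ := main sd.swap (A ∘ Fin.rev) hsm'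
      (hne 0) h01
    exact ⟨S, hS, sd.swap, fun i => hok i.rev, _, Or.inr rfl, link_swap hl, hc⟩
  exfalso
  push Not at h10 h01
  obtain ⟨b, hb1, hb0⟩ := h10
  obtain ⟨c, hc0, hc1⟩ := h01
  have hne' : ∀ x y z : K, x ≠ y → z ≠ x → z = y := by decide
  have hbc : c ≠ b := fun hcb => hb0 (hcb ▸ hc0)
  have hsum : ∀ x y : K, x ≠ y → x + y = 1 := by decide
  refine hno ⟨![c, b], hsum _ _ hbc, fun i x hx => ?_⟩
  fin_cases i
  · exact hne' b c x hbc.symm fun hxb => hb0 (hxb ▸ hx)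
  · exact hne' c b x hbc fun hxc => hc1 (hxc ▸ hx)

/-- pairs of moment vectors with the same tensor -/
def II (A : Fin 2 → Vtx F e n h) : Submodule K (Fin 2 → Y F (4 * e)) where
  carrier := {y | (∀ i, y i ∈ XX F (4 * e)) ∧ U (A 0).c (y 0) = U (A 1).c (y 1)}
  add_mem' := fun {a b} ha hb => ⟨fun i => add_mem (ha.1 i) (hb.1 i), by
    simp only [Pi.add_apply, map_add, ha.2, hb.2]⟩
  zero_mem' := ⟨fun i => zero_mem _, by simp⟩
  smul_mem' := fun c a ha => ⟨fun i => Submodule.smul_mem _ _ (ha.1 i), by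
    simp only [Pi.smul_apply, LinearMap.map_smul_of_tower, ha.2]⟩

omit [Fintype F] in
theorem par_II {A : Fin 2 → Vtx F e n h} {y : Fin 2 → Y F (4 * e)} (hy : y ∈ II A) (i : Fin 2) :
    par (y i) = par (y 0) := by
  fin_cases i
  · rfl
  · exact (par_eq_of_U hy.2).symm

theorem exists_basis_sel (A : Fin 2 → Vtx F e n h) (hs : ∀ i, Surj (A i).c) :
    ∃ (m : ℕ) (b : Fin m → Fin 2 → Y F (4 * e)), (∀ l, b l ∈ II A ∧ par (b l 0) = 0) ∧
      (∀ i, LinearIndependent K fun l => trunc e (b l i)) ∧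
      ∀ y ∈ II A, par (y 0) = 0 → ∃ c : Fin m → K, ∀ i,
        trunc e (y i) = ∑ l, c l • trunc e (b l i) := by
  classical
  let tr : (Fin 2 → Y F (4 * e)) →ₗ[K] (Fin 2 → Y F (3 * e)) :=
    LinearMap.pi fun i => (trunc e).restrictScalars K ∘ₗ LinearMap.proj i
  have htr : ∀ y i, tr y i = trunc e (y i) := fun _ _ => rfl
  let Je : Submodule K (Fin 2 → Y F (3 * e)) :=
    (II A ⊓ LinearMap.ker (par ∘ₗ LinearMap.proj 0)).map tr
  let bs := Module.finBasis K Je
  choose b hb1 hb2 using fun l => (bs l).2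
  refine ⟨_, b, fun l => hb1 l, fun i => ?_, fun y hy hp => ?_⟩
  · have hker : LinearMap.ker ((LinearMap.proj i : (Fin 2 → Y F (3 * e)) →ₗ[K] _) ∘ₗ
        Je.subtype) = ⊥ := by
      rw [LinearMap.ker_eq_bot']
      rintro ⟨_, y, hy, rfl⟩ h0
      have h1 : trunc e (y i) = 0 := h0
      have h2 : ∀ j, trunc e (y j) = 0 ↔ ∀ idx, idx 0 = none → U (A 0).c (y 0) idx = 0 := by
        intro j
        fin_cases j
        · exact trunc_eq_zero_iff (hs 0) _
        · rw [hy.1.2]; exact trunc_eq_zero_iff (hs 1) _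
      refine Subtype.ext (funext fun j => ?_)
      exact (h2 j).mpr ((h2 i).mp h1)
    have := bs.linearIndependent.map' _ hker
    rw [show (fun l => trunc e (b l i)) = ((LinearMap.proj i : (Fin 2 → Y F (3 * e)) →ₗ[K] _) ∘ₗ
      Je.subtype) ∘ bs from funext fun l => congrFun (hb2 l) i]
    exact this
  · refine ⟨fun l => bs.repr ⟨tr y, y, ⟨hy, hp⟩, rfl⟩ l, fun i => ?_⟩
    have := congrArg (fun w : Je => (w : Fin 2 → Y F (3 * e)) i)
      (bs.sum_repr ⟨tr y, y, ⟨hy, hp⟩, rfl⟩)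
    simp only [Submodule.coe_sum, Submodule.coe_smul, Finset.sum_apply, Pi.smul_apply,
      htr] at this
    rw [← this]
    exact sum_congr rfl fun l _ => by rw [← hb2 l, htr]

theorem exists_omega_sel {R : ℕ} (hR : 2 * R ≤ e) (A : Fin 2 → Vtx F e n h)
    (hs : ∀ i, Surj (A i).c) (hg : ∀ i, PairGood R (A i).c (A i.rev).c) (i : Fin 2) :
    ∃ ω : F[X], ω ≠ 0 ∧ ω.natDegree ≤ 2 * R ∧ ∀ y ∈ II A, Low (3 * e) ω (trunc e (y i)) := by
  obtain ⟨ω, h0, hd, hω⟩ := exists_omega hR _ (hg i)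
  refine ⟨ω, h0, hd, fun y hy => ⟨trunc_mem (hy.1 i), (hω (y i) ?_).2⟩⟩
  refine map_ker_le_Ker (hs i) (y' := y i.rev) ?_
  fin_cases i
  · exact hy.2
  · exact hy.2.symm

omit [Fintype F] in
theorem par_span_sel {M : ℕ} {ι : Type} {r : ι → Y F M} (hr : ∀ l, par (r l) = 0) {z : Y F M}
    (hz : z ∈ Submodule.span K (Set.range r)) : par z = 0 := by
  have : Submodule.span K (Set.range r) ≤ LinearMap.ker par :=
    Submodule.span_le.mpr (by rintro _ ⟨l, rfl⟩; exact hr l)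
  exact this hz

omit [Fintype F] in
theorem li_option_sel {M : ℕ} {ι : Type} {r : ι → Y F M} (hli : LinearIndependent K r)
    (hr : ∀ l, par (r l) = 0) {z : Y F M} (hz : par z = 1) :
    LinearIndependent K fun o : Option ι => o.elim z r := by
  refine linearIndependent_option.mpr ⟨hli, fun hm => ?_⟩
  have := par_span_sel hr hm
  change par z = 0 at this
  rw [hz] at this
  exact one_ne_zero this

theorem valZ_nonempty {r : ℕ} {γ : ℝ} (hγ : γ < 1) {sd : Side F e h} {A : Fin 2 → Vtx F e n h}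
    (hA : ∀ i, NotBad r γ (A i) fun _ => 1) (hok : SideOK r sd) (i : Fin 2) :
    ∃ b, ValZ sd A i b := by
  obtain ⟨hli, ⟨ω, hω, hd, hlow⟩, hv⟩ := hok i
  obtain ⟨a, ha⟩ := exists_sel_sc hv
  obtain ⟨z, hz, hp, hw⟩ := surj_rows_sel hγ (hA i) hω hd _ hli hlow fun o => o.elim a (sd.ρ i)
  exact ⟨_, z, hz, hp, ⟨fun l => hw (some l), by rw [hw none]; exact ha⟩, rfl⟩

theorem odd_case_sel (hh : 1 ≤ h) {R : ℕ} (hR : 2 * R ≤ e) {γ : ℝ} (hγ : γ < 1)
    {A : Fin 2 → Vtx F e n h} (hA : GoodPair R (2 * R + 2) γ A) (hadj : ¬ Adj (A 0) (A 1))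
    {y₀ : Fin 2 → Y F (4 * e)} (hy₀ : y₀ ∈ II A) (hp₀ : par (y₀ 0) = 1) :
    ∃ sd : Side F e h, SideOK (2 * R + 2) sd ∧ Link sd A ∧
      ¬ ∃ s : Fin 2 → K, s 0 + s 1 = 1 ∧ ∀ i b, ValZ sd A i b → b = s i := by
  classical
  obtain ⟨m, b, hb, hli, hspan⟩ := exists_basis_sel A fun i => (hA i).1.1
  choose ω hω hd hlow using exists_omega_sel hR A (fun i => (hA i).1.1) fun i => (hA i).2
  let r : Fin 2 → Option (Fin m) → Y F (3 * e) := fun i o =>
    o.elim (trunc e (y₀ i)) fun l => trunc e (b l i)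
  have hrli : ∀ i, LinearIndependent K (r i) := fun i =>
    li_option_sel (hli i) (fun l => by rw [par_trunc, par_II (hb l).1, (hb l).2])
      (by rw [par_trunc, par_II hy₀, hp₀])
  have hrlow : ∀ i o, Low (3 * e) (ω i) (r i o) := fun i o => by
    cases o
    · exact hlow i _ hy₀
    · exact hlow i _ (hb _).1
  let l : Fin 2 → XX F (4 * e) →ₗ[K] K := fun _ => par ∘ₗ (XX F (4 * e)).subtype
  let ξ : Fin 2 → XX F (4 * e) →ₗ[K] GG h := fun i =>
    (A i.rev).u ∘ₗ (U (A i).c).restrictScalars K ∘ₗ (XX F (4 * e)).subtype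
  let τ : Fin 2 → XX F (4 * e) →ₗ[K] GG h := fun i =>
    (A i).T (r i none) ∘ₗ (trunc e).restrictScalars K ∘ₗ (XX F (4 * e)).subtype
  let θ : Fin 2 → XX F (4 * e) →ₗ[K] (Fin m → GG h) := fun i => LinearMap.pi fun j =>
    (A i).T (r i (some j)) ∘ₗ (trunc e).restrictScalars K ∘ₗ (XX F (4 * e)).subtype
  have hsurj : ∀ i a c, ∃ z, l i z = 1 ∧ τ i z = a ∧ θ i z = c := by
    intro i a c
    obtain ⟨z, hz, hp, hw⟩ := surj_rows_sel hγ (hA i).1.2 (hω i) (by have := hd i; omega) _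
      (hrli i) (hrlow i) fun o => o.elim a c
    exact ⟨⟨z, hz⟩, hp, hw none, funext fun j => hw (some j)⟩
  by_contra hcon
  push Not at hcon
  obtain ⟨a, s, hs, hall⟩ := selCore hh (fun _ => XX F (4 * e)) l ξ τ θ hsurj fun φ ty v hv => by
    obtain ⟨s, hs1, hs2⟩ := hcon ⟨m, r, fun i j => φ j • (if ty then v i else e0), v⟩
      (fun i => ⟨hrli i, ⟨ω i, hω i, by have := hd i; omega, hrlow i⟩, hv i⟩) (by
        intro y hy hU
        have hyI : y ∈ II A := ⟨hy, hU⟩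
        obtain ⟨c, hc⟩ := hspan (y + par (y 0) • y₀) (add_mem hyI (Submodule.smul_mem _ _ hy₀))
          (by simp [hp₀])
        refine ⟨if ty then ∑ j, c j * φ j else 0, if ty then 0 else ∑ j, c j * φ j,
          fun i t ht => ?_⟩
        have h1 : trunc e (y i) = par (y i) • trunc e (y₀ i) + ∑ j, c j • trunc e (b j i) := by
          rw [← hc i, par_II hyI, Pi.add_apply, Pi.smul_apply, map_add,
            LinearMap.map_smul_of_tower, add_comm (trunc e (y i)), ← add_assoc, add_self_K,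
            zero_add]
        have h2 : ∀ j, (A i).T (trunc e (b j i)) (ev (3 * e) t) =
            φ j • (if ty then v i else e0) := ht.1
        rw [row, h1, map_add, map_smul, map_sum, add_assoc]
        simp only [LinearMap.add_apply, LinearMap.smul_apply, LinearMap.sum_apply, map_smul, h2,
          smul_smul, ← sum_smul]
        congr 1
        cases ty <;> simp)
    exact ⟨s, hs1, fun i z h1 h2 h3 => hs2 i _ ⟨z, z.2, h1, ⟨h2, h3⟩, rfl⟩⟩
  have hyI : y₀ + ∑ j, a j • b j ∈ II A :=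
    add_mem hy₀ (Submodule.sum_mem _ fun j _ => Submodule.smul_mem _ _ (hb j).1)
  have hT : ∀ i (z : XX F (4 * e)), τ i z + ∑ j, a j • θ i z j =
      (A i).T (trunc e ((y₀ + ∑ j, a j • b j) i)) (trunc e z) := by
    intro i z
    simp only [Pi.add_apply, Finset.sum_apply, Pi.smul_apply, map_add, map_sum,
      LinearMap.map_smul_of_tower, LinearMap.add_apply, LinearMap.sum_apply,
      LinearMap.smul_apply]
    rfl
  refine hadj ⟨_, hyI.1 0, _, hyI.1 1, ?_, hyI.2, s 0, fun z hz hp => ⟨?_, ?_⟩⟩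
  · simp [hp₀, Finset.sum_apply, (hb _).2]
  · have := hall 0 ⟨z, hz⟩ hp
    rw [hT] at this
    exact this
  · have := hall 1 ⟨z, hz⟩ hp
    rw [hT] at this
    rw [add_assoc, show s 0 + 1 = s 1 by linear_combination (exp := 1) -hs + K_add_self (s 0)]
    exact this

theorem even_case_sel (hh : 1 ≤ h) {R : ℕ} (hR : 2 * R + 1 ≤ e) (hF : 2 * R + 1 < Fintype.card F)
    {γ : ℝ} (hγ : γ < 1) {A : Fin 2 → Vtx F e n h} (hA : GoodPair R (2 * R + 2) γ A)
    (hev : ∀ y ∈ II A, par (y 0) = 0) :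
    ∃ sd : Side F e h, SideOK (2 * R + 2) sd ∧ Link sd A ∧
      ¬ ∃ s : Fin 2 → K, s 0 + s 1 = 1 ∧ ∀ i b, ValZ sd A i b → b = s i := by
  classical
  obtain ⟨m, b, hb, hli, hspan⟩ := exists_basis_sel A fun i => (hA i).1.1
  choose ω hω hd hlow using exists_omega_sel (by omega) A (fun i => (hA i).1.1) fun i => (hA i).2
  have hpar : ∀ i l, par (trunc e (b l i)) = 0 := fun i l => by
    rw [par_trunc, par_II (hb l).1, (hb l).2]
  obtain ⟨t₁, ht₁⟩ : ∃ t, (ω 0).eval t ≠ 0 := by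
    by_contra hn
    push Not at hn
    exact hω 0 (eq_zero_of_natDegree_lt_card_of_eval_eq_zero _ Function.injective_id hn
      (by have := hd 0; omega))
  obtain ⟨t₂, ht₂⟩ := Fintype.exists_ne_of_one_lt_card (by omega) t₁
  obtain ⟨v₀, -, hv₀, -, -⟩ := exists_triple_sc hh
  let sd : F → GG h → Side F e h := fun t v =>
    ⟨m, fun i o => o.elim (ev (3 * e) (![t, t₁] i)) fun l => trunc e (b l i), 0, ![v, v₀]⟩
  have hdeg : ∀ (w : F[X]) (t : F), (w * (X - C t)).natDegree ≤ w.natDegree + 1 := fun w t =>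
    natDegree_mul_le.trans (by rw [natDegree_X_sub_C])
  have hok : ∀ t v, (∃ k, v (some k) ≠ 0) → SideOK (2 * R + 2) (sd t v) := by
    intro t v hv i
    refine ⟨li_option_sel (hli i) (hpar i) (par_ev _), ⟨ω i * (X - C (![t, t₁] i)),
      mul_ne_zero (hω i) (X_sub_C_ne_zero _), (hdeg _ _).trans (by have := hd i; omega),
      fun o => ?_⟩, ?_⟩
    · cases o
      · exact low_ev (by simp)
      · exact (hlow i _ (hb _).1).of_dvd (dvd_mul_right _ _)
    · fin_cases i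
      · exact hv
      · exact hv₀
  have hlink : ∀ t v, Link (sd t v) A := by
    intro t v y hy hU
    have hyI : y ∈ II A := ⟨hy, hU⟩
    obtain ⟨c, hc⟩ := hspan y hyI (hev y hyI)
    refine ⟨0, 0, fun i t' ht => ?_⟩
    have h2 : ∀ j, (A i).T (trunc e (b j i)) (ev (3 * e) t') = 0 := ht.1
    rw [row, hc, par_II hyI, hev y hyI, map_sum]
    simp [LinearMap.sum_apply, h2]
  by_contra hcon
  push Not at hcon
  obtain ⟨b₁, hb₁⟩ := valZ_nonempty hγ (fun i => (hA i).1.2) (hok t₁ v₀ hv₀) 1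
  have key : ∀ t, ∀ z ∈ XX F (4 * e), par z = 1 →
      (∀ l, (A 0).T (trunc e (b l 0)) (trunc e z) = 0) →
      chi ((A 1).u (U (A 0).c z)) + chi ((A 0).T (ev (3 * e) t) (trunc e z)) + b₁ = 1 := by
    intro t z hz hp h0
    have : ∀ v, (∃ k, v (some k) ≠ 0) → chi ((A 0).T (ev (3 * e) t) (trunc e z) + v) =
        chi ((A 0).T (ev (3 * e) t) (trunc e z)) →
        chi ((A 1).u (U (A 0).c z)) + chi ((A 0).T (ev (3 * e) t) (trunc e z)) + b₁ = 1 := by
      intro v hv hsel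
      obtain ⟨s, hs1, hs2⟩ := hcon (sd t v) (hok t v hv) (hlink t v)
      rw [← hs1, ← hs2 1 b₁ hb₁, ← hs2 0 _ ⟨z, hz, hp, ⟨h0, hsel⟩, rfl⟩]
      rfl
    by_cases h3 : chi ((A 0).T (ev (3 * e) t) (trunc e z) + v₀) =
        chi ((A 0).T (ev (3 * e) t) (trunc e z))
    · exact this v₀ hv₀ h3
    · refine this (v₀ + e0) (nonrad_add_e0_sc hv₀) ?_
      rw [← add_assoc, chi_add_e0]
      revert h3
      generalize chi ((A 0).T (ev (3 * e) t) (trunc e z) + v₀) = x1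
      generalize chi ((A 0).T (ev (3 * e) t) (trunc e z)) = x2
      revert x1 x2
      decide
  let r' : Option (Option (Fin m)) → Y F (3 * e) := fun o =>
    o.elim (ev (3 * e) t₂) fun o' => o'.elim (ev (3 * e) t₁) fun l => trunc e (b l 0)
  have hli' : LinearIndependent K r' := by
    refine linearIndependent_option.mpr ⟨li_option_sel (hli 0) (hpar 0) (par_ev _), fun hm => ?_⟩
    obtain ⟨c, hc⟩ := (Submodule.mem_span_range_iff_exists_fun K).mp hm
    rw [Fintype.sum_option] at hc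
    change c none • ev (3 * e) t₁ + ∑ l, c (some l) • trunc e (b l 0) = ev (3 * e) t₂ at hc
    have h1 := congrArg par hc
    simp only [map_add, map_smul, map_sum, par_ev, hpar, mul_zero, sum_const_zero, add_zero,
      smul_eq_mul, mul_one] at h1
    refine not_low_ev_add (M := 3 * e) (by have := hd 0; omega) ht₂.symm ht₁ ?_
    rw [← hc, h1, one_smul, ← add_assoc, add_self_K, zero_add]
    exact low_span (s := Set.range fun l => trunc e (b l 0))
      (by rintro _ ⟨l, rfl⟩; exact hlow 0 _ (hb l).1)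
      (Submodule.sum_mem _ fun l _ => Submodule.smul_mem _ _ (Submodule.subset_span ⟨l, rfl⟩))
  obtain ⟨z, hz, hp, hw⟩ := surj_rows_sel hγ (hA 0).1.2
    (ω := ω 0 * (X - C t₁) * (X - C t₂))
    (mul_ne_zero (mul_ne_zero (hω 0) (X_sub_C_ne_zero _)) (X_sub_C_ne_zero _))
    ((hdeg _ _).trans (by have := hd 0; have := hdeg (ω 0) t₁; omega)) r' hli'
    (fun o => by
      rcases o with _ | _ | l
      · exact low_ev (by simp)
      · exact low_ev (by simp)
      · exact (hlow 0 _ (hb _).1).of_dvd ((dvd_mul_right _ _).mul_right _))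
    fun o => o.elim e0 0
  have k1 := key t₁ z hz hp fun l => hw (some (some l))
  have k2 := key t₂ z hz hp fun l => hw (some (some l))
  have w1 : (A 0).T (ev (3 * e) t₁) (trunc e z) = 0 := hw (some none)
  have w2 : (A 0).T (ev (3 * e) t₂) (trunc e z) = e0 := hw none
  rw [w1, chi_zero] at k1
  rw [w2, chi_e0] at k2
  have : (1 : K) = 0 := by linear_combination (exp := 1) k2 - k1
  exact one_ne_zero this

end SelMain

/-- J9 -/
theorem exists_side (h R : ℕ) (hh : 1 ≤ h) : ∀ᶠ κ : ℕ in atTop,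
    ∀ (F : Type) [Field F] [Fintype F] [Algebra K F], Fintype.card F = 4 ^ κ →
    ∀ γ : ℝ, γ < 1 → ∀ A : Fin 2 → Vtx F (κ ^ 2) (4 * κ ^ 2) h, GoodPair R (2 * R + 2) γ A →
      ¬ Adj (A 0) (A 1) → ∃ S : Finset K, S.Nonempty ∧ ∃ sd : Side F (κ ^ 2) h,
        SideOK (2 * R + 2) sd ∧ ∃ B, (B = A ∨ B = A ∘ Fin.rev) ∧ Link sd B ∧ Cls S sd B := by
  obtain ⟨β, hβ, hsm⟩ : ∃ β : ℝ, 0 < β ∧
      63 * ((2 : ℝ) ^ ((2 * h + 1) * (2 * R + 2 + 1))) ^ 2 * β ≤ 1 :=
    ⟨1 / (63 * ((2 : ℝ) ^ ((2 * h + 1) * (2 * R + 2 + 1))) ^ 2), by positivity,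
      le_of_eq (by field_simp)⟩
  filter_upwards [weil_ev β hβ, eventually_ge_atTop (2 * R + 2)] with κ hW hκ F _ _ _ hq γ hγ A hA
    hadj
  have h1 : κ ≤ κ ^ 2 := Nat.le_self_pow (by norm_num) κ
  have h2 : κ < 4 ^ κ := Nat.lt_pow_self (by norm_num)
  obtain ⟨sd, hok, hl, hno⟩ : ∃ sd : Side F (κ ^ 2) h, SideOK (2 * R + 2) sd ∧ Link sd A ∧
      ¬ ∃ s : Fin 2 → K, s 0 + s 1 = 1 ∧ ∀ i b, ValZ sd A i b → b = s i := by
    by_cases hev : ∀ y ∈ II A, par (y 0) = 0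
    · exact even_case_sel hh (by omega) (by omega) hγ hA hev
    · push Not at hev
      obtain ⟨y₀, hy₀, hp₀⟩ := hev
      exact odd_case_sel hh (by omega) hγ hA hadj hy₀ (K_ne_zero.mp hp₀)
  exact finish_sel hβ.le (hW F hq) (by omega) hsm sd A hok hl
    (valZ_nonempty hγ (fun i => (hA i).1.2) hok) hno

end Vale.Agent.P060
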