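import Vale.Agent.P060.Basic

namespace Vale.Agent.P060

open Finset Polynomial Filter
open scoped BigOperators

section SignAux

/-- coefficient vectors for the twenty sign equations -/
abbrev Cf := (Slot → K) × (Slot → K) × (Slot → K) × (Fin 2 → K) × (Fin 2 → K) × (Fin 2 → K) ×
  (Fin 2 → K)

theorem card_Cf : (Fintype.card Cf : ℝ) = 2 ^ 20 := by
  simp only [Fintype.card_prod, Fintype.card_fun, ZMod.card, Fintype.card_fin]
  norm_num

def gam (e1 e2 e2' : Slot → K) (e3 e3' e4 : Fin 2 → K) : Bits where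
  X s := e2' (s.2, s.1.rev)
  T s := e3 s.2
  O s := e1 s + e2' (s.2, s.1) + e3' s.1
  D s := e1 s + e2 s + e3 s.2
  P i := e2 (i, 0) + e2 (i, 1)
  Pt := e4

def gamA (c : Cf) : Bits := gam c.1 c.2.1 c.2.2.1 c.2.2.2.1 c.2.2.2.2.1 c.2.2.2.2.2.1
def gamB (c : Cf) : Bits :=
  gam (c.1 ∘ Prod.swap) c.2.2.1 c.2.1 c.2.2.2.2.1 c.2.2.2.1 c.2.2.2.2.2.2

def defs (β β' : Bits) : Cf :=
  (fun s => β.shift β' s.1 s.2 + β'.shift β s.2 s.1 + 1,
   fun s => β'.X (s.2.rev, s.1) + (β.P s.1 + β.shift β' s.1 s.2),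
   fun s => β.X (s.2.rev, s.1) + (β'.P s.1 + β'.shift β s.1 s.2),
   fun j => β.T (0, j) + β.shift β' 0 j + (β.T (1, j) + β.shift β' 1 j),
   fun j => β'.T (0, j) + β'.shift β 0 j + (β'.T (1, j) + β'.shift β 1 j), β.Pt, β'.Pt)

def cdot (c w : Cf) : K :=
  c.1 ⬝ᵥ w.1 + c.2.1 ⬝ᵥ w.2.1 + c.2.2.1 ⬝ᵥ w.2.2.1 + c.2.2.2.1 ⬝ᵥ w.2.2.2.1 +
    c.2.2.2.2.1 ⬝ᵥ w.2.2.2.2.1 + c.2.2.2.2.2.1 ⬝ᵥ w.2.2.2.2.2.1 + c.2.2.2.2.2.2 ⬝ᵥ w.2.2.2.2.2.2

theorem cdot_add (c c' w : Cf) : cdot (c + c') w = cdot c w + cdot c' w := by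
  simp only [cdot, Prod.fst_add, Prod.snd_add, add_dotProduct]
  ring

theorem cdot_defs (c : Cf) (β β' : Bits) :
    cdot c (defs β β') = (gamA c).dot β + (gamB c).dot β' + ∑ s, c.1 s := by
  have r0 : (0 : Fin 2).rev = 1 := rfl
  have r1 : (1 : Fin 2).rev = 0 := rfl
  simp only [cdot, defs, gamA, gamB, gam, Bits.dot, Bits.shift, dotProduct, Fintype.sum_prod_type,
    Fin.sum_univ_two, r0, r1, Function.comp, Prod.swap]
  ring

theorem eq_zero_of_dot_sg {ι : Type} [Fintype ι] {w : ι → K} (h : ∀ a : ι → K, a ⬝ᵥ w = 0) :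
    w = 0 := by
  classical
  funext i
  simpa using h (Pi.single i 1)

theorem signEq_iff (β β' : Bits) : β.SignEq β' ↔ ∀ c, cdot c (defs β β') = 0 := by
  have key : β.SignEq β' ↔ defs β β' = 0 := by
    simp only [Bits.SignEq, Bits.Half, defs, Prod.ext_iff, funext_iff, Prod.fst_zero,
      Prod.snd_zero, Pi.zero_apply, add_eq_zero_K, Prod.forall]
    tauto
  rw [key]
  constructor
  · intro h0 c
    simp [h0, cdot]
  · intro h0
    refine Prod.ext (eq_zero_of_dot_sg fun a => ?_) (Prod.ext (eq_zero_of_dot_sg fun a => ?_)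
      (Prod.ext (eq_zero_of_dot_sg fun a => ?_) (Prod.ext (eq_zero_of_dot_sg fun a => ?_)
      (Prod.ext (eq_zero_of_dot_sg fun a => ?_) (Prod.ext (eq_zero_of_dot_sg fun a => ?_)
      (eq_zero_of_dot_sg fun a => ?_))))))
    · simpa [cdot] using h0 (a, 0, 0, 0, 0, 0, 0)
    · simpa [cdot] using h0 (0, a, 0, 0, 0, 0, 0)
    · simpa [cdot] using h0 (0, 0, a, 0, 0, 0, 0)
    · simpa [cdot] using h0 (0, 0, 0, a, 0, 0, 0)
    · simpa [cdot] using h0 (0, 0, 0, 0, a, 0, 0)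
    · simpa [cdot] using h0 (0, 0, 0, 0, 0, a, 0)
    · simpa [cdot] using h0 (0, 0, 0, 0, 0, 0, a)

theorem ind_signEq (β β' : Bits) : ind (β.SignEq β') = 𝔼 c, sgn (cdot c (defs β β')) := by
  rw [expect_sgn_of_add _ fun a b => cdot_add a b _, ind_congr (signEq_iff β β')]

/-- the coefficient vectors that only involve the marks -/
def G0 (c : Cf) : Prop :=
  (∀ i j, c.1 (i, j) = c.2.1 (i, j) + c.2.2.2.1 j ∧ c.1 (i, j) = c.2.2.1 (j, i) + c.2.2.2.2.1 i) ∧
  ∀ i, c.2.1 (i, 0) = c.2.1 (i, 1) ∧ c.2.2.1 (i, 0) = c.2.2.1 (i, 1) ∧ c.2.2.2.2.2.1 i = 0 ∧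
    c.2.2.2.2.2.2 i = 0

theorem G0_zero : G0 0 := by simp [G0]

theorem G0_add {c c' : Cf} (h : G0 c) (h' : G0 c') : G0 (c + c') := by
  refine ⟨fun i j => ⟨?_, ?_⟩, fun i => ⟨?_, ?_, ?_, ?_⟩⟩ <;>
    simp only [Prod.fst_add, Prod.snd_add, Pi.add_apply]
  · rw [(h.1 i j).1, (h'.1 i j).1]; ring
  · rw [(h.1 i j).2, (h'.1 i j).2]; ring
  · rw [(h.2 i).1, (h'.2 i).1]
  · rw [(h.2 i).2.1, (h'.2 i).2.1]
  · rw [(h.2 i).2.2.1, (h'.2 i).2.2.1, add_zero]
  · rw [(h.2 i).2.2.2, (h'.2 i).2.2.2, add_zero]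

theorem G0_of_not_small {c : Cf} (hA : ¬ (gamA c).Small) (hB : ¬ (gamB c).Small) : G0 c := by
  simp only [Bits.Small, not_or, not_exists, not_and, not_not] at hA hB
  have p1 : ∀ i, c.2.1 (i, 0) = c.2.1 (i, 1) := fun i => add_eq_zero_K.mp (hA.1 i).1
  have p2 : ∀ i, c.2.2.1 (i, 0) = c.2.2.1 (i, 1) := fun i => add_eq_zero_K.mp (hB.1 i).1
  have q1 : ∀ i j, c.2.1 (i, j.rev) = c.2.1 (i, j) := fun i j => by
    fin_cases j
    · exact (p1 i).symm
    · exact p1 i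
  have q2 : ∀ i j, c.2.2.1 (i, j.rev) = c.2.2.1 (i, j) := fun i j => by
    fin_cases j
    · exact (p2 i).symm
    · exact p2 i
  refine ⟨fun i j => ?_, fun i => ⟨p1 i, p2 i, (hA.1 i).2, (hB.1 i).2⟩⟩
  have a1 := hA.2.1 (i, j)
  have a2 := hA.2.2 (i, j)
  have b1 := hB.2.1 (j, i)
  have b2 := hB.2.2 (j, i)
  simp only [gamA, gamB, gam, q1, q2, Function.comp, Prod.swap] at a1 a2 b1 b2
  revert a1 a2 b1 b2
  generalize c.1 (i, j) = x1
  generalize c.2.1 (i, j) = x2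
  generalize c.2.2.1 (j, i) = x3
  generalize c.2.2.2.1 j = x4
  generalize c.2.2.2.2.1 i = x5
  rcases K_cases x1 with rfl | rfl <;> rcases K_cases x2 with rfl | rfl <;>
    rcases K_cases x3 with rfl | rfl <;> rcases K_cases x4 with rfl | rfl <;>
    rcases K_cases x5 with rfl | rfl <;> simp

theorem cdot_G0 {c : Cf} (hc : G0 c) {β β' : Bits} (hm : β'.marks = β.marks)
    (ha : Adm β.marks) : cdot c (defs β β') = 0 := by
  obtain ⟨e1, e2, e2', f, g, e4, e4'⟩ := c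
  obtain ⟨h1, h2⟩ := hc
  simp only at h1 h2
  obtain ⟨k, hk⟩ : ∃ k, k = e2 (0, 0) + g 0 := ⟨_, rfl⟩
  have u : ∀ j, e2' (j, 0) = k + f j := fun j => by
    fin_cases j
    · change e2' (0, 0) = k + f 0
      linear_combination (exp := 1) (h1 0 0).1 - (h1 0 0).2 - hk - g 0 * (K_add_self 1)
    · change e2' (1, 0) = k + f 1
      linear_combination (exp := 1) (h1 0 1).1 - (h1 0 1).2 - hk - (h2 0).1 - g 0 * (K_add_self 1)
  have u' : e2' = fun s => k + f s.1 := by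
    funext ⟨j, i⟩
    fin_cases i
    · exact u j
    · exact (h2 j).2.1.symm.trans (u j)
  have v1 : e1 = fun s => k + f s.2 + g s.1 := by
    funext ⟨i, j⟩
    rw [(h1 i j).2, u']
  have v2 : e2 = fun s => k + g s.1 := by
    funext ⟨i, j⟩
    have := (h1 i j).1
    rw [v1] at this
    linear_combination (exp := 1) -this
  have v4 : e4 = 0 := funext fun i => (h2 i).2.2.1
  have v4' : e4' = 0 := funext fun i => (h2 i).2.2.2
  have mX : β'.X = β.X := funext fun s => congrArg Prod.fst (congrFun hm s)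
  have mT : β'.T = β.T := funext fun s => congrArg Prod.snd (congrFun hm s)
  have a0 : β.X (0, 0) + β.T (0, 0) = β.X (1, 0) + β.T (1, 0) := ha 0
  have a1 : β.X (0, 1) + β.T (0, 1) = β.X (1, 1) + β.T (1, 1) := ha 1
  have z1 : ∀ a b c : K, a + b + c + (a + b) + c = 0 := by decide
  have z2 : ∀ a b c : K, a + b + c + (a + c) + b = 0 := by decide
  rw [cdot_defs]
  simp only [gamA, gamB, gam, Bits.dot, u', v1, v2, v4, v4', mX, mT, Function.comp, Prod.swap, z1,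
    z2, K_add_self, zero_mul, add_zero, Pi.zero_apply, Fintype.sum_prod_type, Fin.sum_univ_two]
  linear_combination (exp := 1) (f 0 + g 0) * a0 + (f 1 + g 1) * a1 +
    ((f 0 + g 0) * (β.X (1, 0) + β.T (1, 0)) + (f 1 + g 1) * (β.X (1, 1) + β.T (1, 1)) +
      k * (β.X (0, 0) + β.X (0, 1) + β.X (1, 0) + β.X (1, 1)) + 2 * k + g 0 + g 1 + f 0 + f 1) *
      (K_add_self 1)

theorem expect_G0_ge (β β' : Bits) :
    ind (β'.marks = β.marks ∧ Adm β.marks) / 2 ^ 20 ≤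
      𝔼 c, ind (G0 c) * sgn (cdot c (defs β β')) := by
  by_cases h0 : ∀ c, G0 c → cdot c (defs β β') = 0
  · refine le_trans (div_le_div_of_nonneg_right (ind_le_one _) (by positivity)) ?_
    rw [← card_Cf, ← expect_ind_eq (0 : Cf)]
    refine expect_mono fun c => ?_
    by_cases hc : G0 c
    · rw [h0 c hc, sgn_zero, mul_one, ind_pos hc]; exact ind_le_one _
    · rw [ind_neg hc, zero_mul, ind_neg fun h : c = 0 => hc (h ▸ G0_zero)]
  · rw [ind_neg fun hm => h0 fun c hc => cdot_G0 hc hm.1 hm.2, zero_div]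
    push Not at h0
    obtain ⟨c₀, hc₀, h1⟩ := h0
    have h2 := expect_equiv' (Equiv.addRight c₀) fun c => ind (G0 c) * sgn (cdot c (defs β β'))
    have h3 : ∀ c, ind (G0 (c + c₀)) * sgn (cdot (c + c₀) (defs β β')) =
        -(ind (G0 c) * sgn (cdot c (defs β β'))) := by
      intro c
      rw [cdot_add, K_ne_zero.mp h1, sgn_add, sgn_one, ind_congr (Q := G0 c)]
      · ring
      · refine ⟨fun h => ?_, fun h => G0_add h hc₀⟩
        have := G0_add h hc₀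
        rwa [add_assoc, add_self_K, add_zero] at this
    simp only [Equiv.coe_addRight, h3, expect_neg_distrib] at h2
    linarith

variable {𝒯 V : Type} [Fintype 𝒯] [Fintype V] [Nonempty V]

/-- density of the push-forward -/
noncomputable def fib (P : 𝒯 → Slot → V) (g : 𝒯 → ℝ) (v : Slot → V) : ℝ :=
  (Fintype.card V : ℝ) ^ 4 * 𝔼 T, g T * ind (P T = v)

theorem expect_fib (P : 𝒯 → Slot → V) (g : 𝒯 → ℝ) (Z : (Slot → V) → ℝ) :
    𝔼 T, g T * Z (P T) = 𝔼 v, fib P g v * Z v := by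
  rw [expect_fiber P fun T v => g T * Z v]
  refine expect_congr rfl fun v _ => ?_
  rw [fib, mul_assoc, expect_mul]
  congr 1
  · simp
  · exact expect_congr rfl fun T _ => by ring

omit [Nonempty V] in
theorem fib_mono (P : 𝒯 → Slot → V) {g g' : 𝒯 → ℝ} (h : ∀ T, g T ≤ g' T) (v : Slot → V) :
    fib P g v ≤ fib P g' v :=
  mul_le_mul_of_nonneg_left (expect_mono fun T => mul_le_mul_of_nonneg_right (h T) (ind_nonneg _))
    (by positivity)

omit [Nonempty V] in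
theorem fib_nonneg (P : 𝒯 → Slot → V) {g : 𝒯 → ℝ} (h : ∀ T, 0 ≤ g T) (v : Slot → V) :
    0 ≤ fib P g v :=
  mul_nonneg (by positivity) (expect_nonneg' fun T => mul_nonneg (h T) (ind_nonneg _))

omit [Nonempty V] in
theorem abs_fib_le (P : 𝒯 → Slot → V) {g g' : 𝒯 → ℝ} (h : ∀ T, |g T| ≤ g' T) (v : Slot → V) :
    |fib P g v| ≤ fib P g' v := by
  rw [fib, abs_mul, abs_of_nonneg (by positivity)]
  refine mul_le_mul_of_nonneg_left ((abs_expect_le' _).trans (expect_mono fun T => ?_))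
    (by positivity)
  rw [abs_mul, abs_of_nonneg (ind_nonneg _)]
  exact mul_le_mul_of_nonneg_right (h T) (ind_nonneg _)

theorem pair_fib (P : 𝒯 → Slot → V) (g g' : 𝒯 → ℝ) (Z : (Slot → V) → ℝ) :
    (Fintype.card V : ℝ) ^ 4 * 𝔼 T, 𝔼 T', g T * g' T' * Z (P T) * ind (P T' = P T ∘ Prod.swap) =
      𝔼 v, fib P g v * (Z v * fib P g' (v ∘ Prod.swap)) := by
  rw [← expect_fib P g fun v => Z v * fib P g' (v ∘ Prod.swap), mul_expect]
  refine expect_congr rfl fun T _ => ?_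
  simp only [fib, mul_expect]
  exact expect_congr rfl fun T' _ => by ring

/-- exchange of the two indices of a slot -/
def swapE : (Slot → V) ≃ (Slot → V) where
  toFun v := v ∘ Prod.swap
  invFun v := v ∘ Prod.swap
  left_inv _ := rfl
  right_inv _ := rfl

omit [Nonempty V] in
theorem expect_swap_sg (f : (Slot → V) → ℝ) : 𝔼 v, f (v ∘ Prod.swap) = 𝔼 v, f v :=
  expect_equiv' swapE f

theorem mass_notW (b : 𝒯 → ℝ) (P : 𝒯 → Slot → V) {ε : ℝ} (hb : ∀ T, 0 ≤ b T)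
    (hU : ∀ Z : (Slot → V) → ℝ, (∀ v, |Z v| ≤ 1) → |(𝔼 T, b T * Z (P T)) - 𝔼 v, Z v| ≤ ε) :
    𝔼 T, b T * ind (¬ (fib P b (P T) ≤ 2 ∧ fib P b (P T ∘ Prod.swap) ≤ 2)) ≤ 4 * ε := by
  have h1 := abs_le.mp (hU (fun v => ind (2 < fib P b v)) fun v => abs_ind_le _)
  have h2 := abs_le.mp (hU (fun v => ind (2 < fib P b (v ∘ Prod.swap))) fun v => abs_ind_le _)
  rw [expect_swap_sg fun v => ind (2 < fib P b v)] at h2
  have h3 : 2 * 𝔼 v, ind (2 < fib P b v) ≤ 𝔼 T, b T * ind (2 < fib P b (P T)) := by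
    rw [expect_fib P b fun v => ind (2 < fib P b v), mul_expect]
    refine expect_mono fun v => ?_
    by_cases hv : 2 < fib P b v
    · rw [ind_pos hv]; linarith
    · rw [ind_neg hv]; simp
  have h4 : 𝔼 T, b T * ind (¬ (fib P b (P T) ≤ 2 ∧ fib P b (P T ∘ Prod.swap) ≤ 2)) ≤
      (𝔼 T, b T * ind (2 < fib P b (P T))) + 𝔼 T, b T * ind (2 < fib P b (P T ∘ Prod.swap)) := by
    rw [← expect_add_distrib]
    refine expect_mono fun T => ?_
    rw [← mul_add, not_and_or, not_le, not_le]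
    exact mul_le_mul_of_nonneg_left (ind_or_le _ _) (hb T)
  linarith

theorem marks_lower (b : 𝒯 → ℝ) (P : 𝒯 → Slot → V) (β : 𝒯 → Bits) {c₀ δ : ℝ} (hb : ∀ T, 0 ≤ b T)
    (W : (Slot → V) → Prop) (hW : 𝔼 T, b T * ind (¬ W (P T)) ≤ δ)
    (hL : ∀ ζ : (Slot → K × K) → (Slot → V) → Prop, (∀ lam v, ζ lam v ∨ ζ lam (v ∘ Prod.swap)) →
      c₀ ≤ 𝔼 T, b T * ind (Adm (β T).marks ∧ ζ (β T).marks (P T))) (hc : δ ≤ c₀) :
    (c₀ - δ) ^ 2 / 2 ^ 8 ≤ (Fintype.card V : ℝ) ^ 4 * 𝔼 T, 𝔼 T', b T * b T' * ind (W (P T)) *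
      ind (P T' = P T ∘ Prod.swap) * ind ((β T').marks = (β T).marks ∧ Adm (β T).marks) := by
  classical
  let p : (Slot → K × K) → (Slot → V) → ℝ := fun lam =>
    fib P fun T => b T * ind ((β T).marks = lam)
  have hp : ∀ lam v, 0 ≤ p lam v := fun lam v =>
    fib_nonneg P (fun T => mul_nonneg (hb T) (ind_nonneg _)) v
  have hsplit : ∀ (T : 𝒯) (f : (Slot → K × K) → ℝ),
      f (β T).marks = ∑ lam, ind ((β T).marks = lam) * f lam := by
    intro T f
    rw [sum_eq_single (β T).marks (fun l _ hl => by rw [ind_neg hl.symm, zero_mul]) (by simp),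
      ind_pos rfl, one_mul]
  let u : (Slot → K × K) → (Slot → V) → ℝ := fun lam v =>
    p lam v * ind (Adm lam ∧ p lam v ≤ p lam (v ∘ Prod.swap) ∧ W v)
  have h1 : c₀ - δ ≤ ∑ lam, 𝔼 v, u lam v := by
    have := hL (fun lam v => p lam v ≤ p lam (v ∘ Prod.swap)) fun lam v => le_total _ _
    have h2 : ∑ lam, 𝔼 v, u lam v = 𝔼 T, b T * ind (Adm (β T).marks ∧
        p (β T).marks (P T) ≤ p (β T).marks (P T ∘ Prod.swap) ∧ W (P T)) := by
      simp only [u, p]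
      rw [sum_congr rfl fun lam _ => (expect_fib P _ fun v =>
        ind (Adm lam ∧ p lam v ≤ p lam (v ∘ Prod.swap) ∧ W v)).symm, ← expect_sum_comm]
      refine expect_congr rfl fun T _ => ?_
      rw [hsplit T fun lam => b T * ind (Adm lam ∧ p lam (P T) ≤ p lam (P T ∘ Prod.swap) ∧
        W (P T))]
      exact sum_congr rfl fun lam _ => by ring
    rw [h2, sub_le_iff_le_add]
    refine this.trans (le_trans ?_ (add_le_add le_rfl hW))
    rw [← expect_add_distrib]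
    refine expect_mono fun T => ?_
    rw [← mul_add]
    refine mul_le_mul_of_nonneg_left (le_trans (ind_mono ?_) (ind_or_le _ _)) (hb T)
    tauto
  have h3 : (Fintype.card V : ℝ) ^ 4 * 𝔼 T, 𝔼 T', b T * b T' * ind (W (P T)) *
      ind (P T' = P T ∘ Prod.swap) * ind ((β T').marks = (β T).marks ∧ Adm (β T).marks) =
      ∑ lam, 𝔼 v, p lam v * (ind (Adm lam ∧ W v) * p lam (v ∘ Prod.swap)) := by
    simp only [p]
    rw [sum_congr rfl fun lam _ => (pair_fib P _ _ fun v => ind (Adm lam ∧ W v)).symm, ← mul_sum]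
    simp only [← expect_sum_comm]
    congr 1
    refine expect_congr rfl fun T _ => expect_congr rfl fun T' _ => ?_
    rw [hsplit T fun lam => b T * b T' * ind (W (P T)) * ind (P T' = P T ∘ Prod.swap) *
      ind ((β T').marks = lam ∧ Adm lam)]
    refine sum_congr rfl fun lam _ => ?_
    simp only [ind_and]
    ring
  rw [h3, div_le_iff₀ (by positivity)]
  have h4 : (∑ lam, 𝔼 v, u lam v) ^ 2 ≤ (∑ lam, (𝔼 v, u lam v) ^ 2) * 2 ^ 8 := by
    have := sq_sum_le_card_mul_sum_sq (s := univ) (f := fun lam => 𝔼 v, u lam v)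
    rw [card_univ, Fintype.card_fun, Fintype.card_prod, Fintype.card_prod, ZMod.card,
      Fintype.card_fin] at this
    norm_num at this ⊢
    linarith
  refine ((pow_le_pow_left₀ (by linarith) h1 2).trans h4).trans ?_
  refine mul_le_mul_of_nonneg_right (sum_le_sum fun lam _ => ?_) (by positivity)
  have h5 := expect_weighted_sq_le (fun _ => 1) (u lam) fun _ => zero_le_one
  simp only [one_mul, Fintype.expect_const] at h5
  refine h5.trans (expect_mono fun v => ?_)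
  by_cases hv : Adm lam ∧ p lam v ≤ p lam (v ∘ Prod.swap) ∧ W v
  · simp only [u]
    rw [ind_pos hv, ind_pos ⟨hv.1, hv.2.2⟩, mul_one, one_mul, sq]
    exact mul_le_mul_of_nonneg_left hv.2.1 (hp _ _)
  · simp only [u]
    rw [ind_neg hv, mul_zero, sq, mul_zero]
    exact mul_nonneg (hp _ _) (mul_nonneg (ind_nonneg _) (hp _ _))

theorem term_small (b : 𝒯 → ℝ) (P : 𝒯 → Slot → V) (β : 𝒯 → Bits) {σ : ℝ} (hb : ∀ T, 0 ≤ b T)
    (hS : ∀ γ : Bits, γ.Small → ∀ Z : (Slot → V) → ℝ, (∀ v, |Z v| ≤ 1) →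
      |𝔼 T, b T * sgn (γ.dot (β T)) * Z (P T)| ≤ σ) (W : (Slot → V) → Prop)
    (hW : ∀ v, W v → fib P b (v ∘ Prod.swap) ≤ 2) {γ : Bits} (hγ : γ.Small) (γ' : Bits) :
    |𝔼 v, fib P (fun T => b T * sgn (γ.dot (β T))) v *
      (ind (W v) * fib P (fun T => b T * sgn (γ'.dot (β T))) (v ∘ Prod.swap))| ≤ 2 * σ := by
  have h1 := hS γ hγ (fun v => ind (W v) *
    fib P (fun T => b T * sgn (γ'.dot (β T))) (v ∘ Prod.swap) / 2) fun v => by
      rw [abs_div, abs_two, div_le_one two_pos]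
      by_cases hv : W v
      · rw [ind_pos hv, one_mul]
        refine (abs_fib_le P (fun T => ?_) _).trans (hW v hv)
        rw [abs_mul, abs_sgn, mul_one, abs_of_nonneg (hb T)]
      · rw [ind_neg hv]; simp
  rw [expect_fib P (fun T => b T * sgn (γ.dot (β T))) fun v => ind (W v) *
    fib P (fun T => b T * sgn (γ'.dot (β T))) (v ∘ Prod.swap) / 2] at h1
  simp only [← mul_div_assoc] at h1
  rw [← expect_div, abs_div, abs_two] at h1
  linarith

theorem fourier_lower (b : 𝒯 → ℝ) (P : 𝒯 → Slot → V) (β : 𝒯 → Bits) {σ : ℝ} (hb : ∀ T, 0 ≤ b T)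
    (hS : ∀ γ : Bits, γ.Small → ∀ Z : (Slot → V) → ℝ, (∀ v, |Z v| ≤ 1) →
      |𝔼 T, b T * sgn (γ.dot (β T)) * Z (P T)| ≤ σ) (W : (Slot → V) → Prop)
    (hW : ∀ v, W v → fib P b (v ∘ Prod.swap) ≤ 2) (hW' : ∀ v, W (v ∘ Prod.swap) ↔ W v) :
    ((Fintype.card V : ℝ) ^ 4 * 𝔼 T, 𝔼 T', b T * b T' * ind (W (P T)) *
      ind (P T' = P T ∘ Prod.swap) * ind ((β T').marks = (β T).marks ∧ Adm (β T).marks)) / 2 ^ 20 -
      2 * σ ≤ (Fintype.card V : ℝ) ^ 4 * 𝔼 T, 𝔼 T', b T * b T' * ind (W (P T)) *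
        ind (P T' = P T ∘ Prod.swap) * ind ((β T).SignEq (β T')) := by
  have hσ : 0 ≤ σ := by
    have := hS ⟨0, 0, 0, 0, 1, 0⟩ (Or.inl ⟨0, Or.inl one_ne_zero⟩) (fun _ => 0) (by simp)
    simpa using this
  let t : Cf → ℝ := fun c => (Fintype.card V : ℝ) ^ 4 * 𝔼 T, 𝔼 T', b T * b T' * ind (W (P T)) *
    ind (P T' = P T ∘ Prod.swap) * sgn (cdot c (defs (β T) (β T')))
  have ht : ∀ c, ¬ G0 c → |t c| ≤ 2 * σ := by
    intro c hc
    have h1 : t c = sgn (∑ s, c.1 s) * 𝔼 v, fib P (fun T => b T * sgn ((gamA c).dot (β T))) v *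
        (ind (W v) * fib P (fun T => b T * sgn ((gamB c).dot (β T))) (v ∘ Prod.swap)) := by
      rw [← pair_fib P _ _ fun v => ind (W v), mul_left_comm]
      simp only [t, mul_expect, cdot_defs, sgn_add]
      exact expect_congr rfl fun T _ => expect_congr rfl fun T' _ => by ring
    rw [h1, abs_mul, abs_sgn, one_mul]
    by_cases hA : (gamA c).Small
    · exact term_small b P β hb hS W hW hA _
    · have hB : (gamB c).Small := by
        by_contra hB
        exact hc (G0_of_not_small hA hB)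
      have := term_small b P β hb hS W hW hB (gamA c)
      rw [← expect_swap_sg]
      refine le_of_eq_of_le (congrArg _ (expect_congr rfl fun v _ => ?_)) this
      rw [ind_congr (hW' v)]
      change _ * (_ * fib P _ v) = _
      ring
  have h2 : ∀ f : Cf → ℝ, 𝔼 c, f c * t c = (Fintype.card V : ℝ) ^ 4 * 𝔼 T, 𝔼 T',
      b T * b T' * ind (W (P T)) * ind (P T' = P T ∘ Prod.swap) *
        𝔼 c, f c * sgn (cdot c (defs (β T) (β T'))) := by
    intro f
    simp only [t, mul_expect]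
    rw [expect_comm]
    refine expect_congr rfl fun T _ => ?_
    rw [expect_comm]
    exact expect_congr rfl fun T' _ => expect_congr rfl fun c _ => by ring
  have h3 := h2 fun _ => 1
  simp only [one_mul, ← ind_signEq] at h3
  rw [← h3]
  have h4 : (𝔼 c, ind (G0 c) * t c) - 2 * σ ≤ 𝔼 c, t c := by
    rw [← Fintype.expect_const (ι := Cf) (2 * σ), ← expect_sub_distrib]
    refine expect_mono fun c => ?_
    by_cases hc : G0 c
    · rw [ind_pos hc]; linarith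
    · rw [ind_neg hc]
      have := abs_le.mp (ht c hc)
      linarith
  refine le_trans (sub_le_sub_right ?_ _) h4
  rw [h2, mul_div_assoc]
  refine mul_le_mul_of_nonneg_left ?_ (by positivity)
  simp only [expect_div]
  refine expect_mono fun T => expect_mono fun T' => ?_
  rw [mul_div_assoc]
  exact mul_le_mul_of_nonneg_left (expect_G0_ge _ _)
    (mul_nonneg (mul_nonneg (mul_nonneg (hb T) (hb T')) (ind_nonneg _)) (ind_nonneg _))

end SignAux

/-- J5 -/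
theorem sign_pos {𝒯 V : Type} [Fintype 𝒯] [Fintype V] [Nonempty V] (b : 𝒯 → ℝ)
    (P : 𝒯 → Slot → V) (β : 𝒯 → Bits) (typ : 𝒯 → Prop) (c₀ ε σ ε' : ℝ) (hb : ∀ T, 0 ≤ b T)
    (hU : ∀ Z : (Slot → V) → ℝ, (∀ v, |Z v| ≤ 1) → |(𝔼 T, b T * Z (P T)) - 𝔼 v, Z v| ≤ ε)
    (hS : ∀ γ : Bits, γ.Small → ∀ Z : (Slot → V) → ℝ, (∀ v, |Z v| ≤ 1) →
      |𝔼 T, b T * sgn (γ.dot (β T)) * Z (P T)| ≤ σ)
    (hT : 𝔼 T, b T * ind (¬ typ T) ≤ ε')
    (hL : ∀ ζ : (Slot → K × K) → (Slot → V) → Prop, (∀ lam v, ζ lam v ∨ ζ lam (v ∘ Prod.swap)) →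
      c₀ ≤ 𝔼 T, b T * ind (Adm (β T).marks ∧ ζ (β T).marks (P T)))
    (hc : 4 * ε ≤ c₀) :
    ∃ W : (Slot → V) → Prop,
      (∀ v, W v → (Fintype.card V : ℝ) ^ 4 * 𝔼 T, b T * ind (P T = v) ≤ 2) ∧
      (c₀ - 4 * ε) ^ 2 / 2 ^ 28 - 2 * σ - 4 * ε' ≤ (Fintype.card V : ℝ) ^ 4 *
        𝔼 T, 𝔼 T', (b T * ind (typ T ∧ W (P T))) * (b T' * ind (typ T' ∧ W (P T'))) *
          ind (P T' = P T ∘ Prod.swap ∧ (β T).SignEq (β T')) := by
  let W : (Slot → V) → Prop := fun v => fib P b v ≤ 2 ∧ fib P b (v ∘ Prod.swap) ≤ 2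
  have hW' : ∀ v, W (v ∘ Prod.swap) ↔ W v := fun v => and_comm
  refine ⟨W, fun v hv => hv.1, ?_⟩
  have h1 := marks_lower b P β hb W (mass_notW b P hb hU) hL hc
  have h2 := fourier_lower b P β hb hS W (fun v hv => hv.2) hW'
  have hbn : ∀ T, 0 ≤ b T * ind (¬ typ T) := fun T => mul_nonneg (hb T) (ind_nonneg _)
  have h3 : 𝔼 v, fib P (fun T => b T * ind (¬ typ T)) v * (ind (W v) * fib P b (v ∘ Prod.swap)) ≤
      2 * ε' := by
    refine le_trans ?_ (mul_le_mul_of_nonneg_left hT zero_le_two)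
    have := expect_fib P (fun T => b T * ind (¬ typ T)) fun _ => 2
    rw [mul_expect, expect_congr rfl fun T _ => mul_comm 2 _, this]
    refine expect_mono fun v => mul_le_mul_of_nonneg_left ?_ (fib_nonneg P hbn v)
    by_cases hv : W v
    · rw [ind_pos hv, one_mul]; exact hv.2
    · rw [ind_neg hv, zero_mul]; exact zero_le_two
  have h4 : 𝔼 v, fib P b v * (ind (W v) *
      fib P (fun T => b T * ind (¬ typ T)) (v ∘ Prod.swap)) ≤ 2 * ε' := by
    rw [← expect_swap_sg]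
    convert h3 using 2 with v
    rw [ind_congr (hW' v)]
    change _ * (_ * fib P _ v) = _
    ring
  rw [← pair_fib P _ _ fun v => ind (W v)] at h3 h4
  have h5 : (Fintype.card V : ℝ) ^ 4 * 𝔼 T, 𝔼 T', b T * b T' * ind (W (P T)) *
        ind (P T' = P T ∘ Prod.swap) * ind ((β T).SignEq (β T')) ≤
      (Fintype.card V : ℝ) ^ 4 *
        (𝔼 T, 𝔼 T', (b T * ind (typ T ∧ W (P T))) * (b T' * ind (typ T' ∧ W (P T'))) *
          ind (P T' = P T ∘ Prod.swap ∧ (β T).SignEq (β T'))) +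
      (Fintype.card V : ℝ) ^ 4 * (𝔼 T, 𝔼 T', b T * ind (¬ typ T) * b T' * ind (W (P T)) *
        ind (P T' = P T ∘ Prod.swap)) +
      (Fintype.card V : ℝ) ^ 4 * 𝔼 T, 𝔼 T', b T * (b T' * ind (¬ typ T')) * ind (W (P T)) *
        ind (P T' = P T ∘ Prod.swap) := by
    rw [← mul_add, ← mul_add]
    refine mul_le_mul_of_nonneg_left ?_ (by positivity)
    simp only [← expect_add_distrib]
    refine expect_mono fun T => expect_mono fun T' => ?_
    have hbb := mul_nonneg (hb T) (hb T')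
    by_cases e1 : P T' = P T ∘ Prod.swap
    · have e2 : W (P T') ↔ W (P T) := by rw [e1, hW']
      by_cases e3 : W (P T) <;> by_cases e4 : typ T <;> by_cases e5 : typ T' <;>
        by_cases e6 : (β T).SignEq (β T') <;> simp [ind, e1, hW', e3, e4, e5, e6] <;> positivity
    · simp [ind, e1]
  have h6 : (c₀ - 4 * ε) ^ 2 / 2 ^ 28 = (c₀ - 4 * ε) ^ 2 / 2 ^ 8 / 2 ^ 20 := by ring
  have h7 := div_le_div_of_nonneg_right h1 (by positivity : (0 : ℝ) ≤ 2 ^ 20)
  linarith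

end Vale.Agent.P060
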