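import Vale.Agent.P060.SmallU

set_option linter.unusedSectionVars false

namespace Vale.Agent.P060

open Finset Polynomial Filter
open scoped BigOperators

section aux
variable {F : Type} [Field F] [Fintype F] [Algebra K F] {e n h : ℕ}

theorem bent_sc (l : GG h → K) (hl : ∀ a b, l (a + b) = l a + l b) :
    |𝔼 a, sgn (chi a + l a)| ≤ 1 / 2 ^ h := by
  refine abs_le_of_sq_le_sq' ?_ (by positivity) |> abs_le.mpr
  have h1 : ∀ a : GG h, 𝔼 b, sgn (chi b + l b) = 𝔼 b, sgn (chi (a + b) + l (a + b)) := fun a =>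
    (expect_equiv' (Equiv.addLeft a) fun b => sgn (chi b + l b)).symm
  have h2 : ∀ a b : GG h, sgn (chi a + l a) * sgn (chi (a + b) + l (a + b)) =
      sgn (chi b + l b) * sgn (BB a b) := by
    intro a b
    rw [← sgn_add, ← sgn_add, chi_add, hl]
    congr 1
    generalize chi a = x
    generalize chi b = y
    generalize BB a b = z
    generalize l a = u
    generalize l b = v
    revert x y z u v
    decide
  calc (𝔼 a, sgn (chi a + l a)) ^ 2 = 𝔼 a, sgn (chi a + l a) * 𝔼 b, sgn (chi b + l b) := by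
        rw [sq, expect_mul]
    _ = 𝔼 a : GG h, 𝔼 b, sgn (chi b + l b) * sgn (BB a b) := by
        refine expect_congr rfl fun a _ => ?_
        rw [h1 a, mul_expect]
        simp only [h2]
    _ = 𝔼 b, sgn (chi b + l b) * 𝔼 a : GG h, sgn (BB a b) := by
        rw [expect_comm]
        simp only [mul_expect]
    _ ≤ 𝔼 b : GG h, (ind (b = 0) + ind (b = e0)) := by
        refine expect_mono fun b => ?_
        rw [expect_sgn_of_add (fun a => BB a b) fun a a' => BB_add_left a a' b]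
        refine (mul_le_of_le_one_left (ind_nonneg _) (sgn_le_one _)).trans
          (le_trans (ind_mono fun hb => ?_) (ind_or_le _ _))
        have := eq_smul_e0 (BB_radical.mp fun a => by rw [BB_comm]; exact hb a)
        rcases K_cases (b none) with h0 | h0 <;> rw [h0] at this
        · left; simpa using this
        · right; simpa using this
    _ = (1 / 2 ^ h) ^ 2 := by
        rw [expect_add_distrib, expect_ind_eq, expect_ind_eq, card_GG_real]
        field_simp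
        ring

/-- bound for the Fourier coefficients of `sgn (k * chi)` -/
noncomputable def bnd (h : ℕ) (k : K) : ℝ := if k = 0 then 1 else 1 / 2 ^ h

theorem bnd_nonneg (k : K) : 0 ≤ bnd h k := by unfold bnd; split_ifs <;> positivity

theorem bent_bnd (k : K) (l : GG h → K) (hl : ∀ a b, l (a + b) = l a + l b) :
    |𝔼 a, sgn (k * chi a + l a)| ≤ bnd h k := by
  rcases K_cases k with rfl | rfl
  · simpa [bnd] using abs_expect_le_one_su fun a => (abs_sgn (l a)).le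
  · simpa [bnd] using bent_sc l hl

theorem bent_bnd_sel (k : K) (v : GG h) (l : GG h → K) (hl : ∀ a b, l (a + b) = l a + l b) :
    |𝔼 a, ind (chi (a + v) = chi a) * sgn (k * chi a + l a)| ≤ bnd h k := by
  have h1 : ∀ a, ind (chi (a + v) = chi a) * sgn (k * chi a + l a) =
      (sgn (k * chi a + l a) + sgn (chi v) * sgn (k * chi a + (l a + BB a v))) / 2 := by
    intro a
    simp only [ind_chi_su, sgn_add]
    ring
  simp only [h1]
  rw [← expect_div, expect_add_distrib, ← mul_expect, abs_div, abs_two, div_le_iff₀ two_pos]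
  refine (abs_add_le _ _).trans ?_
  rw [abs_mul, abs_sgn, one_mul]
  have := bent_bnd k l hl
  have := bent_bnd k (fun a => l a + BB a v) fun a b => by rw [hl, BB_add_left]; ring
  linarith

theorem flip_sc {W : Type} [AddCommGroup W] [Fintype W] (f : W → ℝ) (j : W)
    (hf : ∀ w, f (w + j) = - f w) : 𝔼 w, f w = 0 := by
  have h1 := expect_equiv' (Equiv.addRight j) f
  simp only [Equiv.coe_addRight, hf] at h1
  rw [expect_neg_distrib] at h1
  linarith

theorem sgn_add_one (a : K) : sgn (a + 1) = - sgn a := by rw [sgn_add, sgn_one]; ring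

/-- the own part of the character at a slot -/
def phiO (β : Bits) (s : Slot) {ι : Type} (w : OW (Option ι) h) : K :=
  β.T s * chi (w.2.2 none) + β.O s * chi w.1 + β.D s * chi w.2.1

theorem mean_phiO (β : Bits) (s : Slot) (sd : Side F e h) (i : Fin 2)
    (hs : β.T s ≠ 0 ∨ β.O s ≠ 0 ∨ β.D s ≠ 0) :
    𝔼 w : OW (Option (Fin sd.m)) h, sigU sd i w.2.2 * sgn (phiO β s w) = 0 := by
  rcases hs with hs | hs | hs
  · refine flip_sc _ (0, 0, Pi.single none e0) fun w => ?_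
    have h1 : sigU sd i (w.2.2 + Pi.single none e0) = sigU sd i w.2.2 := by
      refine ind_congr ?_
      simp only [Pi.add_apply, Pi.single_eq_same, Pi.single_eq_of_ne (Option.some_ne_none _),
        add_zero]
      rw [add_right_comm, chi_add_e0, chi_add_e0, add_left_inj]
    simp only [Prod.snd_add, h1, phiO, Prod.fst_add, add_zero, Pi.add_apply, Pi.single_eq_same,
      chi_add_e0, K_ne_zero.mp hs, one_mul]
    rw [← mul_neg, ← sgn_add_one]
    congr 2
    ring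
  · refine flip_sc _ (e0, 0, 0) fun w => ?_
    simp only [Prod.snd_add, phiO, Prod.fst_add, add_zero, chi_add_e0, K_ne_zero.mp hs, one_mul]
    rw [← mul_neg, ← sgn_add_one]
    congr 2
    ring
  · refine flip_sc _ (0, e0, 0) fun w => ?_
    simp only [Prod.snd_add, phiO, Prod.fst_add, add_zero, chi_add_e0, K_ne_zero.mp hs, one_mul]
    rw [← mul_neg, ← sgn_add_one]
    congr 2
    ring

theorem coef_phiO (β : Bits) (s : Slot) (sd : Side F e h) (i : Fin 2)
    (a : OW (Option (Fin sd.m)) h) :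
    |𝔼 w : OW (Option (Fin sd.m)) h, sigU sd i w.2.2 * sgn (phiO β s w) * sgn (a.dot w)| ≤
      bnd h (β.T s) * bnd h (β.O s) * bnd h (β.D s) / 2 ^ ((2 * h + 1) * sd.m) := by
  have h1 : ∀ (o d : GG h) (R : Option (Fin sd.m) → GG h),
      sigU sd i R * sgn (phiO β s (o, d, R)) * sgn (a.dot (o, d, R)) =
      sgn (β.O s * chi o + a.1 ⬝ᵥ o) * (sgn (β.D s * chi d + a.2.1 ⬝ᵥ d) * (sigU sd i R *
        (sgn (β.T s * chi (R none) + a.2.2 none ⬝ᵥ R none) *
          sgn (∑ l, a.2.2 (some l) ⬝ᵥ R (some l))))) := by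
    intro o d R
    simp only [phiO, OW.dot, Fintype.sum_option, sgn_add]
    ring
  rw [expect_OW]
  simp only [h1, ← mul_expect, ← expect_mul]
  rw [expect_sigU_mul sd i (fun τ => sgn (β.T s * chi τ + a.2.2 none ⬝ᵥ τ))
    (fun R => sgn (∑ l, a.2.2 (some l) ⬝ᵥ R l))]
  simp only [abs_mul, abs_div, abs_sgn]
  rw [abs_of_pos (by positivity : (0 : ℝ) < 2 ^ ((2 * h + 1) * sd.m))]
  have b1 := bent_bnd (β.O s) (fun o => a.1 ⬝ᵥ o) fun x y => dotProduct_add _ _ _
  have b2 := bent_bnd (β.D s) (fun o => a.2.1 ⬝ᵥ o) fun x y => dotProduct_add _ _ _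
  have b3 := bent_bnd_sel (β.T s) (sd.v i) (fun o => a.2.2 none ⬝ᵥ o)
    fun x y => dotProduct_add _ _ _
  have := bnd_nonneg (h := h) (β.O s)
  have := bnd_nonneg (h := h) (β.D s)
  have := bnd_nonneg (h := h) (β.T s)
  calc _ ≤ bnd h (β.O s) * (bnd h (β.D s) * (bnd h (β.T s) * (1 / 2 ^ ((2 * h + 1) * sd.m)))) := by
        gcongr
    _ = _ := by ring

/-- the part of the character that belongs to one slot -/
noncomputable def gS (β : Bits) (sd : Side F e h) (A : Fin 2 → Vtx F e n h) (s : Slot) (u : F) :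
    K := β.X s * chi (xi (A s.1) (A s.1.rev) u) + β.T s * chi (tau sd A s.1 u) +
      β.O s * chi (xi (A s.1) (A s.1) u) + β.D s * chi (row (A s.1) (ev (3 * e) u) u)

/-- the part of the character that belongs to a pair of slots -/
def hP (β : Bits) (v : GG h) (i : Fin 2) (p : GG h) : K :=
  β.P i * chi p + β.Pt i * (BB p v + chi v)

theorem dot_bits (β : Bits) (sd : Side F e h) (A : Fin 2 → Vtx F e n h) (t : Slot → F) :
    β.dot (gd sd A t).bits = ∑ s, gS β sd A s (t s) +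
      ∑ i, hP β (sd.v i) i (row (A i) (ev (3 * e) (t (i, 0))) (t (i, 1))) := rfl

theorem gS_eq (β : Bits) (sd : Side F e h) (A : Fin 2 → Vtx F e n h) (s : Slot) (u : F) :
    gS β sd A s u = β.X s * chi (xi (A s.1) (A s.1.rev) u) +
      phiO β s (own (A s.1) (sd.r s.1) u) := by
  simp only [gS, phiO, own, tau, add_assoc]

theorem slot_bound {r : ℕ} {γ : ℝ} (hγ : 0 ≤ γ) (hr : 2 * r ≤ 3 * e) {sd : Side F e h}
    (hs : SideOK r sd) {A : Fin 2 → Vtx F e n h} (β : Bits) (s : Slot) (H : LwOK r γ sd A s.1)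
    (hβ : (β.X s = 0 ∧ (β.T s ≠ 0 ∨ β.O s ≠ 0 ∨ β.D s ≠ 0)) ∨
      (β.T s ≠ 0 ∧ β.O s ≠ 0) ∨ (β.T s ≠ 0 ∧ β.D s ≠ 0) ∨ (β.O s ≠ 0 ∧ β.D s ≠ 0))
    {G : F → ℝ} (hG : ∀ t, |G t| ≤ 1) (hx : NotBad r γ (A s.1) G) :
    |𝔼 u, lw sd A s.1 u * (sgn (gS β sd A s u) * G u)| ≤
      16 / 2 ^ h + γ * cow h r * kap h r * 2 ^ (2 * h + 1) := by
  have hc : 0 ≤ γ * cow h r := mul_nonneg hγ (cow_pos h r).le
  have hk := kap_pos h r
  have hp := H.pos
  have h1 : (1 : ℝ) ≤ 2 ^ (2 * h + 1) := one_le_pow₀ (by norm_num)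
  rw [H.expect_lw, abs_mul, abs_of_pos (by positivity)]
  rcases K_cases (β.X s) with hX | hX
  · have h2 := sel_decouple hγ hr hs A s.1 hx (fun w => sgn (phiO β s w)) fun w => (abs_sgn _).le
    rw [mean_phiO β s sd s.1 (by tauto), zero_mul, sub_zero] at h2
    simp only [gS_eq, hX, zero_mul, zero_add, ← mul_assoc]
    have h3 := mul_le_mul H.inv_le_kap h2 (abs_nonneg _) hk.le
    have h4 := mul_le_mul_of_nonneg_left h1 (mul_nonneg hc hk.le)
    have : (0 : ℝ) ≤ 16 / 2 ^ h := by positivity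
    linarith
  · have hb : bnd h (β.T s) * bnd h (β.O s) * bnd h (β.D s) ≤ (1 / 2 ^ h) ^ 2 := by
      have h5 : (1 : ℝ) / 2 ^ h ≤ 1 := by
        rw [div_le_one (by positivity)]
        exact one_le_pow₀ (by norm_num)
      have h6 : (0 : ℝ) ≤ 1 / 2 ^ h := by positivity
      have h7 := mul_nonneg h6 h6
      rw [hX] at hβ
      unfold bnd
      split_ifs <;> first | (simp_all; done) | nlinarith
    obtain ⟨hli, ⟨ω, hω, hωr, hl⟩, -⟩ := hs s.1
    have hm := H.m_le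
    have q : ∀ a : GG h, |𝔼 u, sigU sd s.1 (own (A s.1) (sd.r s.1) u).2.2 *
        sgn (phiO β s (own (A s.1) (sd.r s.1) u)) * sgn (a ⬝ᵥ xi (A s.1) (A s.1.rev) u) * G u| ≤
        (1 / 2 ^ h) ^ 2 / 2 ^ ((2 * h + 1) * sd.m) + γ * cow h r := by
      intro a
      refine (qstar₂ hγ hG hx hω hωr hli hl (fun w => sigU sd s.1 w.2.2 * sgn (phiO β s w))
        (B := 1) (fun w => by rw [abs_mul, abs_sgn, mul_one]; exact abs_sigU_le _ _ _)
        (fun a => (coef_phiO β s sd s.1 a).trans (div_le_div_of_nonneg_right hb (by positivity)))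
        (xi_isCode (A s.1) (A s.1.rev) a)).trans (add_le_add le_rfl ?_)
      rw [mul_one]
      refine mul_le_mul_of_nonneg_left (card_OW_le ?_) hγ
      simp only [Fintype.card_option, Fintype.card_fin]
      omega
    have f : ∀ u, ind (Sel sd A s.1 u) * (sgn (gS β sd A s u) * G u) =
        ∑ a : GG h, (𝔼 w, sgn (chi w) * sgn (a ⬝ᵥ w)) *
          (sigU sd s.1 (own (A s.1) (sd.r s.1) u).2.2 *
          sgn (phiO β s (own (A s.1) (sd.r s.1) u)) * sgn (a ⬝ᵥ xi (A s.1) (A s.1.rev) u) * G u) := by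
      intro u
      rw [gS_eq, hX, one_mul, sgn_add, fourier_inv (fun a w : GG h => a ⬝ᵥ w)
        (fun _ _ _ => add_dotProduct _ _ _) (fun _ _ _ => dotProduct_add _ _ _)
        (fun w hw => funext fun k => by simpa using hw (Pi.single k 1)) (fun w => sgn (chi w))
        (xi (A s.1) (A s.1.rev) u), sel_eq_sigU, sum_mul, sum_mul, mul_sum]
      exact sum_congr rfl fun a _ => by ring
    simp only [f]
    rw [expect_sum_comm]
    have h3 : |∑ a : GG h, 𝔼 u, (𝔼 w, sgn (chi w) * sgn (a ⬝ᵥ w)) *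
        (sigU sd s.1 (own (A s.1) (sd.r s.1) u).2.2 *
          sgn (phiO β s (own (A s.1) (sd.r s.1) u)) * sgn (a ⬝ᵥ xi (A s.1) (A s.1.rev) u) * G u)| ≤
        2 ^ (2 * h + 1) * (1 / 2 ^ h *
          ((1 / 2 ^ h) ^ 2 / 2 ^ ((2 * h + 1) * sd.m) + γ * cow h r)) := by
      refine (abs_sum_le_sum_abs _ _).trans ((sum_le_card_nsmul _ _ _ fun a _ => ?_).trans
        (le_of_eq (by rw [card_univ, nsmul_eq_mul, card_GG_real])))
      rw [← mul_expect, abs_mul]
      refine mul_le_mul ?_ (q a) (abs_nonneg _) (by positivity)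
      simp only [← sgn_add]
      exact bent_sc (fun w => a ⬝ᵥ w) fun x y => dotProduct_add _ _ _
    have h5 : (1 : ℝ) / 2 ^ h ≤ 1 := by
      rw [div_le_one (by positivity)]
      exact one_le_pow₀ (by norm_num)
    have h6 := H.inv_le
    have h7 := H.inv_le_kap
    calc _ ≤ (1 / 𝔼 t, ind (Sel sd A s.1 t)) * (2 ^ (2 * h + 1) * (1 / 2 ^ h *
          ((1 / 2 ^ h) ^ 2 / 2 ^ ((2 * h + 1) * sd.m) + γ * cow h r))) :=
          mul_le_mul_of_nonneg_left h3 (by positivity)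
      _ ≤ 4 * (2 : ℝ) ^ ((2 * h + 1) * sd.m) * (2 ^ (2 * h + 1) * (1 / 2 ^ h *
          ((1 / 2 ^ h) ^ 2 / 2 ^ ((2 * h + 1) * sd.m)))) +
          kap h r * (2 ^ (2 * h + 1) * (1 * (γ * cow h r))) := by
          rw [mul_add, mul_add, mul_add]
          gcongr
      _ = 8 / 2 ^ h + γ * cow h r * kap h r * 2 ^ (2 * h + 1) := by
          field_simp
          ring
      _ ≤ _ := by gcongr; norm_num

theorem pts_update' (A : Fin 2 → Vtx F e n h) (t : Slot → F) (s : Slot) (u : F) :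
    pts A (Function.update t s u) = Function.update (pts A t) s (pt (A s.1).c u) :=
  pts_update A Prod.fst t s u

theorem char_slot {hh : (Fin 2 → Vtx F e n h) → ℝ} {Λ M : ℝ} (hd : Dens hh Λ M) {r : ℕ}
    {γ δ : ℝ} (hγ : 0 ≤ γ) (hγ' : γ * (cow h r * kap h r) ≤ 1) (hr : 2 * r ≤ 3 * e)
    (hB : BadMass hh r γ 6 δ) (sd : (Fin 2 → Vtx F e n h) → Side F e h)
    (hg : ∀ A, hh A ≠ 0 → SideOK r (sd A) ∧ ∀ i, GoodV r γ (A i)) (β : Bits)
    (hP0 : ∀ i, β.P i = 0 ∧ β.Pt i = 0) (s : Slot)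
    (hβ : (β.X s = 0 ∧ (β.T s ≠ 0 ∨ β.O s ≠ 0 ∨ β.D s ≠ 0)) ∨
      (β.T s ≠ 0 ∧ β.O s ≠ 0) ∨ (β.T s ≠ 0 ∧ β.D s ≠ 0) ∨ (β.O s ≠ 0 ∧ β.D s ≠ 0))
    (Z : (Slot → Fin n → F) → ℝ) (hZ : ∀ v, |Z v| ≤ 1) :
    |𝔼 A, 𝔼 t : Slot → F, hh A * (∏ s, lw (sd A) A s.1 (t s)) *
      sgn (β.dot (gd (sd A) A t).bits) * Z (pts A t)| ≤
      16 / 2 ^ h + γ * cow h r * kap h r * 2 ^ (2 * h + 1) + kap h r ^ 4 * δ := by
  let G : Frame F e n → (Slot → F) → (Slot → Fin n → F) → F → ℝ :=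
    fun c _ w u => Z (Function.update w s (pt c u))
  have key : ∀ A : Fin 2 → Vtx F e n h, 𝔼 t : Slot → F, hh A * (∏ s, lw (sd A) A s.1 (t s)) *
      sgn (β.dot (gd (sd A) A t).bits) * Z (pts A t) =
      hh A * 𝔼 t : Slot → F, ((∏ s' ∈ univ.erase s, lw (sd A) A s'.1 (t s')) *
        ∏ s' ∈ univ.erase s, sgn (gS β (sd A) A s' (t s'))) *
        𝔼 u, lw (sd A) A s.1 u * (sgn (gS β (sd A) A s u) * G (A s.1).c t (pts A t) u) := by
    intro A
    rw [expect_update s, mul_expect]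
    refine expect_congr rfl fun t _ => ?_
    rw [mul_expect, mul_expect]
    refine expect_congr rfl fun u _ => ?_
    rw [dot_bits]
    simp only [hP, hP0, zero_mul, add_zero, sum_const_zero, sgn_sum]
    rw [prod_update_su (fun s u => lw (sd A) A s.1 u),
      prod_update_su (fun s u => sgn (gS β (sd A) A s u)), pts_update']
    simp only [G]
    ring
  simp only [key]
  refine (abs_expect_hh hd.nonneg _).trans ?_
  have H := fun A (hA : hh A ≠ 0) i => lwOK_of hγ hγ' hr (hg A hA).1 A i ((hg A hA).2 i)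
  have hc : 0 ≤ 16 / 2 ^ h + γ * cow h r * kap h r * 2 ^ (2 * h + 1) := by
    have := cow_pos h r
    have := kap_pos h r
    positivity
  have habs : ∀ (A : Fin 2 → Vtx F e n h) (t : Slot → F),
      |(∏ s' ∈ univ.erase s, lw (sd A) A s'.1 (t s')) *
        ∏ s' ∈ univ.erase s, sgn (gS β (sd A) A s' (t s'))| =
      ∏ s' ∈ univ.erase s, lw (sd A) A s'.1 (t s') := fun A t => by
    rw [abs_mul, abs_of_nonneg (prod_lw_nonneg _ _ _ _), ← sgn_sum, abs_sgn, mul_one]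
  refine bad_split hd hB Prod.fst (by simp) s.1 G (fun c τ w t => hZ _) _
    (fun A t => (∏ s' ∈ univ.erase s, lw (sd A) A s'.1 (t s')) *
      (16 / 2 ^ h + γ * cow h r * kap h r * 2 ^ (2 * h + 1))) (by have := kap_pos h r; positivity)
    (fun A hA => ?_) (fun A t hA hb => ?_) fun A t hA => ?_
  · rw [← expect_mul, expect_prod_lw (H A hA), one_mul]
  · rw [abs_mul, habs]
    exact mul_le_mul_of_nonneg_left (slot_bound hγ hr (hg A hA).1 β s (H A hA _) hβ
      (fun u => hZ _) hb) (prod_lw_nonneg _ _ _ _)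
  · rw [abs_mul, habs]
    have h1 : |𝔼 u, lw (sd A) A s.1 u * (sgn (gS β (sd A) A s u) * G (A s.1).c t (pts A t) u)| ≤
        1 := by
      refine (abs_expect_le' _).trans ?_
      rw [← (H A hA s.1).total]
      refine expect_mono fun u => ?_
      rw [abs_mul, abs_of_nonneg (lw_nonneg _ _ _ _), abs_mul, abs_sgn, one_mul]
      exact mul_le_of_le_one_right (lw_nonneg _ _ _ _) (hZ _)
    have h2 := mul_le_mul (prod_lw_le (H A hA) (univ.erase s) t) h1 (abs_nonneg _)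
      (by have := kap_pos h r; positivity)
    have h3 := mul_nonneg (prod_lw_nonneg (sd A) A (univ.erase s) t) hc
    linarith

theorem mean_hP (β : Bits) {v : GG h} (hv : ∃ k, v (some k) ≠ 0) (i : Fin 2)
    (hβ : β.P i ≠ 0 ∨ β.Pt i ≠ 0) : 𝔼 p, sgn (hP β v i p) = 0 := by
  rcases K_cases (β.P i) with h0 | h0
  · have h1 : β.Pt i = 1 := K_ne_zero.mp (by tauto)
    simp only [hP, h0, h1, zero_mul, zero_add, one_mul, sgn_add]
    rw [← expect_mul, expect_sgn_BB_su hv, zero_mul]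
  · refine flip_sc _ e0 fun p => ?_
    rw [← sgn_add_one]
    simp only [hP, h0, one_mul, chi_add_e0, BB_add_left, BB_e0_left, add_zero]
    congr 1
    ring

theorem pair_bound {γ : ℝ} (hγ : 0 ≤ γ) (he : 1 ≤ e) (x : Vtx F e n h) (f : GG h → ℝ)
    (hf : ∀ p, |f p| ≤ 1) (hf0 : 𝔼 p, f p = 0) (u : Fin 2 → F) (hu : u 0 ≠ u 1) {G : F → ℝ}
    (hx : NotBad 2 γ x G) (r : ℕ) :
    |𝔼 t, (∏ k, f (row x (ev (3 * e) (u k)) t)) * G t| ≤ γ * cow h r := by
  have hinj : Function.Injective u := by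
    intro a b hab
    fin_cases a <;> fin_cases b <;> simp_all [eq_comm]
  have hli : LinearIndependent K fun k => ev (3 * e) (u k) :=
    (ev_linearIndependent u hinj (by simp; omega)).restrict_scalars' K
  have hω : (X - C (u 0)) * (X - C (u 1)) ≠ 0 :=
    mul_ne_zero (X_sub_C_ne_zero _) (X_sub_C_ne_zero _)
  have q := qstar₁ hγ hx hω (by
      rw [natDegree_mul (X_sub_C_ne_zero _) (X_sub_C_ne_zero _), natDegree_X_sub_C,
        natDegree_X_sub_C]) hli (fun k => low_ev (by fin_cases k <;> simp))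
    (fun w => ∏ k, f (w.2.2 k)) (B := 1) fun w => by
      simpa using prod_le_pow_su univ (fun k => f (w.2.2 k)) le_rfl (fun k => hf _) le_rfl
  rw [expect_OW] at q
  simp only [Fintype.expect_const] at q
  rw [expect_pi_prod (fun _ : Fin 2 => f), hf0] at q
  simp only [prod_const, card_univ, Fintype.card_fin, ne_eq, OfNat.ofNat_ne_zero,
    not_false_eq_true, zero_pow, zero_mul, sub_zero, mul_one] at q
  exact q.trans (mul_le_mul_of_nonneg_left (card_OW_le (by simp)) hγ)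

theorem expect_sum_sc {α : Type} [Fintype α] (f : (Slot → α) → (Fin 2 → α) → ℝ) :
    𝔼 t, 𝔼 u, f t u = 𝔼 τ : Slot ⊕ Fin 2 → α, f (fun s => τ (Sum.inl s)) fun k => τ (Sum.inr k) := by
  rw [← expect_equiv' (Equiv.sumArrowEquivProdArrow Slot (Fin 2) α).symm, expect_prod]
  rfl

theorem sq_expect_sc {α : Type} [Fintype α] (f : α → ℝ) :
    (𝔼 a, f a) ^ 2 = 𝔼 u : Fin 2 → α, ∏ k, f (u k) := by
  rw [expect_pi_prod (fun _ : Fin 2 => f)]
  simp

theorem char_pair {hh : (Fin 2 → Vtx F e n h) → ℝ} {Λ M : ℝ} (hd : Dens hh Λ M) {r : ℕ}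
    {γ δ : ℝ} (hγ : 0 ≤ γ) (hγ' : γ * (cow h r * kap h r) ≤ 1) (hr : 2 * r ≤ 3 * e) (he : 1 ≤ e)
    (hB : BadMass hh 2 γ 6 δ) (sd : (Fin 2 → Vtx F e n h) → Side F e h)
    (hg : ∀ A, hh A ≠ 0 → SideOK r (sd A) ∧ ∀ i, GoodV r γ (A i)) (β : Bits) (i : Fin 2)
    (hβ : β.P i ≠ 0 ∨ β.Pt i ≠ 0)
    (Z : (Slot → Fin n → F) → ℝ) (hZ : ∀ v, |Z v| ≤ 1) :
    (𝔼 A, 𝔼 t : Slot → F, hh A * (∏ s, lw (sd A) A s.1 (t s)) *
      sgn (β.dot (gd (sd A) A t).bits) * Z (pts A t)) ^ 2 ≤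
      kap h r ^ 10 * (γ * cow h r + 1 / Fintype.card F + δ) := by
  have hk := one_le_kap h r
  have H := fun A (hA : hh A ≠ 0) i => lwOK_of hγ hγ' hr (hg A hA).1 A i ((hg A hA).2 i)
  let L : (Fin 2 → Vtx F e n h) → Slot → F → ℝ := fun A s u =>
    lw (sd A) A s.1 u * sgn (gS β (sd A) A s u)
  have hL : ∀ A, hh A ≠ 0 → ∀ s u, |L A s u| ≤ kap h r := fun A hA s u => by
    simp only [L]
    rw [abs_mul, abs_sgn, mul_one, abs_of_nonneg (lw_nonneg _ _ _ _)]
    exact (H A hA _).le_kap _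
  let f : (Fin 2 → Vtx F e n h) → GG h → ℝ := fun A p => sgn (hP β ((sd A).v i) i p)
  let Yv : (Fin 2 → Vtx F e n h) → (Slot → F) → ℝ := fun A t =>
    𝔼 u, L A (i, 0) u * (f A (row (A i) (ev (3 * e) u) (t (i, 1))) *
      Z (Function.update (pts A t) (i, 0) (pt (A i).c u)))
  let W : (Fin 2 → Vtx F e n h) → (Slot → F) → ℝ := fun A t =>
    (∏ s ∈ univ.erase (i, 0), L A s (t s)) *
      sgn (hP β ((sd A).v i.rev) i.rev (row (A i.rev) (ev (3 * e) (t (i.rev, 0))) (t (i.rev, 1))))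
  have hi : i.rev ≠ i := by fin_cases i <;> decide
  have key : ∀ A : Fin 2 → Vtx F e n h, 𝔼 t : Slot → F, hh A * (∏ s, lw (sd A) A s.1 (t s)) *
      sgn (β.dot (gd (sd A) A t).bits) * Z (pts A t) = hh A * 𝔼 t, W A t * Yv A t := by
    intro A
    rw [expect_update (i, 0), mul_expect]
    refine expect_congr rfl fun t _ => ?_
    simp only [Yv]
    rw [mul_expect, mul_expect]
    refine expect_congr rfl fun u _ => ?_
    have e1 : ∀ g : Fin 2 → K, ∑ j, g j = g i + g i.rev := fun g => by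
      fin_cases i <;> simp [add_comm]
    rw [dot_bits, sgn_add, sgn_sum, e1, sgn_add, pts_update',
      prod_update_su (fun s u => lw (sd A) A s.1 u),
      prod_update_su (fun s u => sgn (gS β (sd A) A s u))]
    simp only [W, L, prod_mul_distrib, f, Function.update_self, ne_eq, Prod.mk.injEq, hi, false_and, not_false_eq_true,
      Function.update_of_ne, one_ne_zero, and_false]
    ring
  simp only [key]
  have hW : ∀ A, hh A ≠ 0 → ∀ t, |W A t| ≤ kap h r ^ 4 := fun A hA t => by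
    simp only [W]
    rw [abs_mul, abs_sgn, mul_one]
    exact prod_le_pow_su _ _ hk (fun s => hL A hA s _) (by simp)
  have s1 : |𝔼 A, hh A * 𝔼 t, W A t * Yv A t| ≤ kap h r ^ 4 * 𝔼 A, hh A * 𝔼 t, |Yv A t| := by
    refine (abs_expect_hh hd.nonneg _).trans ?_
    rw [mul_expect]
    refine expect_mono fun A => ?_
    by_cases hA : hh A = 0
    · simp [hA]
    rw [mul_left_comm, mul_expect _ _ (kap h r ^ 4)]
    refine mul_le_mul_of_nonneg_left (expect_mono fun t => ?_) (hd.nonneg A)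
    rw [abs_mul]
    exact mul_le_mul_of_nonneg_right (hW A hA t) (abs_nonneg _)
  have s2 : (𝔼 A, hh A * 𝔼 t, |Yv A t|) ^ 2 ≤ 𝔼 A, hh A * 𝔼 t, Yv A t ^ 2 := by
    refine (expect_weighted_sq_le hh _ hd.nonneg).trans ?_
    rw [hd.total, one_mul]
    refine expect_mono fun A => mul_le_mul_of_nonneg_left ?_ (hd.nonneg A)
    have := expect_weighted_sq_le (fun _ : Slot → F => (1 : ℝ)) (fun t => |Yv A t|)
      fun _ => zero_le_one
    simpa using this
  let G : Frame F e n → (Slot ⊕ Fin 2 → F) → (Slot ⊕ Fin 2 → Fin n → F) → F → ℝ :=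
    fun c _ w t => ∏ k, Z (Function.update (Function.update (fun s => w (Sum.inl s)) (i, 1)
      (pt c t)) (i, 0) (w (Sum.inr k)))
  let side : Slot ⊕ Fin 2 → Fin 2 := Sum.elim Prod.fst fun _ => i
  have hG : ∀ c τ w t, |G c τ w t| ≤ 1 := fun c τ w t =>
    (prod_le_pow_su univ (fun k => Z (Function.update (Function.update
      (fun s => w (Sum.inl s)) (i, 1) (pt c t)) (i, 0) (w (Sum.inr k)))) le_rfl (fun k => hZ _)
      le_rfl).trans (one_pow _).le
  have s3 : ∀ A, 𝔼 t, Yv A t ^ 2 = 𝔼 τ : Slot ⊕ Fin 2 → F, (∏ k, L A (i, 0) (τ (Sum.inr k))) *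
      𝔼 t, (∏ k, f A (row (A i) (ev (3 * e) (τ (Sum.inr k))) t)) *
        G (A i).c τ (fun a => vp (A (side a)) (τ a)) t := by
    intro A
    rw [expect_update (i, 1)]
    simp only [Yv, sq_expect_sc, Function.update_self, pts_update']
    have e2 : ∀ t : Slot → F, _ := fun t => expect_comm univ univ
      fun (b : F) (u : Fin 2 → F) => ∏ k, L A (i, 0) (u k) * (f A (row (A i) (ev (3 * e) (u k)) b) *
        Z (Function.update (Function.update (pts A t) (i, 1) (pt (A i).c b)) (i, 0)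
          (pt (A i).c (u k))))
    simp only [e2]
    rw [expect_sum_sc]
    refine expect_congr rfl fun τ _ => ?_
    rw [mul_expect]
    refine expect_congr rfl fun b _ => ?_
    rw [prod_mul_distrib, prod_mul_distrib (f := fun k => f A _)]
    rfl
  have s4 : 𝔼 A, hh A * 𝔼 t, Yv A t ^ 2 ≤
      kap h r ^ 2 * (γ * cow h r + 1 / Fintype.card F) + kap h r ^ 2 * δ := by
    simp only [s3]
    have hc : 0 ≤ γ * cow h r := mul_nonneg hγ (cow_pos h r).le
    have hL2 : ∀ A, hh A ≠ 0 → ∀ τ : Slot ⊕ Fin 2 → F,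
        |∏ k, L A (i, 0) (τ (Sum.inr k))| ≤ kap h r ^ 2 := fun A hA τ =>
      prod_le_pow_su _ _ hk (fun k => hL A hA _ _) (by simp)
    have h1 : ∀ A (τ : Slot ⊕ Fin 2 → F),
        |𝔼 t, (∏ k, f A (row (A i) (ev (3 * e) (τ (Sum.inr k))) t)) *
        G (A i).c τ (fun a => vp (A (side a)) (τ a)) t| ≤ 1 := fun A τ =>
      abs_expect_le_one_su fun t => by
        rw [abs_mul, ← sgn_sum, abs_sgn, one_mul]
        exact hG (A i).c τ (fun a => vp (A (side a)) (τ a)) t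
    refine bad_split hd hB side (by simp) i G hG _
      (fun A τ => kap h r ^ 2 * (γ * cow h r + ind (τ (Sum.inr 0) = τ (Sum.inr 1))))
      (by positivity) (fun A hA => ?_) (fun A τ hA hb => ?_) fun A τ hA => ?_
    · rw [← mul_expect, expect_add_distrib, Fintype.expect_const, expect_update (Sum.inr 0)]
      simp [expect_ind_eq]
    · refine (le_abs_self _).trans ?_
      rw [abs_mul]
      refine mul_le_mul (hL2 A hA τ) ?_ (abs_nonneg _) (by positivity)
      by_cases hu : τ (Sum.inr 0) = τ (Sum.inr 1)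
      · rw [ind_pos hu]
        linarith [h1 A τ]
      · rw [ind_neg hu, add_zero]
        exact pair_bound hγ he (A i) (f A) (fun p => (abs_sgn _).le)
          (mean_hP β ((hg A hA).1 i).2.2 i hβ) (fun k => τ (Sum.inr k)) hu hb r
    · refine (le_abs_self _).trans ?_
      rw [abs_mul]
      have h2 := mul_le_mul (hL2 A hA τ) (h1 A τ) (abs_nonneg _) (by positivity)
      have h3 : 0 ≤ kap h r ^ 2 * (γ * cow h r + ind (τ (Sum.inr 0) = τ (Sum.inr 1))) :=
        mul_nonneg (by positivity) (add_nonneg hc (ind_nonneg _))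
      linarith
  calc _ = |𝔼 A, hh A * 𝔼 t, W A t * Yv A t| ^ 2 := (sq_abs _).symm
    _ ≤ (kap h r ^ 4 * 𝔼 A, hh A * 𝔼 t, |Yv A t|) ^ 2 := pow_le_pow_left₀ (abs_nonneg _) s1 2
    _ = kap h r ^ 8 * (𝔼 A, hh A * 𝔼 t, |Yv A t|) ^ 2 := by ring
    _ ≤ kap h r ^ 8 * (kap h r ^ 2 * (γ * cow h r + 1 / Fintype.card F) + kap h r ^ 2 * δ) :=
        mul_le_mul_of_nonneg_left (s2.trans s4) (by positivity)
    _ = _ := by ring

end aux

/-- J10c: small characters -/
theorem small_char (h r D : ℕ) (δ : ℝ) (hδ : 0 < δ) : ∃ γ₀ : ℝ, 0 < γ₀ ∧ ∀ γ : ℝ, 0 < γ → γ ≤ γ₀ →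
    ∀ᶠ κ : ℕ in atTop,
    ∀ (F : Type) [Field F] [Fintype F] [Algebra K F], Fintype.card F = 4 ^ κ →
    ∀ (hh : (Fin 2 → Vtx F (κ ^ 2) (4 * κ ^ 2) h) → ℝ)
      (sd : (Fin 2 → Vtx F (κ ^ 2) (4 * κ ^ 2) h) → Side F (κ ^ 2) h),
      Dens hh (((4 : ℝ) ^ κ) ^ (D * (4 * κ ^ 2))) (4 ^ κ) →
      (∀ A, hh A ≠ 0 → SideOK r (sd A) ∧ ∀ i, GoodV r γ (A i)) →
      ∀ β : Bits, β.Small → ∀ Z : (Slot → Fin (4 * κ ^ 2) → F) → ℝ, (∀ v, |Z v| ≤ 1) →
        |𝔼 A, 𝔼 t : Slot → F, hh A * (∏ s, lw (sd A) A s.1 (t s)) *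
          sgn (β.dot (gd (sd A) A t).bits) * Z (pts A t)| ≤ 16 / 2 ^ h + δ := by
  have h1 := cow_pos h r
  have h2 := kap_pos h r
  refine ⟨min (1 / (cow h r * kap h r)) (min (δ / (2 * (cow h r * kap h r * 2 ^ (2 * h + 1))))
    (δ ^ 2 / (3 * kap h r ^ 10 * cow h r))), by positivity, fun γ hγ hγ' => ?_⟩
  have hγ1 := hγ'.trans (min_le_left _ _)
  have hγ2 := hγ'.trans ((min_le_right _ _).trans (min_le_left _ _))
  have hγ3 := hγ'.trans ((min_le_right _ _).trans (min_le_right _ _))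
  rw [le_div_iff₀ (by positivity)] at hγ1 hγ2 hγ3
  filter_upwards [badMass_ev h r D 6 γ (δ / (2 * kap h r ^ 4)) hγ (by positivity),
    badMass_ev h 2 D 6 γ (δ ^ 2 / (3 * kap h r ^ 10)) hγ (by positivity), ev_two_r r,
    ev_div_four_pow 1 (δ ^ 2 / (3 * kap h r ^ 10)) (by positivity), eventually_ge_atTop 1]
    with κ hB hB2 hr hκ hκ1 F _ _ _ hq hh sd hd hg β hβ Z hZ
  have hs : ∀ A, hh A ≠ 0 → ∀ i, Surj (A i).c := fun A hA i => ((hg A hA).2 i).1
  by_cases hp : ∃ i, β.P i ≠ 0 ∨ β.Pt i ≠ 0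
  · obtain ⟨i, hi⟩ := hp
    have h3 := char_pair hd hγ.le hγ1 hr (Nat.one_le_pow _ _ hκ1) (hB2 F hq hh hd hs) sd hg β i hi
      Z hZ
    rw [hq] at h3
    push_cast at h3
    have h4 : kap h r ^ 10 * (γ * cow h r + 1 / 4 ^ κ + δ ^ 2 / (3 * kap h r ^ 10)) ≤ δ ^ 2 := by
      have e1 : kap h r ^ 10 * (δ ^ 2 / (3 * kap h r ^ 10)) = δ ^ 2 / 3 := by field_simp
      have := mul_le_mul_of_nonneg_left hκ (by positivity : 0 ≤ kap h r ^ 10)
      rw [mul_add, mul_add, e1]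
      rw [e1] at this
      nlinarith
    have h5 := abs_le_of_sq_le_sq' (h3.trans h4) hδ.le
    have : (0 : ℝ) ≤ 16 / 2 ^ h := by positivity
    exact (abs_le.mpr h5).trans (by linarith)
  · have hP0 : ∀ i, β.P i = 0 ∧ β.Pt i = 0 := fun i => by
      by_contra hc
      exact hp ⟨i, by tauto⟩
    obtain ⟨s, hs'⟩ : ∃ s, (β.X s = 0 ∧ (β.T s ≠ 0 ∨ β.O s ≠ 0 ∨ β.D s ≠ 0)) ∨
        (β.T s ≠ 0 ∧ β.O s ≠ 0) ∨ (β.T s ≠ 0 ∧ β.D s ≠ 0) ∨ (β.O s ≠ 0 ∧ β.D s ≠ 0) := by
      rcases hβ with h0 | ⟨s, h0⟩ | ⟨s, h0⟩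
      · exact absurd h0 hp
      · exact ⟨s, Or.inl h0⟩
      · exact ⟨s, Or.inr h0⟩
    refine (char_slot hd hγ.le hγ1 hr (hB F hq hh hd hs) sd hg β hP0 s hs' Z hZ).trans ?_
    have e1 : kap h r ^ 4 * (δ / (2 * kap h r ^ 4)) = δ / 2 := by field_simp
    rw [e1]
    nlinarith

end Vale.Agent.P060
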