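import Vale.Agent.P060.SmallU

set_option linter.unusedSectionVars false

namespace Vale.Agent.P060

open Finset Polynomial Filter
open scoped BigOperators

section aux
variable {F : Type} [Field F] [Fintype F] [Algebra K F] {e n h : ℕ}

theorem shift_sg {W : Type} [AddCommGroup W] [Fintype W] (σ : W → ℝ) (ψ : W → GG h)
    (J : GG h → W) (h1 : ∀ w η, σ (w + J η) = σ w) (h2 : ∀ w η, ψ (w + J η) = ψ w + η)
    (y : GG h) : 𝔼 w, σ w * ind (ψ w = y) = (𝔼 w, σ w) / 2 ^ (2 * h + 1) := by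
  have h3 : ∀ η, 𝔼 w, σ w * ind (ψ w = y) = 𝔼 w, σ w * ind (η = y + ψ w) := by
    intro η
    rw [← expect_equiv' (Equiv.addRight (J η)) fun w => σ w * ind (ψ w = y)]
    refine expect_congr rfl fun w _ => ?_
    simp only [Equiv.coe_addRight, h1, h2]
    congr 1
    refine ind_congr ⟨?_, ?_⟩
    · rintro rfl
      rw [add_comm (ψ w) η, add_assoc, add_self_K, add_zero]
    · rintro rfl
      rw [add_comm y, ← add_assoc, add_self_K, zero_add]
  calc 𝔼 w, σ w * ind (ψ w = y) = 𝔼 η : GG h, 𝔼 w, σ w * ind (η = y + ψ w) := by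
        simp only [← h3, Fintype.expect_const]
    _ = 𝔼 w, σ w * 𝔼 η : GG h, ind (η = y + ψ w) := by
        rw [expect_comm]
        simp only [mul_expect]
    _ = _ := by
        simp only [expect_ind_eq, card_GG_real]
        rw [← expect_mul]
        ring

theorem own_event {r r' : ℕ} {γ : ℝ} (hγ : 0 ≤ γ) {sd : Side F e h} {A : Fin 2 → Vtx F e n h}
    {i : Fin 2} (hv : ∃ k, sd.v i (some k) ≠ 0) (H : LwOK r γ sd A i)
    (hx : NotBad r' γ (A i) fun _ => 1) {ω : F[X]} (hω : ω ≠ 0) (hωr : ω.natDegree ≤ r')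
    {ι : Type} [Fintype ι] [DecidableEq ι] (hι : Fintype.card ι ≤ r + 4) {ρ : ι → Y F (3 * e)}
    (hρ : LinearIndependent K ρ) (hl : ∀ l, Low (3 * e) ω (ρ l)) (emb : Option (Fin sd.m) → ι)
    (hinj : Function.Injective emb) (hemb : ∀ o, ρ (emb o) = sd.r i o) (ψ : OW ι h → GG h)
    (J : GG h → OW ι h) (h1 : ∀ η o, (J η).2.2 (emb o) = 0)
    (h2 : ∀ w η, ψ (w + J η) = ψ w + η) (y : GG h) :
    𝔼 u, lw sd A i u * ind (ψ (own (A i) ρ u) = y) ≤
      2 / 2 ^ (2 * h + 1) + γ * cow h r * kap h r := by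
  have q := qstar₁ hγ hx hω hωr hρ hl (fun w => sigU sd i (w.2.2 ∘ emb) * ind (ψ w = y)) (B := 1)
    fun w => by
      rw [abs_mul]
      exact mul_le_one₀ (abs_sigU_le _ _ _) (abs_nonneg _) (abs_ind_le _)
  have e1 : 𝔼 w : OW ι h, sigU sd i (w.2.2 ∘ emb) = 1 / (2 * 2 ^ ((2 * h + 1) * sd.m)) := by
    rw [expect_OW]
    simp only [Fintype.expect_const]
    rw [expect_comp_inj emb hinj (sigU sd i), expect_sigU sd i hv]
  rw [shift_sg (fun w : OW ι h => sigU sd i (w.2.2 ∘ emb)) ψ J (fun w η => by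
    congr 1
    funext o
    simp [h1]) h2 y, e1] at q
  simp only [mul_one, Fintype.expect_const] at q
  have e2 : ∀ u, sigU sd i ((own (A i) ρ u).2.2 ∘ emb) = ind (Sel sd A i u) := fun u => by
    rw [sel_eq_sigU]
    congr 1
    funext o
    simp [own, hemb]
  simp only [e2] at q
  rw [H.expect_lw]
  have h3 := (abs_le.mp q).2
  have h4 := mul_le_mul_of_nonneg_left (card_OW_le (h := h) hι) hγ
  have h5 := H.inv_le
  have h6 := H.inv_le_kap
  have h7 := H.pos
  have h8 : 0 ≤ γ * cow h r := mul_nonneg hγ (cow_pos h r).le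
  calc _ ≤ (1 / 𝔼 t, ind (Sel sd A i t)) *
        (1 / (2 * 2 ^ ((2 * h + 1) * sd.m)) / 2 ^ (2 * h + 1) + γ * cow h r) :=
        mul_le_mul_of_nonneg_left (by linarith) (by positivity)
    _ ≤ 4 * (2 : ℝ) ^ ((2 * h + 1) * sd.m) * (1 / (2 * 2 ^ ((2 * h + 1) * sd.m)) / 2 ^ (2 * h + 1))
        + kap h r * (γ * cow h r) := by
        rw [mul_add]
        gcongr
    _ = _ := by
        field_simp
        ring

theorem cond_slot {r : ℕ} {γ : ℝ} {sd : Side F e h} {A : Fin 2 → Vtx F e n h}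
    (H : ∀ i, LwOK r γ sd A i) (s : Slot) (f g : (Slot → F) → ℝ) (c : ℝ) (hg : ∀ t, 0 ≤ g t)
    (hf : ∀ t, 𝔼 u, lw sd A s.1 u * f (Function.update t s u) ≤ c + g t) :
    𝔼 t : Slot → F, (∏ s, lw sd A s.1 (t s)) * f t ≤ c + kap h r ^ 4 * 𝔼 t, g t := by
  rw [expect_update s]
  calc _ ≤ 𝔼 t : Slot → F, ((∏ s ∈ univ.erase s, lw sd A s.1 (t s)) * c + kap h r ^ 4 * g t) := by
        refine expect_mono fun t => ?_
        simp only [prod_update_su (fun s u => lw sd A s.1 u), mul_assoc]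
        rw [← mul_expect]
        refine (mul_le_mul_of_nonneg_left (hf t) (prod_lw_nonneg _ _ _ _)).trans ?_
        rw [mul_add]
        exact add_le_add le_rfl (mul_le_mul_of_nonneg_right (prod_lw_le H _ _) (hg t))
    _ = _ := by rw [expect_add_distrib, ← expect_mul, expect_prod_lw H, one_mul, mul_expect]

theorem expect_root_sg {ω : F[X]} (hω : ω ≠ 0) :
    𝔼 u, ind (ω.eval u = 0) ≤ (ω.natDegree : ℝ) / Fintype.card F := by
  classical
  rw [expect_eq_sum_div]
  refine div_le_div_of_nonneg_right ?_ (by positivity)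
  have h1 : ∑ u, ind (ω.eval u = 0) = (ω.roots.toFinset.card : ℝ) := by
    rw [card_eq_sum_ones, Nat.cast_sum, ← sum_subset (subset_univ ω.roots.toFinset)]
    · refine sum_congr rfl fun u hu => ?_
      rw [ind_pos (by simpa [hω] using hu), Nat.cast_one]
    · intro u _ hu
      exact ind_neg (by simpa [hω] using hu)
  rw [h1]
  exact_mod_cast (Multiset.toFinset_card_le _).trans (card_roots' ω)

theorem expect_coord_sg (s : Slot) (f : F → ℝ) : 𝔼 t : Slot → F, f (t s) = 𝔼 u, f u := by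
  rw [expect_update s]
  simp

theorem lw_ind_le {r : ℕ} {γ : ℝ} {sd : Side F e h} {A : Fin 2 → Vtx F e n h} {i : Fin 2}
    (H : LwOK r γ sd A i) (P : F → Prop) : 𝔼 u, lw sd A i u * ind (P u) ≤ 1 := by
  rw [← H.total]
  exact expect_mono fun u => mul_le_of_le_one_right (lw_nonneg _ _ _ _) (ind_le_one _)

theorem rel_one {r : ℕ} {γ : ℝ} (hγ : 0 ≤ γ) (hr : 2 * r ≤ 3 * e) {sd : Side F e h}
    {A : Fin 2 → Vtx F e n h} (hs : SideOK r sd) (hx : ∀ i, GoodV (r + 1) γ (A i))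
    (H : ∀ i, LwOK r γ sd A i) (s : Slot) (a b c d : K) :
    𝔼 t : Slot → F, (∏ s, lw sd A s.1 (t s)) *
      ind (a • ((gd sd A t).π s.1 + (gd sd A t).τ s) + b • ((gd sd A t).d s + (gd sd A t).τ s) +
        c • (gd sd A t).v s.1 + d • e0 = 0 ∧ ¬ (a = 0 ∧ b = 0 ∧ c = 0)) ≤
      2 / 2 ^ (2 * h + 1) + γ * cow h r * kap h r + kap h r ^ 4 * (r / Fintype.card F) := by
  obtain ⟨i, j⟩ := s
  obtain ⟨hli, ⟨ω, hω, hωr, hl⟩, hv⟩ := hs i
  have hc := cow_pos h r
  have hk := kap_pos h r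
  refine (cond_slot H (i, j) _ (fun t => ind (ω.eval (t (i, j.rev)) = 0))
    (2 / 2 ^ (2 * h + 1) + γ * cow h r * kap h r) (fun t => ind_nonneg _) fun t => ?_).trans ?_
  swap
  · rw [expect_coord_sg (i, j.rev) fun u => ind (ω.eval u = 0)]
    refine add_le_add le_rfl (mul_le_mul_of_nonneg_left ((expect_root_sg hω).trans ?_)
      (by positivity))
    gcongr
  by_cases h0 : ω.eval (t (i, j.rev)) = 0
  · rw [ind_pos h0]
    refine (lw_ind_le (H i) _).trans ?_
    have : 0 ≤ 2 / 2 ^ (2 * h + 1) + γ * cow h r * kap h r := by positivity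
    linarith
  rw [ind_neg h0, add_zero]
  set t' := t (i, j.rev) with ht'
  let ρ : Option (Option (Fin sd.m)) → Y F (3 * e) := fun o => o.elim (ev (3 * e) t') (sd.r i)
  have hρ : LinearIndependent K ρ := by
    rw [linearIndependent_option]
    refine ⟨hli, fun hm => not_low_ev (by omega) h0 (low_span (s := Set.range (sd.r i)) ?_ hm)⟩
    rintro _ ⟨o, rfl⟩
    exact hl o
  have hl' : ∀ o, Low (3 * e) (ω * (X - C t')) (ρ o) := by
    rintro (_ | o)
    · exact low_ev (by simp)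
    · exact (hl o).of_dvd (dvd_mul_right _ _)
  have hω' : ω * (X - C t') ≠ 0 := mul_ne_zero hω (X_sub_C_ne_zero t')
  have hd' : (ω * (X - C t')).natDegree ≤ r + 1 := by
    rw [natDegree_mul hω (X_sub_C_ne_zero t'), natDegree_X_sub_C]
    omega
  have hcard : Fintype.card (Option (Option (Fin sd.m))) ≤ r + 4 := by
    have := (H i).m_le
    simp only [Fintype.card_option, Fintype.card_fin]
    omega
  let ψ : OW (Option (Option (Fin sd.m))) h → GG h := fun w =>
    a • (w.2.2 none + w.2.2 (some none)) + b • (w.2.1 + w.2.2 (some none)) + c • sd.v i + d • e0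
  have hπ : ∀ u, (gd sd A (Function.update t (i, j) u)).π i = row (A i) (ev (3 * e) t') u := by
    intro u
    fin_cases j
    · simp only [gd, ht']
      rw [row_symm]
      simp
    · simp [gd, ht']
  have hψ : ∀ u, a • ((gd sd A (Function.update t (i, j) u)).π i +
      (gd sd A (Function.update t (i, j) u)).τ (i, j)) +
      b • ((gd sd A (Function.update t (i, j) u)).d (i, j) +
      (gd sd A (Function.update t (i, j) u)).τ (i, j)) +
      c • (gd sd A (Function.update t (i, j) u)).v i + d • e0 = ψ (own (A i) ρ u) := by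
    intro u
    rw [hπ]
    simp [gd, ψ, own, ρ, tau]
  simp only [hψ]
  have hmain : ∀ J : GG h → OW (Option (Option (Fin sd.m))) h, (∀ η o, (J η).2.2 (some o) = 0) →
      (∀ w η, ψ (w + J η) = ψ w + η) → 𝔼 u, lw sd A i u *
        ind (ψ (own (A i) ρ u) = 0 ∧ ¬ (a = 0 ∧ b = 0 ∧ c = 0)) ≤
        2 / 2 ^ (2 * h + 1) + γ * cow h r * kap h r := fun J h1 h2 =>
    le_trans (expect_mono fun u => mul_le_mul_of_nonneg_left (ind_mono fun h => h.1)
      (lw_nonneg _ _ _ _)) (own_event hγ hv (H i) (hx i).2 hω' hd' hcard hρ hl' some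
        (Option.some_injective _) (fun o => rfl) ψ J h1 h2 0)
  rcases K_cases b with hb | hb
  · rcases K_cases a with ha | ha
    · have : ∀ u, ind (ψ (own (A i) ρ u) = 0 ∧ ¬ (a = 0 ∧ b = 0 ∧ c = 0)) = 0 := by
        intro u
        refine ind_neg fun hu => ?_
        obtain ⟨k, hk⟩ := hv
        have hc1 : c = 1 := K_ne_zero.mp fun hc0 => hu.2 ⟨ha, hb, hc0⟩
        have := congrFun hu.1 (some k)
        simp [ψ, ha, hb, hc1, e0] at this
        exact hk this
      simp only [this, mul_zero, Fintype.expect_const]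
      positivity
    · refine hmain (fun η => (0, 0, Pi.single none η)) (fun η o => by simp) fun w η => ?_
      simp only [ψ, ha, hb, one_smul, zero_smul, Prod.snd_add, Pi.add_apply, Pi.single_eq_same,
        Pi.single_eq_of_ne (Option.some_ne_none _), add_zero]
      abel
  · refine hmain (fun η => (0, η, 0)) (fun η o => by simp) fun w η => ?_
    simp only [ψ, hb, one_smul, Prod.snd_add, Prod.fst_add, add_zero]
    abel

theorem rel_two_aux {r : ℕ} {γ : ℝ} (hγ : 0 ≤ γ) {sd : Side F e h}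
    {A : Fin 2 → Vtx F e n h} (hs : SideOK r sd) (hx : ∀ i, GoodV (r + 1) γ (A i))
    (H : ∀ i, LwOK r γ sd A i) (s : Slot) (P : (Slot → F) → Prop) (y : (Slot → F) → GG h)
    (hP : ∀ t u, P (Function.update t s u) → xi (A s.1) (A s.1) u = y t) :
    𝔼 t : Slot → F, (∏ s, lw sd A s.1 (t s)) * ind (P t) ≤
      2 / 2 ^ (2 * h + 1) + γ * cow h r * kap h r := by
  obtain ⟨hli, ⟨ω, hω, hωr, hl⟩, hv⟩ := hs s.1
  refine (cond_slot H s _ (fun _ => 0) (2 / 2 ^ (2 * h + 1) + γ * cow h r * kap h r)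
    (fun t => le_rfl) fun t => ?_).trans (by simp)
  rw [add_zero]
  have hcard : Fintype.card (Option (Fin sd.m)) ≤ r + 4 := by
    have := (H 0).m_le
    simp only [Fintype.card_option, Fintype.card_fin]
    omega
  exact le_trans (expect_mono fun u => mul_le_mul_of_nonneg_left (ind_mono fun h => hP t u h)
    (lw_nonneg _ _ _ _)) (own_event hγ hv (H s.1) (hx s.1).2 hω (by omega) hcard hli hl id
      Function.injective_id (fun o => rfl) (fun w => w.1) (fun η => (η, 0, 0)) (fun η o => rfl)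
      (fun w η => rfl) (y t))

theorem rel_two {r : ℕ} {γ : ℝ} (hγ : 0 ≤ γ) {sd : Side F e h}
    {A : Fin 2 → Vtx F e n h} (hs : SideOK r sd) (hx : ∀ i, GoodV (r + 1) γ (A i))
    (H : ∀ i, LwOK r γ sd A i) (j : Fin 2) (a b c d : K) :
    𝔼 t : Slot → F, (∏ s, lw sd A s.1 (t s)) *
      ind (a • ((gd sd A t).o (j, 0) + (gd sd A t).x (j.rev, 0)) +
        b • ((gd sd A t).o (j, 1) + (gd sd A t).x (j.rev, 1)) +
        c • ((gd sd A t).x (j.rev, 0) + (gd sd A t).x (j.rev, 1)) + d • e0 = 0 ∧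
        ¬ (a = 0 ∧ b = 0)) ≤ 2 / 2 ^ (2 * h + 1) + γ * cow h r * kap h r := by
  have hj : j.rev ≠ j := by fin_cases j <;> decide
  rcases K_cases a with ha | ha
  · refine rel_two_aux hγ hs hx H (j, 1) _ (fun t => (gd sd A t).x (j.rev, 1) +
      c • ((gd sd A t).x (j.rev, 0) + (gd sd A t).x (j.rev, 1)) + d • e0) fun t u hu => ?_
    have hb : b = 1 := K_ne_zero.mp fun hb => hu.2 ⟨ha, hb⟩
    have h1 := hu.1
    simp only [gd, ha, hb, zero_smul, one_smul, zero_add, Function.update_self, ne_eq,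
      Prod.mk.injEq, hj, false_and, not_false_eq_true, Function.update_of_ne] at h1 ⊢
    rw [add_assoc, add_assoc, add_eq_zero_K] at h1
    rw [h1, add_assoc]
  · refine rel_two_aux hγ hs hx H (j, 0) _ (fun t => (gd sd A t).x (j.rev, 0) +
      b • ((gd sd A t).o (j, 1) + (gd sd A t).x (j.rev, 1)) +
      c • ((gd sd A t).x (j.rev, 0) + (gd sd A t).x (j.rev, 1)) + d • e0) fun t u hu => ?_
    have h1 := hu.1
    simp only [gd, ha, one_smul, Function.update_self, ne_eq, Prod.mk.injEq, hj, false_and,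
      not_false_eq_true, Function.update_of_ne, one_ne_zero, and_false] at h1 ⊢
    rw [add_assoc, add_assoc, add_assoc, add_eq_zero_K] at h1
    rw [h1, add_assoc, add_assoc]

theorem gen_bound {r : ℕ} {γ : ℝ} (hγ : 0 ≤ γ) (hr : 2 * r ≤ 3 * e) {sd : Side F e h}
    {A : Fin 2 → Vtx F e n h} (hs : SideOK r sd) (hx : ∀ i, GoodV (r + 1) γ (A i))
    (H : ∀ i, LwOK r γ sd A i) :
    𝔼 t : Slot → F, (∏ s, lw sd A s.1 (t s)) * ind (¬ ((gd sd A t).Gen ∧ Dist t)) ≤
      96 * (2 / 2 ^ (2 * h + 1) + γ * cow h r * kap h r) +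
        kap h r ^ 4 * (64 * r + 2) / Fintype.card F := by
  let P₁ : Slot × K × K × K × K → (Slot → F) → Prop := fun z t =>
    z.2.1 • ((gd sd A t).π z.1.1 + (gd sd A t).τ z.1) +
      z.2.2.1 • ((gd sd A t).d z.1 + (gd sd A t).τ z.1) +
      z.2.2.2.1 • (gd sd A t).v z.1.1 + z.2.2.2.2 • e0 = 0 ∧
      ¬ (z.2.1 = 0 ∧ z.2.2.1 = 0 ∧ z.2.2.2.1 = 0)
  let P₂ : Fin 2 × K × K × K × K → (Slot → F) → Prop := fun z t =>
    z.2.1 • ((gd sd A t).o (z.1, 0) + (gd sd A t).x (z.1.rev, 0)) +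
      z.2.2.1 • ((gd sd A t).o (z.1, 1) + (gd sd A t).x (z.1.rev, 1)) +
      z.2.2.2.1 • ((gd sd A t).x (z.1.rev, 0) + (gd sd A t).x (z.1.rev, 1)) +
      z.2.2.2.2 • e0 = 0 ∧ ¬ (z.2.1 = 0 ∧ z.2.2.1 = 0)
  have h1 : ∀ t, ind (¬ ((gd sd A t).Gen ∧ Dist t)) ≤
      ∑ z, ind (P₁ z t) + ∑ z, ind (P₂ z t) + ∑ i, ind (t (i, 0) = t (i, 1)) := by
    intro t
    refine le_trans (ind_mono (Q := ((∃ z, P₁ z t) ∨ ∃ z, P₂ z t) ∨ ∃ i, t (i, 0) = t (i, 1))
      fun hn => ?_) ((ind_or_le _ _).trans (add_le_add ((ind_or_le _ _).trans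
        (add_le_add (ind_exists_le _) (ind_exists_le _))) (ind_exists_le _)))
    by_contra hc
    simp only [not_or, not_exists] at hc
    refine hn ⟨⟨fun s a b c d h0 => ?_, fun j a b c d h0 => ?_⟩, hc.2⟩
    · by_contra h2
      exact hc.1.1 (s, a, b, c, d) ⟨h0, h2⟩
    · by_contra h2
      exact hc.1.2 (j, a, b, c, d) ⟨h0, h2⟩
  refine (expect_mono fun t => mul_le_mul_of_nonneg_left (h1 t) (prod_lw_nonneg _ _ _ _)).trans ?_
  simp only [mul_add, mul_sum]
  rw [expect_add_distrib, expect_add_distrib, expect_sum_comm, expect_sum_comm, expect_sum_comm]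
  have b1 := sum_le_card_nsmul univ (fun z => 𝔼 t : Slot → F, (∏ s, lw sd A s.1 (t s)) *
    ind (P₁ z t)) _ fun z _ => rel_one hγ hr hs hx H z.1 z.2.1 z.2.2.1 z.2.2.2.1 z.2.2.2.2
  have b2 := sum_le_card_nsmul univ (fun z => 𝔼 t : Slot → F, (∏ s, lw sd A s.1 (t s)) *
    ind (P₂ z t)) _ fun z _ => rel_two hγ hs hx H z.1 z.2.1 z.2.2.1 z.2.2.2.1 z.2.2.2.2
  have b3 := sum_le_card_nsmul univ (fun i : Fin 2 => 𝔼 t : Slot → F, (∏ s, lw sd A s.1 (t s)) *
    ind (t (i, 0) = t (i, 1))) (kap h r ^ 4 * (1 / Fintype.card F)) fun i _ => by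
      refine (expect_mono fun t => mul_le_mul_of_nonneg_right (prod_lw_le H _ t)
        (ind_nonneg _)).trans ?_
      rw [← mul_expect, expect_update (i, 0)]
      simp [expect_ind_eq]
  simp only [card_univ, Fintype.card_prod, Fintype.card_fin, ZMod.card, nsmul_eq_mul] at b1 b2 b3
  refine (add_le_add (add_le_add b1 b2) b3).trans (le_of_eq ?_)
  push_cast
  ring

end aux

/-- J10d: non-generic labels are rare -/
theorem small_gen (h r : ℕ) (δ : ℝ) (hδ : 0 < δ) : ∃ γ₀ : ℝ, 0 < γ₀ ∧ ∀ γ : ℝ, 0 < γ → γ ≤ γ₀ →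
    ∀ᶠ κ : ℕ in atTop,
    ∀ (F : Type) [Field F] [Fintype F] [Algebra K F], Fintype.card F = 4 ^ κ →
    ∀ (sd : Side F (κ ^ 2) h) (A : Fin 2 → Vtx F (κ ^ 2) (4 * κ ^ 2) h),
      SideOK r sd → (∀ i, GoodV (r + 1) γ (A i)) →
        𝔼 t : Slot → F, (∏ s, lw sd A s.1 (t s)) * ind (¬ ((gd sd A t).Gen ∧ Dist t)) ≤
          256 / 2 ^ h + δ := by
  have h1 := cow_pos h r
  have h2 := kap_pos h r
  refine ⟨min (1 / (cow h r * kap h r)) (δ / (192 * (cow h r * kap h r))),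
    by positivity, fun γ hγ hγ' => ?_⟩
  have hγ1 := hγ'.trans (min_le_left _ _)
  have hγ2 := hγ'.trans (min_le_right _ _)
  rw [le_div_iff₀ (by positivity)] at hγ1 hγ2
  filter_upwards [ev_two_r r, ev_div_four_pow (kap h r ^ 4 * (64 * r + 2)) (δ / 2) (by positivity)]
    with κ hr hκ F _ _ _ hq sd A hs hx
  have H := fun i => lwOK_of hγ.le hγ1 hr hs A i ⟨(hx i).1, (hx i).2.mono (Nat.le_succ r)⟩
  refine (gen_bound hγ.le hr hs hx H).trans ?_
  rw [hq]
  push_cast
  have h3 : 2 / (2 : ℝ) ^ (2 * h + 1) ≤ 1 / 2 ^ h := by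
    rw [div_le_div_iff₀ (by positivity) (by positivity), one_mul, ← pow_succ']
    exact pow_le_pow_right₀ (by norm_num) (by omega)
  have h4 : (256 : ℝ) / 2 ^ h = 256 * (1 / 2 ^ h) := by ring
  have h5 : (0 : ℝ) ≤ 1 / 2 ^ h := by positivity
  nlinarith

end Vale.Agent.P060
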