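import Vale.Agent.P060.MainA
import Vale.Agent.P060.Latent
import Vale.Agent.P060.Sign
import Vale.Agent.P060.ErrMain
import Vale.Agent.P060.Sel
import Vale.Agent.P060.SmallC
import Vale.Agent.P060.SmallG
import Vale.Agent.P060.Contain

/-!
# P060: assembly
-/

namespace Vale.Agent.P060

open Finset Polynomial Filter
open scoped BigOperators

theorem Unif.mono {𝒜 L V : Type} [Fintype 𝒜] [Fintype L] [Fintype V] {w : 𝒜 → ℝ}
    {lw : 𝒜 → Fin 2 → L → ℝ} {p : 𝒜 → Fin 2 → L → V} {n n' : ℕ} {ε ε' : ℝ}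
    (hU : Unif w lw p n ε) (hn : n' ≤ n) (hε : ε ≤ ε') : Unif w lw p n' ε' :=
  fun ι _ _ sd hι Z hZ => (hU ι sd (hι.trans hn) Z hZ).trans hε

section Core
variable {F : Type} [Field F] [Fintype F] [Algebra K F] {e n h : ℕ}

theorem trim_mass {hh : (Fin 2 → Vtx F e n h) → ℝ} {Λ₁ δ : ℝ} (hT : Trim hh vp 2 Λ₁ δ)
    (i : Fin 2) : 𝔼 A, hh A * 𝔼 t : Slot → F,
      ind (Λ₁ < dens hh vp i (A i) (fun j : Fin 2 => t (i.rev, j))
        fun j => vp (A i.rev) (t (i.rev, j))) ≤ δ := by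
  refine le_trans (le_of_eq ?_) (hT i (Fin 2) (by simp))
  refine expect_congr rfl fun A _ => ?_
  congr 1
  exact expect_comp_inj (fun j : Fin 2 => ((i.rev, j) : Slot)) (fun a b hab => (Prod.mk.inj hab).2)
    fun τ : Fin 2 → F => ind (Λ₁ < dens hh vp i (A i) τ fun a => vp (A i.rev) (τ a))

theorem ss_core (h4 : 4 ≤ h) (hh : (Fin 2 → Vtx F e n h) → ℝ)
    (sd : (Fin 2 → Vtx F e n h) → Side F e h) {Λ M : ℝ} (hd : Dens hh Λ M)
    (c₀ ε σ ε₁ δ₂ δ₃ κ₁ Λ₁ X : ℝ) (hX : 0 ≤ X)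
    (hsurj : ∀ A, hh A ≠ 0 → ∀ i, Surj (A i).c)
    (hlink : ∀ A, hh A ≠ 0 → Link (sd A) A)
    (hlw : ∀ A, hh A ≠ 0 → ∀ i t, lw (sd A) A i t ≤ κ₁)
    (hU : Unif hh (fun A => lw (sd A) A) (fun A i => vp (A i)) 4 ε)
    (hS : ∀ β : Bits, β.Small → ∀ Z : (Slot → Fin n → F) → ℝ, (∀ v, |Z v| ≤ 1) →
        |𝔼 A, 𝔼 t : Slot → F, hh A * (∏ s, lw (sd A) A s.1 (t s)) *
          sgn (β.dot (gd (sd A) A t).bits) * Z (pts A t)| ≤ σ)
    (hG : ∀ A, hh A ≠ 0 → 𝔼 t : Slot → F, (∏ s, lw (sd A) A s.1 (t s)) *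
      ind (¬ ((gd (sd A) A t).Gen ∧ Dist t)) ≤ ε₁)
    (hT : Trim hh vp 2 Λ₁ δ₂)
    (hL : ∀ ζ : (Slot → K × K) → (Slot → Fin n → F) → Prop,
      (∀ lam v, ζ lam v ∨ ζ lam (v ∘ Prod.swap)) →
        c₀ ≤ 𝔼 A, hh A * 𝔼 t : Slot → F, (∏ s, lw (sd A) A s.1 (t s)) *
          ind (Adm (fun s => mark (sd A) A s.1 (t s)) ∧
            ζ (fun s => mark (sd A) A s.1 (t s)) fun s => vp (A s.1) (t s)))
    (hc : 4 * ε ≤ c₀)
    (hC : ∀ a : (Fin 2 → Vtx F e n h) → (Slot → F) → ℝ, WtOK hh a (κ₁ ^ 4) Λ₁ → ∀ g g' : Gs h,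
        (𝔼 A, 𝔼 t, 𝔼 B, 𝔼 t', a A t * a B t' *
            ind (Match A t B t' ∧ Wit g A t B ∧ Wit g' B t' A)) -
          δ₃ / (Fintype.card (Fin n → F) : ℝ) ^ 4 ≤
        X * 𝔼 A, 𝔼 t, 𝔼 B, 𝔼 t', a A t * a B t' *
            ind (Match A t B t' ∧ Cross g A t B ∧ Cross g' B t' A)) (hδ₃ : 0 ≤ δ₃) :
    (c₀ - 4 * ε) ^ 2 / 2 ^ 28 - 2 * σ - 4 * (ε₁ + κ₁ ^ 4 * (2 * δ₂)) -
        Fintype.card (Gs h × Gs h) * δ₃ ≤
      (Fintype.card (Fin n → F) : ℝ) ^ 4 * (Fintype.card (Gs h × Gs h) * X * (κ₁ ^ 4) ^ 2 *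
        𝔼 A, 𝔼 B, hh A * hh B * ind (Conf (HH F e n h) A B)) := by
  classical
  have lw0 : ∀ A i t, 0 ≤ lw (sd A) A i t := fun A i t =>
    div_nonneg (ind_nonneg _) (expect_nonneg' fun _ => ind_nonneg _)
  have plw0 : ∀ A (t : Slot → F), 0 ≤ ∏ s, lw (sd A) A s.1 (t s) := fun A t =>
    prod_nonneg fun s _ => lw0 _ _ _
  have plw1 : ∀ A (t : Slot → F), hh A * ∏ s, lw (sd A) A s.1 (t s) ≤ κ₁ ^ 4 * hh A := by
    intro A t
    by_cases hA : hh A = 0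
    · simp [hA]
    · have : ∏ s : Slot, lw (sd A) A s.1 (t s) ≤ κ₁ ^ 4 := by
        refine (prod_le_prod (fun s _ => lw0 _ _ _) fun s _ => hlw A hA _ _).trans ?_
        simp
      nlinarith [hd.nonneg A]
  set b : (Fin 2 → Vtx F e n h) × (Slot → F) → ℝ :=
    fun T => hh T.1 * ∏ s, lw (sd T.1) T.1 s.1 (T.2 s) with hb
  set typ : (Fin 2 → Vtx F e n h) × (Slot → F) → Prop := fun T =>
    ((gd (sd T.1) T.1 T.2).Gen ∧ Dist T.2) ∧ ∀ i : Fin 2,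
      dens hh vp i (T.1 i) (fun j : Fin 2 => T.2 (i.rev, j))
        (fun j => vp (T.1 i.rev) (T.2 (i.rev, j))) ≤ Λ₁ with htyp
  have b0 : ∀ T, 0 ≤ b T := fun T => mul_nonneg (hd.nonneg _) (plw0 _ _)
  have conv : ∀ f : (Fin 2 → Vtx F e n h) × (Slot → F) → ℝ, 𝔼 T, b T * f T =
      𝔼 A, hh A * 𝔼 t : Slot → F, (∏ s, lw (sd A) A s.1 (t s)) * f (A, t) := by
    intro f
    rw [expect_prod]
    simp only [hb, mul_expect, mul_assoc]
  obtain ⟨W, hW, hmain⟩ := sign_pos b (fun T => pts T.1 T.2) (fun T => (gd (sd T.1) T.1 T.2).bits)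
    typ c₀ ε σ (ε₁ + κ₁ ^ 4 * (2 * δ₂)) b0
    (fun Z hZ => by
      rw [conv]
      exact hU Slot Prod.fst (by simp) Z hZ)
    (fun β hβ Z hZ => by
      rw [expect_prod]
      exact hS β hβ Z hZ)
    (by
      have h1 : 𝔼 T, b T * ind (¬ ((gd (sd T.1) T.1 T.2).Gen ∧ Dist T.2)) ≤ ε₁ := by
        rw [conv]
        calc _ ≤ 𝔼 A, hh A * ε₁ := expect_mono fun A => by
                by_cases hA : hh A = 0
                · simp [hA]
                · exact mul_le_mul_of_nonneg_left (hG A hA) (hd.nonneg A)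
          _ = ε₁ := by rw [← expect_mul, hd.total, one_mul]
      have h2 : ∀ i : Fin 2, 𝔼 T, b T * ind (Λ₁ < dens hh vp i (T.1 i)
          (fun j : Fin 2 => T.2 (i.rev, j)) fun j => vp (T.1 i.rev) (T.2 (i.rev, j))) ≤
          κ₁ ^ 4 * δ₂ := by
        intro i
        refine le_trans ?_ (mul_le_mul_of_nonneg_left (trim_mass hT i) (by positivity))
        rw [expect_prod, mul_expect]
        refine expect_mono fun A => ?_
        rw [← mul_assoc, mul_expect]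
        exact expect_mono fun t => mul_le_mul_of_nonneg_right (plw1 A t) (ind_nonneg _)
      have h3 := add_le_add h1 (add_le_add (h2 0) (h2 1))
      rw [← expect_add_distrib, ← expect_add_distrib] at h3
      refine le_trans (expect_mono fun T => ?_) (h3.trans (le_of_eq (by ring)))
      rw [← mul_add, ← mul_add]
      refine mul_le_mul_of_nonneg_left ?_ (b0 T)
      refine le_trans (ind_mono ?_) ((ind_or_le _ _).trans (add_le_add le_rfl (ind_or_le _ _)))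
      intro hn
      by_contra hcon
      rw [not_or, not_or, not_not, not_lt, not_lt] at hcon
      exact hn ⟨hcon.1, Fin.forall_fin_two.mpr hcon.2⟩)
    (fun ζ hζ => by
      rw [conv]
      exact hL ζ hζ) hc
  set a : (Fin 2 → Vtx F e n h) → (Slot → F) → ℝ :=
    fun A t => b (A, t) * ind (typ (A, t) ∧ W (pts A t)) with ha
  have a0 : ∀ A t, 0 ≤ a A t := fun A t => mul_nonneg (b0 _) (ind_nonneg _)
  have a1 : ∀ A t, a A t ≤ κ₁ ^ 4 * hh A := fun A t =>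
    (mul_le_of_le_one_right (b0 _) (ind_le_one _)).trans (plw1 A t)
  have asupp : ∀ A t, a A t ≠ 0 → hh A ≠ 0 ∧ (∀ s, Sel (sd A) A s.1 (t s)) ∧ typ (A, t) ∧
      W (pts A t) := by
    intro A t hne
    obtain ⟨h1, h2⟩ := mul_ne_zero_iff.mp hne
    obtain ⟨h3, h5⟩ := mul_ne_zero_iff.mp h1
    refine ⟨h3, fun s => ?_, ind_ne_zero.mp h2⟩
    have := prod_ne_zero_iff.mp h5 s (mem_univ _)
    exact ind_ne_zero.mp (div_ne_zero_iff.mp this).1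
  have hV : (0 : ℝ) < (Fintype.card (Fin n → F) : ℝ) ^ 4 := by positivity
  have haok : WtOK hh a (κ₁ ^ 4) Λ₁ := by
    refine ⟨a0, a1, fun A t hne => hsurj A (asupp A t hne).1,
      fun A t hne => (asupp A t hne).2.2.1.1.2, fun w => ?_,
      fun A t hne => (asupp A t hne).2.2.1.2⟩
    by_cases hw : W w
    · refine le_trans (mul_le_mul_of_nonneg_left ?_ hV.le) (hW w hw)
      rw [expect_prod]
      exact expect_mono fun A => expect_mono fun t => mul_le_mul_of_nonneg_right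
        (mul_le_of_le_one_right (b0 _) (ind_le_one _)) (ind_nonneg _)
    · have : ∀ A t, a A t * ind (pts A t = w) = 0 := by
        intro A t
        by_contra hne
        obtain ⟨h1, h2⟩ := mul_ne_zero_iff.mp hne
        exact hw (ind_ne_zero.mp h2 ▸ (asupp A t h1).2.2.2)
      simp [this]
  set E := 𝔼 A, 𝔼 B, hh A * hh B * ind (Conf (HH F e n h) A B) with hE
  have E0 : 0 ≤ E := expect_nonneg' fun A => expect_nonneg' fun B =>
    mul_nonneg (mul_nonneg (hd.nonneg _) (hd.nonneg _)) (ind_nonneg _)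
  -- each admissible family
  have each : ∀ g : Gs h × Gs h, (𝔼 A, 𝔼 t, 𝔼 B, 𝔼 t', a A t * a B t' *
      ind (AdmG g.1 g.2 ∧ Match A t B t' ∧ Wit g.1 A t B ∧ Wit g.2 B t' A)) ≤
      δ₃ / (Fintype.card (Fin n → F) : ℝ) ^ 4 + X * (κ₁ ^ 4) ^ 2 * E := by
    intro g
    by_cases hg : AdmG g.1 g.2
    · have h1 := hC a haok g.1 g.2
      simp only [hg, true_and]
      have h2 : (𝔼 A, 𝔼 t, 𝔼 B, 𝔼 t', a A t * a B t' *
          ind (Match A t B t' ∧ Cross g.1 A t B ∧ Cross g.2 B t' A)) ≤ (κ₁ ^ 4) ^ 2 * E := by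
        rw [hE, mul_expect]
        refine expect_mono fun A => ?_
        refine expect_le univ_nonempty fun t _ => ?_
        rw [mul_expect]
        refine expect_mono fun B => ?_
        refine expect_le univ_nonempty fun t' _ => ?_
        have h3 := mul_le_mul (a1 A t) (a1 B t') (a0 _ _)
          (mul_nonneg (by positivity) (hd.nonneg A))
        have h4 : ind (Match A t B t' ∧ Cross g.1 A t B ∧ Cross g.2 B t' A) ≤
            ind (Conf (HH F e n h) A B) := ind_mono fun hx => conf_of_cross hg hx.1 hx.2.1 hx.2.2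
        calc _ ≤ (κ₁ ^ 4 * hh A * (κ₁ ^ 4 * hh B)) * ind (Conf (HH F e n h) A B) :=
              mul_le_mul h3 h4 (ind_nonneg _) (le_trans (mul_nonneg (a0 _ _) (a0 _ _)) h3)
          _ = _ := by ring
      have := mul_le_mul_of_nonneg_left h2 hX
      rw [mul_assoc]
      linarith
    · simp only [hg, false_and, ind_false, mul_zero, Fintype.expect_const]
      positivity
  have hsum : (𝔼 T, 𝔼 T', (b T * ind (typ T ∧ W (pts T.1 T.2))) *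
      (b T' * ind (typ T' ∧ W (pts T'.1 T'.2))) *
      ind (pts T'.1 T'.2 = pts T.1 T.2 ∘ Prod.swap ∧
        (gd (sd T.1) T.1 T.2).bits.SignEq (gd (sd T'.1) T'.1 T'.2).bits)) ≤
      ∑ g : Gs h × Gs h, 𝔼 A, 𝔼 t, 𝔼 B, 𝔼 t', a A t * a B t' *
        ind (AdmG g.1 g.2 ∧ Match A t B t' ∧ Wit g.1 A t B ∧ Wit g.2 B t' A) := by
    simp only [← expect_sum_comm]
    rw [expect_prod]
    refine expect_mono fun A => expect_mono fun t => ?_
    rw [expect_prod]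
    refine expect_mono fun B => expect_mono fun t' => ?_
    rw [← mul_sum]
    change a A t * a B t' * _ ≤ _
    by_cases h1 : a A t = 0
    · simp [h1]
    by_cases h2 : a B t' = 0
    · simp [h2]
    refine mul_le_mul_of_nonneg_left (le_trans (ind_mono ?_) (ind_exists_le _))
      (mul_nonneg (a0 _ _) (a0 _ _))
    rintro ⟨hM, hs⟩
    obtain ⟨p1, p2, p3, -⟩ := asupp A t h1
    obtain ⟨q1, q2, q3, -⟩ := asupp B t' h2
    obtain ⟨g, g1, g2, g3⟩ := exists_wit h4 hM (hlink A p1) (hlink B q1) p2 q2 p3.1.1 q3.1.1 hs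
    exact ⟨g, g1, hM, g2, g3⟩
  have hsum2 := hsum.trans (sum_le_sum fun g _ => each g)
  rw [sum_const, card_univ, nsmul_eq_mul] at hsum2
  have := hmain.trans (mul_le_mul_of_nonneg_left hsum2 hV.le)
  have e1 : (Fintype.card (Fin n → F) : ℝ) ^ 4 * (Fintype.card (Gs h × Gs h) *
      (δ₃ / (Fintype.card (Fin n → F) : ℝ) ^ 4 + X * (κ₁ ^ 4) ^ 2 * E)) =
      Fintype.card (Gs h × Gs h) * δ₃ + (Fintype.card (Fin n → F) : ℝ) ^ 4 *
        (Fintype.card (Gs h × Gs h) * X * (κ₁ ^ 4) ^ 2 * E) := by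
    field_simp
  linarith

end Core

theorem class_pigeon {Ω : Type} [Fintype Ω] (H : SimpleGraph Ω) {hh₀ : (Fin 2 → Ω) → ℝ} {Λ M η : ℝ}
    (hd₀ : Dens hh₀ Λ M) (Gd : (Fin 2 → Ω) → Prop) (P : Finset K → (Fin 2 → Ω) → Prop)
    (hgm : 𝔼 A, hh₀ A * ind (¬ Gd A) ≤ 1 / 2)
    (hcl : ∀ A, hh₀ A ≠ 0 → Gd A → ∃ S, P S A ∨ P S (A ∘ Fin.rev))
    (core : ∀ (S : Finset K) (hh₁ : (Fin 2 → Ω) → ℝ), Dens hh₁ Λ M →
      1 / 16 ≤ 𝔼 A, hh₁ A * ind (P S A) → η ≤ 𝔼 A, 𝔼 B, hh₁ A * hh₁ B * ind (Conf H A B)) :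
    η ≤ 𝔼 A, 𝔼 B, hh₀ A * hh₀ B * ind (Conf H A B) := by
  classical
  have hcover : ∀ A, hh₀ A ≤ hh₀ A * ind (¬ Gd A) +
      ∑ S : Finset K, (hh₀ A * ind (P S A) + hh₀ A * ind (P S (A ∘ Fin.rev))) := by
    intro A
    have nn : ∀ S : Finset K, 0 ≤ hh₀ A * ind (P S A) + hh₀ A * ind (P S (A ∘ Fin.rev)) :=
      fun S => add_nonneg (mul_nonneg (hd₀.nonneg _) (ind_nonneg _))
        (mul_nonneg (hd₀.nonneg _) (ind_nonneg _))
    by_cases hA : hh₀ A = 0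
    · simp [hA]
    by_cases hg : Gd A
    · obtain ⟨S, hS⟩ := hcl A hA hg
      rw [ind_neg (not_not.mpr hg), mul_zero, zero_add]
      refine le_trans ?_ (single_le_sum (fun S _ => nn S) (mem_univ S))
      rcases hS with hS | hS
      · rw [ind_pos hS, mul_one]
        linarith [mul_nonneg (hd₀.nonneg A) (ind_nonneg (P S (A ∘ Fin.rev)))]
      · rw [ind_pos hS, mul_one]
        linarith [mul_nonneg (hd₀.nonneg A) (ind_nonneg (P S A))]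
    · rw [ind_pos hg, mul_one]
      linarith [sum_nonneg fun S (_ : S ∈ univ) => nn S]
  have hsum := expect_mono hcover
  rw [hd₀.total, expect_add_distrib, expect_sum_comm] at hsum
  by_contra hcon
  have hb : ∀ S : Finset K, 𝔼 A, (hh₀ A * ind (P S A) + hh₀ A * ind (P S (A ∘ Fin.rev))) <
      1 / 8 := by
    intro S
    rw [expect_add_distrib]
    have b1 : 𝔼 A, hh₀ A * ind (P S A) < 1 / 16 := lt_of_not_ge fun hx => hcon (core S _ hd₀ hx)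
    have b2 : 𝔼 A, hh₀ A * ind (P S (A ∘ Fin.rev)) < 1 / 16 := by
      refine lt_of_not_ge fun hx => hcon ?_
      rw [← conf_flip]
      refine core S _ hd₀.flip (hx.trans (le_of_eq ?_))
      rw [← expect_equiv' (flipE _) fun A => hh₀ (A ∘ Fin.rev) * ind (P S A)]
      refine expect_congr rfl fun A _ => ?_
      congr 2
      funext k
      simp [flipE]
    linarith
  have := sum_lt_sum_of_nonempty univ_nonempty fun S (_ : S ∈ (univ : Finset (Finset K))) => hb S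
  rw [sum_const, card_univ, Fintype.card_finset, ZMod.card] at this
  norm_num at this
  linarith

theorem final_numeric {c₀ ε m₀ δ₁ κ₁ Ng E E₁ q X V : ℝ} {h C n : ℕ} (m₀pos : 0 < m₀)
    (hm₀ : m₀ = (c₀ / 2) ^ 2 / 2 ^ 28) (hc₀ : 0 < c₀) (hε : ε ≤ c₀ / 8) (hδ₁ : δ₁ = m₀ / 40)
    (hhm : 1056 / (m₀ / 4) ≤ 2 ^ h) (κ₁pos : 0 < κ₁) (Ngpos : 0 < Ng) (hq : 1 ≤ q)
    (hC : C = 16 * (2 * h + 1) + 5) (hV : V = q ^ (4 * n)) (hX : X ≤ q ^ (16 * (2 * h + 1) * n))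
    (E0 : 0 ≤ E) (hle : E ≤ 256 * E₁) (kbig : 256 * Ng * (κ₁ ^ 4) ^ 2 / (m₀ / 4) ≤ q ^ n)
    (hmain : (c₀ - 4 * ε) ^ 2 / 2 ^ 28 - 2 * (16 / 2 ^ h + δ₁) -
      4 * (256 / 2 ^ h + δ₁ + κ₁ ^ 4 * (2 * (δ₁ / (2 * κ₁ ^ 4)))) - Ng * (m₀ / (4 * Ng)) ≤
      V * (Ng * X * (κ₁ ^ 4) ^ 2 * E)) : 1 / q ^ (C * n) ≤ E₁ := by
  have l1 : m₀ ≤ (c₀ - 4 * ε) ^ 2 / 2 ^ 28 := by
    rw [hm₀]
    gcongr
    linarith
  have l2 : (1056 : ℝ) / 2 ^ h ≤ m₀ / 4 := by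
    rw [div_le_iff₀ (by positivity)] at hhm ⊢
    linarith
  have l3 : κ₁ ^ 4 * (2 * (δ₁ / (2 * κ₁ ^ 4))) = δ₁ := by field_simp
  have l4 : Ng * (m₀ / (4 * Ng)) = m₀ / 4 := by field_simp
  have l5 : (1056 : ℝ) / 2 ^ h = 2 * (16 / 2 ^ h) + 4 * (256 / 2 ^ h) := by ring
  rw [l3, l4, hV] at hmain
  have l6 : m₀ / 4 ≤ q ^ (4 * n) * (Ng * q ^ (16 * (2 * h + 1) * n) * (κ₁ ^ 4) ^ 2 * (256 * E₁)) := by
    refine le_trans (by linarith) (hmain.trans ?_)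
    gcongr
  have l7 : q ^ (C * n) = q ^ n * (q ^ (4 * n) * q ^ (16 * (2 * h + 1) * n)) := by
    rw [← pow_add, ← pow_add, hC]
    congr 1
    ring
  rw [div_le_iff₀ (by positivity), l7]
  have E₁0 : 0 ≤ E₁ := by linarith
  rw [div_le_iff₀ (by positivity)] at kbig
  set Q₁ := q ^ n
  set Q₂ := q ^ (4 * n) * q ^ (16 * (2 * h + 1) * n) with hQ₂
  have Q₂0 : 0 ≤ Q₂ := by positivity
  have l9 : m₀ / 4 ≤ (256 * Ng * (κ₁ ^ 4) ^ 2) * (Q₂ * E₁) := by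
    refine l6.trans (le_of_eq ?_)
    rw [hQ₂]; ring
  have l10 := l9.trans (mul_le_mul_of_nonneg_right kbig (mul_nonneg Q₂0 E₁0))
  have : m₀ / 4 * 1 ≤ m₀ / 4 * (E₁ * (Q₁ * Q₂)) := by linarith
  exact le_of_mul_le_mul_left this (by positivity)

theorem four_pow_ev (c : ℝ) : ∀ᶠ κ : ℕ in atTop, c ≤ 2 ^ κ :=
  (tendsto_pow_atTop_atTop_of_one_lt (by norm_num : (1 : ℝ) < 2)).eventually_ge_atTop c

instance {F : Type} [Field F] {e h : ℕ} : Nonempty (Side F e h) :=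
  ⟨⟨0, fun _ _ => 0, fun _ _ => 0, fun _ => 0⟩⟩

theorem ss_main : ∃ h C : ℕ, ∀ᶠ κ : ℕ in atTop,
    ∀ (F : Type) [Field F] [Fintype F] [Algebra K F], Fintype.card F = 4 ^ κ →
      SS (HH F (κ ^ 2) (4 * κ ^ 2) h) (((4 : ℝ) ^ κ) ^ ((C + 1) * (4 * κ ^ 2))) (2 ^ κ)
        (1 / ((4 : ℝ) ^ κ) ^ (C * (4 * κ ^ 2))) := by
  classical
  obtain ⟨c₀, hc₀, N, ε₀, hε₀, hlat⟩ := latent
  set m₀ : ℝ := (c₀ / 2) ^ 2 / 2 ^ 28 with hm₀
  have m₀pos : 0 < m₀ := by positivity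
  obtain ⟨h, hh4, hhm⟩ : ∃ h : ℕ, 4 ≤ h ∧ 1056 / (m₀ / 4) ≤ 2 ^ h :=
    ((eventually_ge_atTop 4).and (four_pow_ev _)).exists
  set C : ℕ := 16 * (2 * h + 1) + 5 with hC
  refine ⟨h, C, ?_⟩
  obtain ⟨R, hR⟩ := good_mass (C + 2)
  set r := 2 * R + 2 with hr
  set κ₁ := kap h r with hκ₁
  have κ₁pos : 0 < κ₁ := by simp only [hκ₁, kap]; positivity
  set Ng : ℝ := (Fintype.card (Gs h × Gs h) : ℝ) with hNg
  have Ngpos : 0 < Ng := by positivity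
  set δ₁ := m₀ / 40 with hδ₁
  have δ₁pos : 0 < δ₁ := by positivity
  set ε := min ε₀ (c₀ / 8) with hε
  have εpos : 0 < ε := lt_min hε₀ (by positivity)
  obtain ⟨C', hC'⟩ := trim_unif (C + 2) 2 (δ₁ / (2 * κ₁ ^ 4)) (by positivity)
  obtain ⟨γ₁, γ₁pos, hγ₁⟩ := lw_bound h r
  obtain ⟨γ₂, γ₂pos, hγ₂⟩ := unif_sel h r (C + 2) (max N 4) ε εpos
  obtain ⟨γ₃, γ₃pos, hγ₃⟩ := small_char h r (C + 2) δ₁ δ₁pos
  obtain ⟨γ₄, γ₄pos, hγ₄⟩ := small_gen h r δ₁ δ₁pos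
  set γ := min (min (min γ₁ γ₂) (min γ₃ γ₄)) (1 / 2) with hγ
  have γpos : 0 < γ := by positivity
  have g1 : γ ≤ γ₁ := (min_le_left _ _).trans ((min_le_left _ _).trans (min_le_left _ _))
  have g2 : γ ≤ γ₂ := (min_le_left _ _).trans ((min_le_left _ _).trans (min_le_right _ _))
  have g3 : γ ≤ γ₃ := (min_le_left _ _).trans ((min_le_right _ _).trans (min_le_left _ _))
  have g4 : γ ≤ γ₄ := (min_le_left _ _).trans ((min_le_right _ _).trans (min_le_right _ _))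
  have g5 : γ < 1 := (min_le_right _ _).trans_lt (by norm_num)
  filter_upwards [hC', hγ₂ γ γpos g2, hγ₃ γ γpos g3, hγ₄ γ γpos g4, hR h (r + 1) γ γpos,
    exists_side h R (by omega), cross_lower h (C + 2) C' (κ₁ ^ 4) (m₀ / (4 * Ng)) (by positivity)
      (by positivity), four_pow_ev 16, four_pow_ev (256 * Ng * (κ₁ ^ 4) ^ 2 / (m₀ / 4)),
    eventually_ge_atTop (r + 1)]
    with κ kT kU kS kG kGood kSide kCross k16 kbig kr F _ _ _ hq hh₀ hd₀ hadj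
  have hq1 : (1 : ℝ) ≤ 4 ^ κ := one_le_pow₀ (by norm_num)
  have h24 : (4 : ℝ) ^ κ = 2 ^ κ * 2 ^ κ := by rw [← mul_pow]; norm_num
  have h2q : (2 : ℝ) ^ κ ≤ 4 ^ κ := pow_le_pow_left₀ (by norm_num) (by norm_num) _
  have hκ1 : 1 ≤ κ ^ 2 := Nat.one_le_pow _ _ (by omega)
  have hqn : (2 : ℝ) ^ κ ≤ (4 ^ κ) ^ (4 * κ ^ 2) := h2q.trans (le_self_pow₀ hq1 (by omega))
  have hΛ : 16 * ((4 : ℝ) ^ κ) ^ ((C + 1) * (4 * κ ^ 2)) ≤ (4 ^ κ) ^ ((C + 2) * (4 * κ ^ 2)) := by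
    rw [show (C + 2) * (4 * κ ^ 2) = 4 * κ ^ 2 + (C + 1) * (4 * κ ^ 2) by ring, pow_add]
    exact mul_le_mul_of_nonneg_right (k16.trans hqn) (by positivity)
  have hM : 16 * (2 : ℝ) ^ κ ≤ 4 ^ κ := by
    rw [h24]; exact mul_le_mul_of_nonneg_right k16 (by positivity)
  have hpos : (0 : ℝ) ≤ ((4 : ℝ) ^ κ) ^ ((C + 1) * (4 * κ ^ 2)) := by positivity
  -- the class predicate
  let P : Finset K → (Fin 2 → Vtx F (κ ^ 2) (4 * κ ^ 2) h) → Prop := fun S B =>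
    S.Nonempty ∧ (∀ i, GoodV (r + 1) γ (B i)) ∧ ∃ sd, SideOK r sd ∧ Link sd B ∧ Cls S sd B
  -- the core estimate for a density supported on one class
  have core : ∀ (S : Finset K) (hh₁ : (Fin 2 → Vtx F (κ ^ 2) (4 * κ ^ 2) h) → ℝ),
      Dens hh₁ (((4 : ℝ) ^ κ) ^ ((C + 1) * (4 * κ ^ 2))) (2 ^ κ) →
      1 / 16 ≤ 𝔼 A, hh₁ A * ind (P S A) →
      1 / ((4 : ℝ) ^ κ) ^ (C * (4 * κ ^ 2)) ≤
        𝔼 A, 𝔼 B, hh₁ A * hh₁ B * ind (Conf (HH F (κ ^ 2) (4 * κ ^ 2) h) A B) := by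
    intro S hh₁ hd₁ hP
    obtain ⟨hh, hd', hsupp, hle⟩ := restrict_dens hd₁ (P S) hP (HH F (κ ^ 2) (4 * κ ^ 2) h)
    have hd := hd'.mono hΛ hM
    have hSne : S.Nonempty := by
      by_contra hS
      have : ∀ A, hh A = 0 := fun A => by_contra fun hA => hS (hsupp A hA).1
      have h1 := hd.total
      simp [this] at h1
    choose! sd hsd using fun A hA => (hsupp A hA).2.2
    have hgood : ∀ A, hh A ≠ 0 → SideOK r (sd A) ∧ ∀ i, GoodV r γ (A i) := fun A hA =>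
      ⟨(hsd A hA).1, fun i => ⟨((hsupp A hA).2.1 i).1,
        ((hsupp A hA).2.1 i).2.mono (Nat.le_succ r)⟩⟩
    have hre : 2 * r ≤ 3 * κ ^ 2 := by nlinarith
    have hlw := fun A hA i => hγ₁ γ γpos g1 F _ _ hre (sd A) A i (hgood A hA).1 ((hgood A hA).2 i)
    have hUn := kU F hq hh sd hd hgood
    have hmain := ss_core hh4 hh sd hd c₀ ε (16 / 2 ^ h + δ₁) (256 / 2 ^ h + δ₁)
      (δ₁ / (2 * κ₁ ^ 4)) (m₀ / (4 * Ng)) κ₁ ((4 ^ κ) ^ C')
      ((Fintype.card (XX F (4 * κ ^ 2)) : ℝ) ^ (8 * (2 * h + 1))) (by positivity)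
      (fun A hA i => ((hgood A hA).2 i).1) (fun A hA => (hsd A hA).2.1)
      (fun A hA i t => ((hlw A hA i).2.2.2 t).2) (hUn.mono (le_max_right _ _) le_rfl)
      (kS F hq hh sd hd hgood) (fun A hA => kG F hq (sd A) A (hsd A hA).1 (hsupp A hA).2.1)
      (kT _ F _ vp hh hq indep_vp hd).1
      (hlat _ F _ hh (fun A => lw (sd A) A) (fun A i => vp (A i)) (fun A => mark (sd A) A) S
        hd.nonneg hd.total
        (fun A i t => div_nonneg (ind_nonneg _) (expect_nonneg' fun _ => ind_nonneg _))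
        (fun A hA i => (hlw A hA i).2.2.1) hSne
        (fun A hA t ht => (hsd A hA).2.2.1 t (ind_ne_zero.mp (div_ne_zero_iff.mp ht).1))
        (fun A hA => (hsd A hA).2.2.2) (hUn.mono (le_max_left _ _) (min_le_left _ _)))
      (by linarith [min_le_right ε₀ (c₀ / 8)])
      (fun a ha => kCross F hq hh a hd ha) (by positivity)
    have hV : (Fintype.card (Fin (4 * κ ^ 2) → F) : ℝ) ^ 4 = (4 ^ κ) ^ (4 * (4 * κ ^ 2)) := by
      rw [Fintype.card_fun, hq, Fintype.card_fin]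
      push_cast
      rw [← pow_mul, mul_comm (4 * κ ^ 2) 4]
    have hXX : (Fintype.card (XX F (4 * κ ^ 2)) : ℝ) ^ (8 * (2 * h + 1)) ≤
        (4 ^ κ) ^ (16 * (2 * h + 1) * (4 * κ ^ 2)) := by
      have h1 : (Fintype.card (XX F (4 * κ ^ 2)) : ℝ) ≤ (4 ^ κ) ^ (2 * (4 * κ ^ 2)) := by
        have h2 : (Fintype.card (XX F (4 * κ ^ 2)) : ℝ) ≤ (4 ^ κ) ^ (4 * κ ^ 2 + 1) := by
          have := card_XX_le (F := F) (M := 4 * κ ^ 2)
          rw [hq] at this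
          exact_mod_cast this
        exact h2.trans (pow_le_pow_right₀ hq1 (by omega))
      refine (pow_le_pow_left₀ (by positivity) h1 _).trans (le_of_eq ?_)
      rw [← pow_mul]
      congr 1
      ring
    exact final_numeric m₀pos hm₀ hc₀ (min_le_right _ _) hδ₁ hhm κ₁pos Ngpos hq1 hC hV hXX
      (expect_nonneg' fun A => expect_nonneg' fun B =>
        mul_nonneg (mul_nonneg (hd.nonneg _) (hd.nonneg _)) (ind_nonneg _)) hle (kbig.trans hqn)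
      hmain
  refine class_pigeon _ hd₀ (GoodPair R (r + 1) γ) P
    (kGood F hq hh₀ (hd₀.mono (by linarith) h2q)) (fun A hA hg => ?_) core
  obtain ⟨S, hS, sd, hsd, B, hB, hB'⟩ := kSide F hq γ g5 A
    (fun i => ⟨⟨(hg i).1.1, (hg i).1.2.mono (Nat.le_succ r)⟩, (hg i).2⟩)
    (fun hx => hA (hadj A hx))
  rcases hB with rfl | rfl
  · exact ⟨S, Or.inl ⟨hS, fun i => (hg i).1, sd, hsd, hB'⟩⟩
  · exact ⟨S, Or.inr ⟨hS, fun i => (hg _).1, sd, hsd, hB'⟩⟩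

theorem main_quant (ε : ℝ) (hε : 0 < ε) (m₀ : ℕ) :
    ∃ m ≥ m₀, ∃ G : SimpleGraph (Fin m), G.indepNum ≤ 2 ∧
      ∀ t, HasCliqueMinor G t → (t : ℝ) ≤ (1 / 3 + ε) * m := by
  obtain ⟨h, C, hC⟩ := ss_main
  refine final_of_family C ?_ ε hε m₀
  filter_upwards [hC, eventually_ge_atTop 1] with κ hκ h1
  let _ : Fintype (GaloisField 2 (2 * κ)) := Fintype.ofFinite _
  have hq : Fintype.card (GaloisField 2 (2 * κ)) = 4 ^ κ := by
    rw [← Nat.card_eq_fintype_card, GaloisField.card 2 (2 * κ) (by omega), pow_mul]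
    norm_num
  exact ⟨_, inferInstance, HH (GaloisField 2 (2 * κ)) (κ ^ 2) (4 * κ ^ 2) h, inferInstance,
    HH_cliqueFree, hκ _ hq⟩

end Vale.Agent.P060
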