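import Vale.Agent.P060.Symp

/-!
# P060: from sign equations to witnesses, from the linear equations to conflicts
-/

namespace Vale.Agent.P060

open Finset Polynomial Filter
open scoped BigOperators

variable {F : Type} [Field F] [Fintype F] [Algebra K F] {e n h : ℕ}

omit [Fintype F] in
theorem Match.symm {A B : Fin 2 → Vtx F e n h} {t t' : Slot → F} (hM : Match A t B t') :
    Match B t' A t := by
  unfold Match at *
  rw [hM]
  rfl

omit [Fintype F] in
theorem Match.vp_eq {A B : Fin 2 → Vtx F e n h} {t t' : Slot → F} (hM : Match A t B t')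
    (i j : Fin 2) : pt (A i).c (t (i, j)) = pt (B j).c (t' (j, i)) :=
  (congrFun hM (j, i)).symm

omit [Fintype F] in
theorem wit_of {g : Gs h} {sd sd' : Side F e h} {A B : Fin 2 → Vtx F e n h} {t t' : Slot → F}
    (hM : Match A t B t') (hL : Link sd A) (hsel : ∀ s, Sel sd A s.1 (t s))
    (h1 : ∀ i j, (g (i, j)).1 e0 = e0 ∧
      (g (i, j)).1 ((gd sd A t).d (i, j)) + (g (i, j)).2 = (gd sd' B t').o (j, i) ∧
      (g (i, j)).1 ((gd sd A t).π i) + (g (i, j)).2 = (gd sd' B t').x (j.rev, i))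
    (h2 : ∀ j, (g (0, j)).1 ((gd sd A t).τ (0, j)) + (g (0, j)).2 =
        (g (1, j)).1 ((gd sd A t).τ (1, j)) + (g (1, j)).2 ∧
      (g (0, j)).1 ((gd sd A t).v 0) = (g (1, j)).1 ((gd sd A t).v 1)) :
    Wit g A t B := by
  constructor
  · intro i j j'
    simp only [defect, U_ev, trunc_ev, par_ev, one_smul]
    rw [add_eq_zero_K, hM.vp_eq]
    obtain ⟨-, ho, hx⟩ := h1 i j
    by_cases hj : j' = j
    · subst hj
      exact ho.symm
    · have hj' : j' = j.rev := by
        revert hj; fin_cases j <;> fin_cases j' <;> simp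
      subst hj'
      have e1 : row (A i) (ev (3 * e) (t (i, j.rev))) (t (i, j)) = (gd sd A t).π i := by
        fin_cases j
        · exact row_symm _ _ _
        · rfl
      rw [e1, hx]
      simp only [gd, xi, Fin.rev_rev, vp]
  · intro j y hy hU
    obtain ⟨a, b, hab⟩ := hL y hy hU
    obtain ⟨hτ, hv⟩ := h2 j
    simp only [gd] at hτ hv
    simp only [defect]
    rw [hab 0 _ (hsel (0, j)), hab 1 _ (hsel (1, j)), hU, par_eq_of_U hU]
    simp only [map_add, map_smul, (h1 _ j).1, hv]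
    congr 1
    have : par (y 1) • ((g (0, j)).1 (tau sd A 0 (t (0, j))) + (g (0, j)).2) =
        par (y 1) • ((g (1, j)).1 (tau sd A 1 (t (1, j))) + (g (1, j)).2) := by rw [hτ]
    rw [smul_add, smul_add] at this
    calc _ = (par (y 1) • (g (0, j)).1 (tau sd A 0 (t (0, j))) + par (y 1) • (g (0, j)).2) +
          (a • (g (1, j)).1 (sd.v 1) + b • e0) := by abel
      _ = _ := by rw [this]; abel

omit [Fintype F] in
theorem exists_wit (hh : 4 ≤ h) {sd sd' : Side F e h} {A B : Fin 2 → Vtx F e n h}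
    {t t' : Slot → F} (hM : Match A t B t') (hL : Link sd A) (hL' : Link sd' B)
    (hsel : ∀ s, Sel sd A s.1 (t s)) (hsel' : ∀ s, Sel sd' B s.1 (t' s))
    (gen : (gd sd A t).Gen) (gen' : (gd sd' B t').Gen)
    (hs : (gd sd A t).bits.SignEq (gd sd' B t').bits) :
    ∃ g : Gs h × Gs h, AdmG g.1 g.2 ∧ Wit g.1 A t B ∧ Wit g.2 B t' A := by
  obtain ⟨g, hg0, hg1, hg2⟩ := symp hh _ _ gen gen' (fun s => (hsel s).2) hs.2.1
  obtain ⟨g', hg0', hg1', hg2'⟩ := symp hh _ _ gen' gen (fun s => (hsel' s).2) hs.2.2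
  refine ⟨(g, g'), ⟨fun s => (gd sd A t).bits.shift (gd sd' B t').bits s.1 s.2, hg0, ?_⟩,
    wit_of hM hL hsel hg1 hg2, wit_of hM.symm hL' hsel' hg1' hg2'⟩
  intro i j a
  rw [hg0' j i a, add_assoc, ← hs.1 i j, ← add_assoc (Bits.shift _ _ i j), K_add_self, zero_add]

omit [Fintype F] in
theorem conf_of_cross {g g' : Gs h} (hg : AdmG g g') {A B : Fin 2 → Vtx F e n h}
    {t t' : Slot → F} (hM : Match A t B t') (hc : Cross g A t B) (hc' : Cross g' B t' A) :
    Conf (HH F e n h) A B := by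
  obtain ⟨s, hs, hs'⟩ := hg
  intro i j
  refine ⟨ev _ (t (i, j)), ev_mem _, ev _ (t' (j, i)), ev_mem _, par_ev _, ?_, s (i, j),
    fun z hz hp => ⟨?_, ?_⟩⟩
  · rw [U_ev, U_ev, hM.vp_eq]
  · have := hc i j z hz
    rw [defect, add_eq_zero_K, hp, one_smul] at this
    rw [this, hs, row, trunc_ev, (A i).2.2.2]
  · have := hc' j i z hz
    rw [defect, add_eq_zero_K, hp, one_smul] at this
    rw [this, hs', row, trunc_ev, (B j).2.2.2]

/-! ### restricting and flipping densities -/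

section Red
variable {Ω : Type} [Fintype Ω]

theorem Dens.mono {hh : (Fin 2 → Ω) → ℝ} {Λ M Λ' M' : ℝ} (hd : Dens hh Λ M) (h1 : Λ ≤ Λ')
    (h2 : M ≤ M') : Dens hh Λ' M' :=
  ⟨hd.nonneg, fun A => (hd.le A).trans h1, fun i x => (hd.marg i x).trans h2, hd.total⟩

def flipE (Ω : Type) : (Fin 2 → Ω) ≃ (Fin 2 → Ω) where
  toFun A := A ∘ Fin.rev
  invFun A := A ∘ Fin.rev
  left_inv A := by funext k; simp
  right_inv A := by funext k; simp

omit [Fintype Ω] in
theorem pr_flip (i : Fin 2) (x y : Ω) : pr i x y ∘ Fin.rev = pr i.rev x y := by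
  funext k
  fin_cases i <;> fin_cases k <;> simp [pr]

theorem Dens.flip {hh : (Fin 2 → Ω) → ℝ} {Λ M : ℝ} (hd : Dens hh Λ M) :
    Dens (fun A => hh (A ∘ Fin.rev)) Λ M :=
  ⟨fun _ => hd.nonneg _, fun _ => hd.le _, fun i x => by
    simpa only [pr_flip] using hd.marg i.rev x,
    (expect_equiv' (flipE Ω) hh).trans hd.total⟩

theorem conf_flip (H : SimpleGraph Ω) (hh : (Fin 2 → Ω) → ℝ) :
    𝔼 A, 𝔼 B, hh (A ∘ Fin.rev) * hh (B ∘ Fin.rev) * ind (Conf H A B) =
      𝔼 A, 𝔼 B, hh A * hh B * ind (Conf H A B) := by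
  rw [← expect_equiv' (flipE Ω) fun A => 𝔼 B, hh A * hh B * ind (Conf H A B)]
  refine expect_congr rfl fun A _ => ?_
  rw [← expect_equiv' (flipE Ω) fun B => hh (flipE Ω A) * hh B * ind (Conf H (flipE Ω A) B)]
  refine expect_congr rfl fun B _ => ?_
  congr 1
  refine ind_congr ⟨fun hc i j => hc _ _, fun hc i j => ?_⟩
  simpa [flipE] using hc i.rev j.rev

theorem restrict_dens {hh : (Fin 2 → Ω) → ℝ} {Λ M : ℝ} (hd : Dens hh Λ M)
    (P : (Fin 2 → Ω) → Prop) (hP : 1 / 16 ≤ 𝔼 A, hh A * ind (P A)) (H : SimpleGraph Ω) :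
    ∃ hh' : (Fin 2 → Ω) → ℝ, Dens hh' (16 * Λ) (16 * M) ∧ (∀ A, hh' A ≠ 0 → P A) ∧
      𝔼 A, 𝔼 B, hh' A * hh' B * ind (Conf H A B) ≤
        256 * 𝔼 A, 𝔼 B, hh A * hh B * ind (Conf H A B) := by
  set μ := 𝔼 A, hh A * ind (P A) with hμ
  have hμ0 : 0 < μ := by linarith
  have key : ∀ A, hh A * ind (P A) / μ ≤ 16 * hh A := fun A => by
    rw [div_le_iff₀ hμ0]
    have h1 := hd.nonneg A
    have h2 : hh A * ind (P A) ≤ hh A := mul_le_of_le_one_right h1 (ind_le_one _)
    nlinarith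
  have nn : ∀ A, 0 ≤ hh A * ind (P A) / μ := fun A =>
    div_nonneg (mul_nonneg (hd.nonneg A) (ind_nonneg _)) hμ0.le
  refine ⟨fun A => hh A * ind (P A) / μ, ⟨nn, fun A => (key A).trans ?_, fun i x => ?_, ?_⟩, ?_, ?_⟩
  · linarith [hd.le A]
  · refine (expect_mono fun y => key _).trans ?_
    rw [← mul_expect]
    linarith [hd.marg i x]
  · rw [← expect_div, ← hμ, div_self hμ0.ne']
  · intro A hA
    by_contra hn
    simp [ind_neg hn] at hA
  · rw [mul_expect]
    refine expect_mono fun A => ?_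
    rw [mul_expect]
    refine expect_mono fun B => ?_
    have := mul_le_mul (key A) (key B) (nn B) (by linarith [hd.nonneg A])
    nlinarith [ind_nonneg (Conf H A B)]

end Red

end Vale.Agent.P060
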