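import Vale.Agent.P060.Basic

namespace Vale.Agent.P060

open Finset Polynomial Filter
open scoped BigOperators

section SelCoreAux
variable {h : ℕ}

theorem exists_BB_one_sc {v : GG h} (hv : ∃ k, v (some k) ≠ 0) : ∃ a, BB a v = 1 := by
  by_contra hn
  obtain ⟨k, hk⟩ := hv
  refine hk (BB_radical.mp (fun b => ?_) k)
  rw [BB_comm]
  rcases K_cases (BB b v) with h0 | h1
  · exact h0
  · exact absurd ⟨b, h1⟩ hn

theorem exists_sel_sc {v : GG h} (hv : ∃ k, v (some k) ≠ 0) : ∃ a, chi (a + v) = chi a := by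
  obtain ⟨a, ha⟩ := exists_BB_one_sc hv
  refine ⟨chi v • a, ?_⟩
  rw [chi_add, BB_smul_left, ha, mul_one, add_assoc, K_add_self, add_zero]

theorem nonrad_add_e0_sc {v : GG h} (hv : ∃ k, v (some k) ≠ 0) :
    ∃ k, (v + e0 : GG h) (some k) ≠ 0 := by
  obtain ⟨k, hk⟩ := hv
  exact ⟨k, by simpa [e0] using hk⟩

/-- a linear map preserving `BB` is onto modulo the radical -/
theorem perp_range_sc (L : GG h →ₗ[K] GG h) (hL : ∀ a b, BB (L a) (L b) = BB a b) {n : GG h}
    (hn : ∀ a, BB (L a) n = 0) : ∀ k, n (some k) = 0 := by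
  let ι : ((Fin h × Bool) → K) →ₗ[K] GG h :=
    { toFun := fun a o => o.elim 0 a
      map_add' := fun a b => by funext o; cases o <;> simp
      map_smul' := fun c a => by funext o; cases o <;> simp }
  let π : GG h →ₗ[K] ((Fin h × Bool) → K) := LinearMap.funLeft K K some
  have hinj : Function.Injective (π ∘ₗ L ∘ₗ ι) := by
    rw [← LinearMap.ker_eq_bot, LinearMap.ker_eq_bot']
    intro a ha
    have h1 : ∀ k, L (ι a) (some k) = 0 := fun k => congrFun ha k
    have h2 : ∀ b, BB (ι a) b = 0 := fun b => by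
      rw [← hL, BB_radical.mpr h1]
    funext k
    exact BB_radical.mp h2 k
  have hsurj := LinearMap.injective_iff_surjective.mp hinj
  refine BB_radical.mp fun b => ?_
  obtain ⟨a, ha⟩ := hsurj (π b)
  have h1 : ∀ k, (b + L (ι a)) (some k) = 0 := fun k => by
    have : L (ι a) (some k) = b (some k) := congrFun ha k
    rw [Pi.add_apply, this, K_add_self]
  have h2 := BB_radical.mpr h1 n
  rw [BB_add_left, hn, add_zero] at h2
  rw [BB_comm, h2]

theorem exists_triple_sc (hh : 1 ≤ h) : ∃ v v' : GG h, (∃ k, v (some k) ≠ 0) ∧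
    (∃ k, v' (some k) ≠ 0) ∧ ∃ k, (v + v') (some k) ≠ 0 := by
  refine ⟨Pi.single (some (⟨0, hh⟩, false)) 1, Pi.single (some (⟨0, hh⟩, true)) 1,
    ⟨(⟨0, hh⟩, false), by simp⟩, ⟨(⟨0, hh⟩, true), by simp⟩, ⟨(⟨0, hh⟩, false), by simp⟩⟩

/-- the map attached to one coordinate of `θ` is a scalar multiple of `L` -/
theorem scalar_sc (hh : 1 ≤ h) (L M : GG h →ₗ[K] GG h) (c : GG h) (s sF sT : K)
    (hL : ∀ a b, BB (L a) (L b) = BB a b) (hLe : L e0 = e0)
    (hc : ∀ a, chi (L a + c) = chi a + s)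
    (hF : ∀ a, chi (L a + c + M e0) + chi a = sF)
    (hT : ∀ v, (∃ k, v (some k) ≠ 0) → ∀ a, chi (a + v) = chi a →
      chi (L a + c + M v) + chi a = sT) (v : GG h) : M v = (s + sF) • L v := by
  have hexp : ∀ a n, chi (L a + c + n) + chi a = s + chi n + BB c n + BB (L a) n := by
    intro a n
    rw [chi_add, hc, BB_add_left]
    linear_combination (exp := 1) chi a * (K_add_self 1)
  have hMe : ∀ k, M e0 (some k) = 0 := by
    refine perp_range_sc L hL fun a => ?_
    have h1 := hF a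
    have h2 := hF 0
    rw [hexp] at h1 h2
    rw [map_zero, BB_zero_left, add_zero] at h2
    rw [h2] at h1
    exact add_eq_left.mp h1
  have hMe' : M e0 = (s + sF) • e0 := by
    have h2 := hF 0
    rw [eq_smul_e0 hMe, chi_add_smul_e0, hc] at h2
    rw [eq_smul_e0 hMe]
    congr 1
    linear_combination (exp := 1) h2 - (chi (0 : GG h) + s) * (K_add_self 1)
  have hperp : ∀ v a, BB a v = 0 → BB (L a) (M v) = 0 := by
    intro v a hav
    by_cases hv : ∃ k, v (some k) ≠ 0
    · obtain ⟨a₀, ha₀⟩ := exists_sel_sc hv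
      have h1 := hT v hv a₀ ha₀
      have h2 := hT v hv (a₀ + a) (by
        rw [chi_add] at ha₀ ⊢
        rw [BB_add_left, hav, add_zero, add_assoc, add_eq_left]
        rwa [add_assoc, add_eq_left] at ha₀)
      rw [hexp] at h1 h2
      rw [map_add, BB_add_left, ← add_assoc, h1] at h2
      exact add_eq_left.mp h2
    · push Not at hv
      rw [eq_smul_e0 hv, map_smul, hMe', smul_smul, BB_smul_right, BB_e0_right, mul_zero]
  obtain ⟨v₀, v₁, hv₀, hv₁, hv₂⟩ := exists_triple_sc hh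
  obtain ⟨a₀, ha₀⟩ := exists_BB_one_sc hv₀
  set lam := BB (L a₀) (M v₀) with hlam
  have hone : ∀ v a a', BB a v = 1 → BB a' v = 1 → BB (L a) (M v) = BB (L a') (M v) := by
    intro v a a' ha ha'
    have := hperp v (a + a') (by rw [BB_add_left, ha, ha', K_add_self])
    rw [map_add, BB_add_left] at this
    exact add_eq_zero_K.mp this
  have hall : ∀ v a, BB (L a) (M v) = lam * BB a v := by
    intro v a
    rcases K_cases (BB a v) with h0 | h1
    · rw [hperp v a h0, h0, mul_zero]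
    · rw [h1, mul_one]
      obtain ⟨b, hb1, hb2⟩ : ∃ b, BB b v = 1 ∧ BB b v₀ = 1 := by
        rcases K_cases (BB a v₀) with h2 | h2
        · rcases K_cases (BB a₀ v) with h3 | h3
          · exact ⟨a + a₀, by rw [BB_add_left, h1, h3, add_zero],
              by rw [BB_add_left, h2, ha₀, zero_add]⟩
          · exact ⟨a₀, h3, ha₀⟩
        · exact ⟨a, h1, h2⟩
      have h4 := hperp (v + v₀) b (by rw [BB_add_right, hb1, hb2, K_add_self])
      rw [map_add, BB_add_right] at h4
      rw [hone v a b h1 hb1, add_eq_zero_K.mp h4, hone v₀ b a₀ hb2 ha₀]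
  have hrad : ∀ v k, (M v + lam • L v) (some k) = 0 := fun v =>
    perp_range_sc L hL fun a => by rw [BB_add_right, BB_smul_right, hall, hL, K_add_self]
  have hdec : ∀ v, M v = lam • L v + (M v + lam • L v) none • e0 := fun v => by
    rw [← eq_smul_e0 (hrad v), add_comm (M v), ← add_assoc, add_self_K, zero_add]
  have hnu : ∀ v, (∃ k, v (some k) ≠ 0) → (M v + lam • L v) none = s + sT := by
    intro v hv
    obtain ⟨a, ha⟩ := exists_sel_sc hv
    have h1 := hT v hv a ha
    have h2 : L a + c + M v = L (a + lam • v) + c + (M v + lam • L v) none • e0 := by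
      conv_lhs => rw [hdec v]
      rw [map_add, map_smul]
      abel
    have h3 : chi (a + lam • v) = chi a := by
      rcases K_cases lam with h0 | h0 <;> rw [h0]
      · simp
      · simpa using ha
    rw [h2, chi_add_smul_e0, hc, h3] at h1
    linear_combination (exp := 1) h1 - (chi a + s) * (K_add_self 1)
  have hadd : ∀ v v', (M (v + v') + lam • L (v + v')) none =
      (M v + lam • L v) none + (M v' + lam • L v') none := by
    intro v v'
    simp only [map_add, smul_add, Pi.add_apply]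
    ring
  have hz : s + sT = 0 := by
    have := hadd v₀ v₁
    rw [hnu _ hv₀, hnu _ hv₁, hnu _ hv₂, K_add_self] at this
    exact this
  have he : (M e0 + lam • L e0) none = 0 := by
    have := hadd v₀ e0
    rw [hnu _ hv₀, hnu _ (nonrad_add_e0_sc hv₀), hz, zero_add] at this
    exact this.symm
  have hlam' : lam = s + sF := by
    rw [hMe', hLe] at he
    simp only [e0, Pi.add_apply, Pi.smul_apply, Pi.single_eq_same, smul_eq_mul, mul_one] at he
    exact (add_eq_zero_K.mp he).symm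
  have hzero : (M v + lam • L v) none = 0 := by
    by_cases hv : ∃ k, v (some k) ≠ 0
    · rw [hnu v hv, hz]
    · push Not at hv
      rw [eq_smul_e0 hv, map_smul, map_smul, smul_comm, ← smul_add, Pi.smul_apply, he, smul_zero]
  rw [hdec v, hzero, zero_smul, add_zero, hlam']

theorem side_sc {m : ℕ} (hh : 1 ≤ h) {Z : Type} [AddCommGroup Z] [Module K Z] (l : Z →ₗ[K] K)
    (ξ τ : Z →ₗ[K] GG h) (θ : Z →ₗ[K] (Fin m → GG h))
    (hsurj : ∀ a b, ∃ z, l z = 1 ∧ τ z = a ∧ θ z = b) (sF sT : (Fin m → K) → K)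
    (hF : ∀ φ z, l z = 1 → (∀ j, θ z j = φ j • e0) → chi (ξ z) + chi (τ z) = sF φ)
    (hT : ∀ φ v, (∃ k, v (some k) ≠ 0) → ∀ z, l z = 1 → (∀ j, θ z j = φ j • v) →
      chi (τ z + v) = chi (τ z) → chi (ξ z) + chi (τ z) = sT φ) (z : Z) (hz : l z = 1) :
    chi (ξ z) = chi (τ z + ∑ j, (sF 0 + sF (Pi.single j 1)) • θ z j) + sF 0 := by
  classical
  let Ψ : Z →ₗ[K] K × GG h × (Fin m → GG h) := l.prod (τ.prod θ)
  have hΨ : Function.Surjective Ψ := by
    rintro ⟨k, a, b⟩
    obtain ⟨z₁, h1, h2, h3⟩ := hsurj a b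
    obtain ⟨z₀, h4, h5, h6⟩ := hsurj 0 0
    refine ⟨z₁ + (k + 1) • z₀, ?_⟩
    change (l (z₁ + (k + 1) • z₀), τ (z₁ + (k + 1) • z₀), θ (z₁ + (k + 1) • z₀)) = (k, a, b)
    simp only [map_add, map_smul, h1, h2, h3, h4, h5, h6, smul_zero, add_zero, smul_eq_mul,
      mul_one]
    congr 1
    linear_combination (exp := 1) K_add_self 1
  obtain ⟨σ, hσ⟩ := Ψ.exists_rightInverse_of_surjective (LinearMap.range_eq_top.mpr hΨ)
  have hσ' : ∀ p, l (σ p) = p.1 ∧ τ (σ p) = p.2.1 ∧ θ (σ p) = p.2.2 := fun p => by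
    have : Ψ (σ p) = p := LinearMap.congr_fun hσ p
    exact ⟨congrArg Prod.fst this, congrArg (fun q => q.2.1) this, congrArg (fun q => q.2.2) this⟩
  have h0 : ∀ z, l z = 1 → θ z = 0 → chi (ξ z) + chi (τ z) = sF 0 := fun z h1 h2 =>
    hF 0 z h1 fun j => by simp [h2]
  set z₀ := σ (1, 0, 0) with hz₀
  have hz1 : l z₀ = 1 := (hσ' _).1
  have hz2 : τ z₀ = 0 := (hσ' _).2.1
  have hz3 : θ z₀ = 0 := (hσ' _).2.2
  have hpol : ∀ d d', l d = 0 → θ d = 0 → l d' = 0 → θ d' = 0 →
      BB (ξ d) (ξ d') = BB (τ d) (τ d') := by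
    intro d d' h1 h2 h3 h4
    have e1 := h0 z₀ hz1 hz3
    have e2 := h0 (z₀ + d) (by simp [hz1, h1]) (by simp [hz3, h2])
    have e3 := h0 (z₀ + d') (by simp [hz1, h3]) (by simp [hz3, h4])
    have e4 := h0 (z₀ + d + d') (by simp [hz1, h1, h3]) (by simp [hz3, h2, h4])
    simp only [map_add, hz2, zero_add, chi_add, BB_add_left, chi_zero] at e1 e2 e3 e4
    linear_combination (exp := 1) e1 + e2 + e3 + e4 +
      (sF 0 + sF 0 - chi (ξ z₀) - chi (ξ z₀) - chi (ξ d) - chi (ξ d') - chi (τ d) - chi (τ d') -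
        BB (ξ z₀) (ξ d) - BB (ξ z₀) (ξ d') - BB (τ d) (τ d')) * (K_add_self 1)
  let L : GG h →ₗ[K] GG h := ξ ∘ₗ σ ∘ₗ (LinearMap.inr K K _) ∘ₗ (LinearMap.inl K _ _)
  have hLa : ∀ a, L a = ξ (σ (0, a, 0)) := fun a => rfl
  have hL : ∀ a b, BB (L a) (L b) = BB a b := fun a b => by
    rw [hLa, hLa, hpol _ _ (hσ' _).1 (hσ' _).2.2 (hσ' _).1 (hσ' _).2.2, (hσ' _).2.1, (hσ' _).2.1]
  have hker : ∀ d (k : K), l d = 0 → θ d = 0 → τ d = k • e0 → ξ d = k • e0 := by
    intro d k h1 h2 h3
    have hr : ∀ k, ξ d (some k) = 0 := perp_range_sc L hL fun a => by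
      rw [hLa, hpol _ _ (hσ' _).1 (hσ' _).2.2 h1 h2, h3, BB_smul_right, BB_e0_right, mul_zero]
    have e1 := h0 z₀ hz1 hz3
    have e2 := h0 (z₀ + d) (by simp [hz1, h1]) (by simp [hz3, h2])
    rw [map_add, map_add, eq_smul_e0 hr, h3, chi_add_smul_e0, chi_add_smul_e0] at e2
    rw [eq_smul_e0 hr]
    congr 1
    linear_combination (exp := 1) e1 + e2 + (sF 0 - chi (ξ z₀) - chi (τ z₀) - k) * (K_add_self 1)
  have hLe : L e0 = e0 := by
    have := hker (σ (0, e0, 0)) 1 (hσ' _).1 (hσ' _).2.2 (by rw [(hσ' _).2.1, one_smul])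
    rwa [one_smul] at this
  have hfac : ∀ z, ξ z = ξ (σ (l z, τ z, θ z)) := by
    intro z
    have := hker (z + σ (l z, τ z, θ z)) 0 (by rw [map_add, (hσ' _).1, K_add_self])
      (by rw [map_add, (hσ' _).2.2, add_self_K])
      (by rw [map_add, (hσ' _).2.1, add_self_K, zero_smul])
    rw [map_add, zero_smul] at this
    exact add_eq_zero_K.mp this
  let μ : (Fin m → GG h) →ₗ[K] GG h := ξ ∘ₗ σ ∘ₗ (LinearMap.inr K K _) ∘ₗ (LinearMap.inr K _ _)
  have hdec : ∀ a b, ξ (σ (1, a, b)) = L a + ξ z₀ + μ b := by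
    intro a b
    have : ((1 : K), a, b) = (0, a, 0) + (1, 0, 0) + (0, 0, b) := by simp
    rw [this, map_add, map_add, map_add, map_add]
    rfl
  have hc : ∀ a, chi (L a + ξ z₀) = chi a + sF 0 := by
    intro a
    have := h0 (σ (1, a, 0)) (hσ' _).1 (hσ' _).2.2
    rw [hdec, map_zero, add_zero, (hσ' _).2.1] at this
    linear_combination (exp := 1) this - chi a * (K_add_self 1)
  have hsing : ∀ (j : Fin m) (v : GG h) (j' : Fin m),
      (Pi.single j v : Fin m → GG h) j' = (Pi.single j 1 : Fin m → K) j' • v := by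
    intro j v j'
    by_cases hj : j' = j
    · subst hj; simp
    · simp [hj]
  have hM : ∀ j v, μ (Pi.single j v) = (sF 0 + sF (Pi.single j 1)) • L v := by
    intro j v
    refine scalar_sc hh L (μ ∘ₗ LinearMap.single K (fun _ => GG h) j) (ξ z₀) (sF 0)
      (sF (Pi.single j 1)) (sT (Pi.single j 1)) hL hLe hc (fun a => ?_) (fun w hw a ha => ?_) v
    · have := hF (Pi.single j 1) (σ (1, a, Pi.single j e0)) (hσ' _).1
        (fun j' => by rw [(hσ' _).2.2]; exact hsing j e0 j')
      rwa [hdec, (hσ' _).2.1] at this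
    · have := hT (Pi.single j 1) w hw (σ (1, a, Pi.single j w)) (hσ' _).1
        (fun j' => by rw [(hσ' _).2.2]; exact hsing j w j') (by rw [(hσ' _).2.1]; exact ha)
      rwa [hdec, (hσ' _).2.1] at this
  have hμ : μ (θ z) = L (∑ j, (sF 0 + sF (Pi.single j 1)) • θ z j) := by
    conv_lhs => rw [← Finset.univ_sum_single (θ z)]
    rw [map_sum, map_sum]
    exact sum_congr rfl fun j _ => by rw [hM, map_smul]
  rw [hfac, hz, hdec, hμ, add_right_comm, ← map_add, hc]

end SelCoreAux

/-- J9, linear algebra core: if every rank-one selection has opposite constant values of `eta`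
on the two sides, then the adjacency equations hold for a shifted odd vector. -/
theorem selCore {h m : ℕ} (hh : 1 ≤ h) (Z : Fin 2 → Type) [∀ i, AddCommGroup (Z i)]
    [∀ i, Module K (Z i)] (l : ∀ i, Z i →ₗ[K] K) (ξ τ : ∀ i, Z i →ₗ[K] GG h)
    (θ : ∀ i, Z i →ₗ[K] (Fin m → GG h))
    (hsurj : ∀ i a b, ∃ z, l i z = 1 ∧ τ i z = a ∧ θ i z = b)
    (hbad : ∀ (φ : Fin m → K) (ty : Bool) (v : Fin 2 → GG h), (∀ i, ∃ k, v i (some k) ≠ 0) →
      ∃ s : Fin 2 → K, s 0 + s 1 = 1 ∧ ∀ i z, l i z = 1 →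
        (∀ j, θ i z j = φ j • (if ty then v i else e0)) → chi (τ i z + v i) = chi (τ i z) →
          chi (ξ i z) + chi (τ i z) = s i) :
    ∃ (a : Fin m → K) (s : Fin 2 → K), s 0 + s 1 = 1 ∧ ∀ i z, l i z = 1 →
      chi (ξ i z) = chi (τ i z + ∑ j, a j • θ i z j) + s i := by
  classical
  obtain ⟨v₀, -, hv₀, -, -⟩ := exists_triple_sc hh
  choose s hs1 hs2 using fun φ ty => hbad φ ty (fun _ => v₀) fun _ => hv₀
  have key : ∀ φ ty i v, (∃ k, v (some k) ≠ 0) → ∀ z, l i z = 1 →
      (∀ j, θ i z j = φ j • (if ty = true then v else e0)) → chi (τ i z + v) = chi (τ i z) →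
        chi (ξ i z) + chi (τ i z) = s φ ty i := by
    intro φ ty i v hv z h1 h2 h3
    have hi : i.rev ≠ i := by fin_cases i <;> decide
    obtain ⟨s', hs1', hs2'⟩ := hbad φ ty (Function.update (fun _ => v₀) i v) fun i' => by
      by_cases h : i' = i
      · subst h; simpa using hv
      · simpa [h] using hv₀
    obtain ⟨a, ha⟩ := exists_sel_sc hv₀
    obtain ⟨z', g1, g2, g3⟩ := hsurj i.rev a fun j => φ j • (if ty = true then v₀ else e0)
    have e1 := hs2 φ ty i.rev z' g1 (fun j => by rw [g3]) (by rw [g2]; exact ha)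
    have e2 := hs2' i.rev z' g1 (fun j => by rw [g3, Function.update_of_ne hi])
      (by rw [g2, Function.update_of_ne hi]; exact ha)
    have e3 := hs2' i z h1 (fun j => by rw [h2, Function.update_self])
      (by rw [Function.update_self]; exact h3)
    rw [e3]
    have e4 := hs1 φ ty
    rw [e1] at e2
    fin_cases i
    · have e5 : s φ ty 1 = s' 1 := e2
      change s' 0 = s φ ty 0
      linear_combination (exp := 1) hs1' - e4 + e5
    · have e5 : s φ ty 0 = s' 0 := e2
      change s' 1 = s φ ty 1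
      linear_combination (exp := 1) hs1' - e4 + e5
  refine ⟨fun j => s 0 false 0 + s (Pi.single j 1) false 0, s 0 false, hs1 _ _, fun i z hz => ?_⟩
  have := side_sc hh (l i) (ξ i) (τ i) (θ i) (hsurj i) (fun φ => s φ false i)
    (fun φ => s φ true i) (fun φ z h1 h2 => ?_)
    (fun φ v hv z h1 h2 h3 => key φ true i v hv z h1 (by simpa using h2) h3) z hz
  · rw [this]
    refine congrArg (fun w => chi (τ i z + w) + s 0 false i) (sum_congr rfl fun j _ => ?_)
    congr 1
    fin_cases i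
    · rfl
    · have e1 := hs1 0 false
      have e2 := hs1 (Pi.single j 1) false
      change s 0 false 1 + s (Pi.single j 1) false 1 = s 0 false 0 + s (Pi.single j 1) false 0
      linear_combination (exp := 1) e1 + e2 +
        (1 - s 0 false 0 - s (Pi.single j 1) false 0) * (K_add_self 1)
  · by_cases h3 : chi (τ i z + v₀) = chi (τ i z)
    · exact key φ false i v₀ hv₀ z h1 (by simpa using h2) h3
    · refine key φ false i (v₀ + e0) (nonrad_add_e0_sc hv₀) z h1 (by simpa using h2) ?_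
      rw [← add_assoc, chi_add_e0]
      revert h3
      generalize chi (τ i z + v₀) = x1
      generalize chi (τ i z) = x2
      revert x1 x2
      decide

end Vale.Agent.P060
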