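import Vale.Agent.P060.Good

set_option linter.unusedSectionVars false

namespace Vale.Agent.P060

open Finset Polynomial Filter
open scoped BigOperators

section aux
variable {F : Type} [Field F] [Fintype F] [Algebra K F] {e n h : ℕ}

theorem expect_option_su {ι α : Type} [Fintype ι] [DecidableEq ι] [Fintype α]
    (f : (Option ι → α) → ℝ) : 𝔼 R, f R = 𝔼 a : α, 𝔼 R : ι → α, f fun o => o.elim a R := by
  rw [← expect_equiv' (Equiv.piOptionEquivProd (β := fun _ => α)).symm f, expect_prod]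
  refine expect_congr rfl fun a _ => expect_congr rfl fun R _ => ?_
  congr 1
  funext o
  cases o <;> rfl

/-- the selection predicate as a function of the rows -/
noncomputable def sigU (sd : Side F e h) (i : Fin 2) (R : Option (Fin sd.m) → GG h) : ℝ :=
  ind ((∀ l, R (some l) = sd.ρ i l) ∧ chi (R none + sd.v i) = chi (R none))

theorem sel_eq_sigU (sd : Side F e h) (A : Fin 2 → Vtx F e n h) (i : Fin 2) (t : F) :
    ind (Sel sd A i t) = sigU sd i (own (A i) (sd.r i) t).2.2 := rfl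

theorem abs_sigU_le (sd : Side F e h) (i : Fin 2) (R : Option (Fin sd.m) → GG h) :
    |sigU sd i R| ≤ 1 := abs_ind_le _

theorem ind_chi_su (a v : GG h) :
    ind (chi (a + v) = chi a) = (1 + sgn (BB a v + chi v)) / 2 := by
  rw [← ind_eq_sgn, chi_add]
  refine ind_congr ?_
  generalize chi a = x
  generalize chi v = y
  generalize BB a v = z
  revert x y z
  decide

theorem expect_sgn_BB_su {v : GG h} (hv : ∃ k, v (some k) ≠ 0) : 𝔼 a, sgn (BB a v) = 0 := by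
  rw [expect_sgn_of_add (fun a => BB a v) fun a b => BB_add_left a b v]
  refine ind_neg fun h0 => ?_
  obtain ⟨k, hk⟩ := hv
  exact hk (BB_radical.mp (fun b => by rw [BB_comm]; exact h0 b) k)

theorem card_GG_real : (Fintype.card (GG h) : ℝ) = 2 ^ (2 * h + 1) := by
  rw [card_GG]; push_cast; rfl

theorem expect_sigU_mul (sd : Side F e h) (i : Fin 2) (f : GG h → ℝ)
    (g : (Fin sd.m → GG h) → ℝ) :
    𝔼 R, sigU sd i R * (f (R none) * g fun l => R (some l)) =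
      (𝔼 a, ind (chi (a + sd.v i) = chi a) * f a) * (g (sd.ρ i) / 2 ^ ((2 * h + 1) * sd.m)) := by
  rw [expect_option_su, expect_mul]
  refine expect_congr rfl fun a _ => ?_
  have h1 : ∀ R : Fin sd.m → GG h, sigU sd i (fun o => o.elim a R) * (f a * g R) =
      ind (chi (a + sd.v i) = chi a) * f a * (g (sd.ρ i) * ind (R = sd.ρ i)) := by
    intro R
    simp only [sigU, Option.elim, ind_and, ← funext_iff]
    by_cases hR : R = sd.ρ i
    · subst hR; ring
    · rw [ind_neg hR]; ring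
  simp only [Option.elim] at h1 ⊢
  simp only [h1]
  rw [← mul_expect, ← mul_expect, expect_ind_eq, Fintype.card_fun, Nat.cast_pow, card_GG_real,
    Fintype.card_fin, ← pow_mul]
  ring

theorem expect_sigU (sd : Side F e h) (i : Fin 2) (hv : ∃ k, sd.v i (some k) ≠ 0) :
    𝔼 R, sigU sd i R = 1 / (2 * 2 ^ ((2 * h + 1) * sd.m)) := by
  have h1 := expect_sigU_mul sd i (fun _ => 1) (fun _ => 1)
  simp only [mul_one] at h1
  rw [h1]
  simp only [ind_chi_su, sgn_add]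
  rw [← expect_div, expect_add_distrib, ← expect_mul, expect_sgn_BB_su hv]
  simp only [Fintype.expect_const]
  field_simp
  ring

theorem expect_OW {ι : Type} [Fintype ι] [DecidableEq ι] (f : OW ι h → ℝ) :
    𝔼 w, f w = 𝔼 o, 𝔼 d, 𝔼 R, f (o, d, R) := by
  rw [expect_prod]
  exact expect_congr rfl fun o _ => expect_prod _

theorem card_OW_real {ι : Type} [Fintype ι] [DecidableEq ι] :
    (Fintype.card (OW ι h) : ℝ) = 2 ^ ((2 * h + 1) * (Fintype.card ι + 2)) := by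
  rw [card_OW]; push_cast; rfl

theorem side_m_le {r : ℕ} (hr : 2 * r ≤ 3 * e) {sd : Side F e h} (hs : SideOK r sd) :
    sd.m + 1 ≤ r := by
  obtain ⟨hli, ⟨ω, hω, hωr, hl⟩, -⟩ := hs 0
  have := card_le_of_low hω (by omega) _ hli hl
  simp only [Fintype.card_option, Fintype.card_fin] at this
  omega

/-- a bound for the sizes of all spaces of own data that occur -/
noncomputable def cow (h r : ℕ) : ℝ := 2 ^ ((2 * h + 1) * (r + 6))

theorem cow_pos (h r : ℕ) : 0 < cow h r := by unfold cow; positivity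

theorem card_OW_le {ι : Type} [Fintype ι] [DecidableEq ι] {r : ℕ} (hι : Fintype.card ι ≤ r + 4) :
    (Fintype.card (OW ι h) : ℝ) ≤ cow h r := by
  rw [card_OW_real, cow]
  exact pow_le_pow_right₀ (by norm_num) (Nat.mul_le_mul_left _ (by omega))

theorem one_le_kap (h r : ℕ) : 1 ≤ kap h r := by
  unfold kap
  have : (1 : ℝ) ≤ 2 ^ ((2 * h + 1) * (r + 3)) := one_le_pow₀ (by norm_num)
  linarith

theorem kap_pos (h r : ℕ) : 0 < kap h r := lt_of_lt_of_le one_pos (one_le_kap h r)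

/-- the own part decouples -/
theorem sel_decouple {r : ℕ} {γ : ℝ} (hγ : 0 ≤ γ) (hr : 2 * r ≤ 3 * e) {sd : Side F e h}
    (hs : SideOK r sd) (A : Fin 2 → Vtx F e n h) (i : Fin 2) {G : F → ℝ}
    (hx : NotBad r γ (A i) G) (Φ : OW (Option (Fin sd.m)) h → ℝ) (hΦ : ∀ w, |Φ w| ≤ 1) :
    |(𝔼 t, ind (Sel sd A i t) * Φ (own (A i) (sd.r i) t) * G t) -
      (𝔼 w, sigU sd i w.2.2 * Φ w) * 𝔼 t, G t| ≤ γ * cow h r := by
  have hm := side_m_le hr hs
  obtain ⟨hli, ⟨ω, hω, hωr, hl⟩, -⟩ := hs i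
  have h1 := qstar₁ hγ hx hω hωr hli hl (fun w => sigU sd i w.2.2 * Φ w) (B := 1) fun w => by
    rw [abs_mul]
    exact mul_le_one₀ (abs_sigU_le _ _ _) (abs_nonneg _) (hΦ w)
  refine h1.trans ?_
  rw [mul_one]
  refine mul_le_mul_of_nonneg_left (card_OW_le ?_) hγ
  simp only [Fintype.card_option, Fintype.card_fin]
  omega

theorem four_pow_le_kap {r m : ℕ} (hm : m + 1 ≤ r) : 4 * (2 : ℝ) ^ ((2 * h + 1) * m) ≤ kap h r := by
  unfold kap
  have : (2 : ℝ) ^ ((2 * h + 1) * m + 1) ≤ 2 ^ ((2 * h + 1) * (r + 3)) :=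
    pow_le_pow_right₀ (by norm_num) (by nlinarith)
  rw [pow_succ] at this
  linarith

structure LwOK (r : ℕ) (γ : ℝ) (sd : Side F e h) (A : Fin 2 → Vtx F e n h) (i : Fin 2) : Prop where
  m_le : sd.m + 1 ≤ r
  lower : 1 / (4 * (2 : ℝ) ^ ((2 * h + 1) * sd.m)) ≤ 𝔼 t, ind (Sel sd A i t)
  near : |(𝔼 t, ind (Sel sd A i t)) - 1 / (2 * 2 ^ ((2 * h + 1) * sd.m))| ≤ γ * cow h r

theorem lwOK_of {r : ℕ} {γ : ℝ} (hγ : 0 ≤ γ) (hγ' : γ * (cow h r * kap h r) ≤ 1)
    (hr : 2 * r ≤ 3 * e) {sd : Side F e h}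
    (hs : SideOK r sd) (A : Fin 2 → Vtx F e n h) (i : Fin 2) (hx : GoodV r γ (A i)) :
    LwOK r γ sd A i := by
  have hm := side_m_le hr hs
  have h1 := sel_decouple hγ hr hs A i hx.2 (fun _ => 1) (by simp)
  simp only [mul_one, Fintype.expect_const] at h1
  rw [expect_OW] at h1
  simp only [Fintype.expect_const] at h1
  rw [expect_sigU sd i (hs i).2.2] at h1
  refine ⟨hm, ?_, h1⟩
  have h2 := four_pow_le_kap (h := h) hm
  have h3 : γ * cow h r ≤ 1 / (4 * (2 : ℝ) ^ ((2 * h + 1) * sd.m)) := by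
    rw [le_div_iff₀ (by positivity)]
    refine le_trans ?_ hγ'
    rw [← mul_assoc γ]
    exact mul_le_mul_of_nonneg_left h2 (mul_nonneg hγ (cow_pos h r).le)
  have h4 : 1 / (2 * (2 : ℝ) ^ ((2 * h + 1) * sd.m)) =
      2 * (1 / (4 * (2 : ℝ) ^ ((2 * h + 1) * sd.m))) := by
    field_simp
    norm_num
  have := (abs_le.mp h1).1
  linarith

namespace LwOK
variable {r : ℕ} {γ : ℝ} {sd : Side F e h} {A : Fin 2 → Vtx F e n h} {i : Fin 2}

theorem pos (H : LwOK r γ sd A i) : 0 < 𝔼 t, ind (Sel sd A i t) :=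
  lt_of_lt_of_le (by positivity) H.lower

theorem inv_le (H : LwOK r γ sd A i) :
    1 / (𝔼 t, ind (Sel sd A i t)) ≤ 4 * (2 : ℝ) ^ ((2 * h + 1) * sd.m) := by
  have := H.lower
  rw [div_le_iff₀ (by positivity)] at this
  rw [div_le_iff₀ H.pos]
  linarith

theorem inv_le_kap (H : LwOK r γ sd A i) : 1 / (𝔼 t, ind (Sel sd A i t)) ≤ kap h r :=
  H.inv_le.trans (four_pow_le_kap H.m_le)

theorem total (H : LwOK r γ sd A i) : 𝔼 t, lw sd A i t = 1 := by
  simp only [lw]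
  rw [← expect_div, div_self H.pos.ne']

theorem le_kap (H : LwOK r γ sd A i) (t : F) : lw sd A i t ≤ kap h r :=
  le_trans (div_le_div_of_nonneg_right (ind_le_one _) H.pos.le) H.inv_le_kap

theorem expect_lw (H : LwOK r γ sd A i) (f : F → ℝ) :
    𝔼 t, lw sd A i t * f t = (1 / 𝔼 t, ind (Sel sd A i t)) * 𝔼 t, ind (Sel sd A i t) * f t := by
  rw [mul_expect]
  refine expect_congr rfl fun t _ => ?_
  simp only [lw]
  ring

end LwOK

theorem lw_nonneg (sd : Side F e h) (A : Fin 2 → Vtx F e n h) (i : Fin 2) (t : F) :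
    0 ≤ lw sd A i t := div_nonneg (ind_nonneg _) (expect_nonneg' fun _ => ind_nonneg _)

theorem abs_expect_le_one_su {α : Type*} [Fintype α] {f : α → ℝ} (hf : ∀ a, |f a| ≤ 1) :
    |𝔼 a, f a| ≤ 1 := (abs_expect_le' f).trans (expect_le_const zero_le_one hf)

/-- replacing the label density by the constant one -/
theorem lw_replace {r : ℕ} {γ : ℝ} (hγ : 0 ≤ γ) (hr : 2 * r ≤ 3 * e) {sd : Side F e h}
    (hs : SideOK r sd) {A : Fin 2 → Vtx F e n h} {i : Fin 2} (H : LwOK r γ sd A i) {G : F → ℝ}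
    (hG : ∀ t, |G t| ≤ 1) (hx : NotBad r γ (A i) G) :
    |(𝔼 t, lw sd A i t * G t) - 𝔼 t, G t| ≤ 2 * (γ * cow h r * kap h r) := by
  have h1 := sel_decouple hγ hr hs A i hx (fun _ => 1) (by simp)
  simp only [mul_one] at h1
  rw [expect_OW] at h1
  simp only [Fintype.expect_const] at h1
  rw [expect_sigU sd i (hs i).2.2] at h1
  have h2 := H.near
  have h3 := abs_expect_le_one_su hG
  have h4 := H.pos
  have h5 := H.inv_le_kap
  rw [H.expect_lw]
  set P := 𝔼 t, ind (Sel sd A i t)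
  set p := 1 / (2 * (2 : ℝ) ^ ((2 * h + 1) * sd.m))
  set X := 𝔼 t, ind (Sel sd A i t) * G t
  set g := 𝔼 t, G t
  have e1 : 1 / P * X - g = 1 / P * ((X - p * g) - (P - p) * g) := by
    field_simp
    ring
  rw [e1, abs_mul, abs_of_pos (by positivity : 0 < 1 / P)]
  have h6 : |(X - p * g) - (P - p) * g| ≤ 2 * (γ * cow h r) := by
    refine (abs_sub _ _).trans ?_
    rw [abs_mul]
    have := mul_le_mul h2 h3 (abs_nonneg _) (mul_nonneg hγ (cow_pos h r).le)
    linarith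
  have := mul_le_mul h5 h6 (abs_nonneg _) (kap_pos h r).le
  linarith

/-- splitting along the bad event -/
theorem bad_split {hh : (Fin 2 → Vtx F e n h) → ℝ} {Λ M : ℝ} (hd : Dens hh Λ M) {r N : ℕ}
    {γ δ : ℝ} (hB : BadMass hh r γ N δ) {ι : Type} [Fintype ι] [DecidableEq ι] (sd : ι → Fin 2)
    (hι : Fintype.card ι ≤ N) (i : Fin 2)
    (G : Frame F e n → (ι → F) → (ι → Fin n → F) → F → ℝ) (hG : ∀ c τ w t, |G c τ w t| ≤ 1)
    (f g : (Fin 2 → Vtx F e n h) → (ι → F) → ℝ) {ε B : ℝ} (hB0 : 0 ≤ B)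
    (hg : ∀ A, hh A ≠ 0 → 𝔼 τ, g A τ ≤ ε)
    (h1 : ∀ A τ, hh A ≠ 0 → NotBad r γ (A i) (G (A i).c τ fun a => vp (A (sd a)) (τ a)) →
      f A τ ≤ g A τ)
    (h2 : ∀ A τ, hh A ≠ 0 → f A τ ≤ g A τ + B) :
    𝔼 A, hh A * 𝔼 τ, f A τ ≤ ε + B * δ := by
  have h3 := hB ι sd hι i G hG
  have h4 : ∀ A, hh A * 𝔼 τ, f A τ ≤ hh A * ε + B * (hh A * 𝔼 τ : ι → F,
      ind (¬ NotBad r γ (A i) (G (A i).c τ fun a => vp (A (sd a)) (τ a)))) := by
    intro A
    by_cases hA : hh A = 0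
    · simp [hA]
    rw [mul_left_comm, ← mul_add]
    refine mul_le_mul_of_nonneg_left ?_ (hd.nonneg A)
    refine le_trans ?_ (add_le_add (hg A hA) le_rfl)
    rw [mul_expect, ← expect_add_distrib]
    refine expect_mono fun τ => ?_
    by_cases hb : NotBad r γ (A i) (G (A i).c τ fun a => vp (A (sd a)) (τ a))
    · rw [ind_neg (not_not.mpr hb), mul_zero, add_zero]
      exact h1 A τ hA hb
    · rw [ind_pos hb, mul_one]
      exact h2 A τ hA
  refine (expect_mono h4).trans ?_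
  rw [expect_add_distrib, ← expect_mul, hd.total, one_mul, ← mul_expect]
  exact add_le_add le_rfl (mul_le_mul_of_nonneg_left h3 hB0)

theorem abs_expect_hh {Ω : Type} [Fintype Ω] {hh : Ω → ℝ} (h0 : ∀ A, 0 ≤ hh A) {ι : Type}
    [Fintype ι] (f : Ω → ι → ℝ) : |𝔼 A, hh A * 𝔼 τ, f A τ| ≤ 𝔼 A, hh A * 𝔼 τ, |f A τ| := by
  refine (abs_expect_le' _).trans (expect_mono fun A => ?_)
  rw [abs_mul, abs_of_nonneg (h0 A)]
  exact mul_le_mul_of_nonneg_left (abs_expect_le' _) (h0 A)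

theorem pts_update {ι : Type} [DecidableEq ι] (A : Fin 2 → Vtx F e n h) (s : ι → Fin 2)
    (τ : ι → F) (a : ι) (t : F) :
    (fun b => vp (A (s b)) (Function.update τ a t b)) =
      Function.update (fun b => vp (A (s b)) (τ b)) a (pt (A (s a)).c t) := by
  funext b
  by_cases hb : b = a
  · subst hb; simp [vp]
  · simp [Function.update_of_ne hb]

theorem prod_le_pow_su {ι : Type} [Fintype ι] (S : Finset ι) (f : ι → ℝ) {k : ℝ} (hk : 1 ≤ k)
    (h1 : ∀ a, |f a| ≤ k) {N : ℕ} (hN : Fintype.card ι ≤ N) : |∏ a ∈ S, f a| ≤ k ^ N := by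
  rw [abs_prod]
  refine (prod_le_prod (fun a _ => abs_nonneg _) fun a _ => h1 a).trans ?_
  rw [prod_const]
  exact pow_le_pow_right₀ hk ((card_le_univ S).trans hN)

/-- one step of the hybrid argument -/
theorem hybrid_step {hh : (Fin 2 → Vtx F e n h) → ℝ} {Λ M : ℝ} (hd : Dens hh Λ M) {r N : ℕ}
    {γ δ : ℝ} (hγ : 0 ≤ γ) (hγ' : γ * (cow h r * kap h r) ≤ 1) (hr : 2 * r ≤ 3 * e)
    (hB : BadMass hh r γ N δ) (sd : (Fin 2 → Vtx F e n h) → Side F e h)
    (hg : ∀ A, hh A ≠ 0 → SideOK r (sd A) ∧ ∀ i, GoodV r γ (A i))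
    {ι : Type} [Fintype ι] [DecidableEq ι] (s : ι → Fin 2) (hι : Fintype.card ι ≤ N)
    (Z : (ι → Fin n → F) → ℝ) (hZ : ∀ v, |Z v| ≤ 1) (S : Finset ι) (a : ι) (ha : a ∉ S) :
    |(𝔼 A, hh A * 𝔼 τ : ι → F, (∏ b ∈ insert a S, lw (sd A) A (s b) (τ b)) *
        Z fun b => vp (A (s b)) (τ b)) -
      𝔼 A, hh A * 𝔼 τ : ι → F, (∏ b ∈ S, lw (sd A) A (s b) (τ b)) *
        Z fun b => vp (A (s b)) (τ b)| ≤
      kap h r ^ N * (2 * (γ * cow h r * kap h r)) + kap h r ^ N * 2 * δ := by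
  have hk := one_le_kap h r
  let G : Frame F e n → (ι → F) → (ι → Fin n → F) → F → ℝ :=
    fun c _ w t => Z (Function.update w a (pt c t))
  have key : ∀ A : Fin 2 → Vtx F e n h,
      (hh A * 𝔼 τ : ι → F, (∏ b ∈ insert a S, lw (sd A) A (s b) (τ b)) *
        Z fun b => vp (A (s b)) (τ b)) - hh A * (𝔼 τ : ι → F, (∏ b ∈ S, lw (sd A) A (s b) (τ b)) *
        Z fun b => vp (A (s b)) (τ b)) =
      hh A * 𝔼 τ : ι → F, (∏ b ∈ S, lw (sd A) A (s b) (τ b)) *
        ((𝔼 t, lw (sd A) A (s a) t * G (A (s a)).c τ (fun b => vp (A (s b)) (τ b)) t) -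
          𝔼 t, G (A (s a)).c τ (fun b => vp (A (s b)) (τ b)) t) := by
    intro A
    rw [← mul_sub, ← expect_sub_distrib, expect_update a]
    congr 1
    refine expect_congr rfl fun τ _ => ?_
    rw [← expect_sub_distrib, mul_expect]
    refine expect_congr rfl fun t _ => ?_
    have e1 : ∏ b ∈ S, lw (sd A) A (s b) (Function.update τ a t b) =
        ∏ b ∈ S, lw (sd A) A (s b) (τ b) :=
      prod_congr rfl fun b hb => by rw [Function.update_of_ne (ne_of_mem_of_not_mem hb ha)]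
    rw [prod_insert ha, e1, pts_update, Function.update_self]
    simp only [G]
    ring
  rw [← expect_sub_distrib]
  simp only [key]
  refine (abs_expect_hh hd.nonneg _).trans ?_
  have hw : ∀ A (τ : ι → F), hh A ≠ 0 → |∏ b ∈ S, lw (sd A) A (s b) (τ b)| ≤ kap h r ^ N :=
    fun A τ hA =>
    prod_le_pow_su S _ hk (fun b => by
      rw [abs_of_nonneg (lw_nonneg _ _ _ _)]
      exact (lwOK_of hγ hγ' hr (hg A hA).1 A _ ((hg A hA).2 _)).le_kap _) hι
  have hc : 0 ≤ 2 * (γ * cow h r * kap h r) := by have := cow_pos h r; positivity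
  refine bad_split hd hB s hι (s a) G (fun c τ w t => hZ _) _
    (fun _ _ => kap h r ^ N * (2 * (γ * cow h r * kap h r))) (by positivity)
    (fun A _ => (Fintype.expect_const _).le) (fun A τ hA hb => ?_) fun A τ hA => ?_
  · rw [abs_mul]
    exact mul_le_mul (hw A τ hA) (lw_replace hγ hr (hg A hA).1
      (lwOK_of hγ hγ' hr (hg A hA).1 A _ ((hg A hA).2 _)) (fun t => hZ _) hb) (abs_nonneg _)
      (by positivity)
  · rw [abs_mul]
    have H := lwOK_of hγ hγ' hr (hg A hA).1 A _ ((hg A hA).2 (s a))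
    have h1 : |𝔼 t, lw (sd A) A (s a) t * G (A (s a)).c τ (fun b => vp (A (s b)) (τ b)) t| ≤ 1 := by
      refine (abs_expect_le' _).trans ?_
      rw [← H.total]
      refine expect_mono fun t => ?_
      rw [abs_mul, abs_of_nonneg (lw_nonneg _ _ _ _)]
      exact mul_le_of_le_one_right (lw_nonneg _ _ _ _) (hZ _)
    have h2 : |𝔼 t, G (A (s a)).c τ (fun b => vp (A (s b)) (τ b)) t| ≤ 1 :=
      abs_expect_le_one_su fun t => hZ _
    have h3 := (abs_sub _ _).trans (add_le_add h1 h2)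
    have h4 := mul_le_mul (hw A τ hA) h3 (abs_nonneg _) (by positivity)
    have : 0 ≤ kap h r ^ N * (2 * (γ * cow h r * kap h r)) := by positivity
    linarith

theorem expect_prod_lw {r : ℕ} {γ : ℝ} {sd : Side F e h} {A : Fin 2 → Vtx F e n h}
    (H : ∀ i, LwOK r γ sd A i) (S : Finset Slot) :
    𝔼 t : Slot → F, ∏ s ∈ S, lw sd A s.1 (t s) = 1 := by
  have h1 : ∀ t : Slot → F, ∏ s ∈ S, lw sd A s.1 (t s) =
      ∏ s, (fun s u => if s ∈ S then lw sd A s.1 u else 1) s (t s) := fun t => by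
    rw [prod_ite_mem, univ_inter]
  simp only [h1]
  rw [expect_pi_prod (fun s u => if s ∈ S then lw sd A s.1 u else 1)]
  refine prod_eq_one fun s _ => ?_
  split_ifs
  · exact (H _).total
  · exact Fintype.expect_const _

theorem prod_lw_nonneg (sd : Side F e h) (A : Fin 2 → Vtx F e n h) (S : Finset Slot)
    (t : Slot → F) : 0 ≤ ∏ s ∈ S, lw sd A s.1 (t s) := prod_nonneg fun _ _ => lw_nonneg _ _ _ _

theorem prod_lw_le {r : ℕ} {γ : ℝ} {sd : Side F e h} {A : Fin 2 → Vtx F e n h}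
    (H : ∀ i, LwOK r γ sd A i) (S : Finset Slot) (t : Slot → F) :
    ∏ s ∈ S, lw sd A s.1 (t s) ≤ kap h r ^ 4 :=
  (le_abs_self _).trans (prod_le_pow_su S _ (one_le_kap h r) (fun s => by
    rw [abs_of_nonneg (lw_nonneg _ _ _ _)]
    exact (H _).le_kap _) (by simp))

theorem prod_update_su {α : Type} (L : Slot → α → ℝ) (t : Slot → α) (s : Slot) (u : α) :
    ∏ s', L s' (Function.update t s u s') = (∏ s' ∈ univ.erase s, L s' (t s')) * L s u := by
  rw [← prod_erase_mul _ _ (mem_univ s), Function.update_self]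
  congr 1
  exact prod_congr rfl fun b hb => by rw [Function.update_of_ne (ne_of_mem_erase hb)]

theorem ev_div_four_pow (a δ : ℝ) (hδ : 0 < δ) : ∀ᶠ κ : ℕ in atTop, a / (4 : ℝ) ^ κ ≤ δ := by
  have h1 := (tendsto_pow_atTop_atTop_of_one_lt (by norm_num : (1 : ℝ) < 4)).eventually_ge_atTop
    (a / δ)
  filter_upwards [h1] with κ hκ
  rw [div_le_iff₀ hδ] at hκ
  rw [div_le_iff₀ (by positivity)]
  linarith

theorem ev_two_r (r : ℕ) : ∀ᶠ κ : ℕ in atTop, 2 * r ≤ 3 * κ ^ 2 := by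
  filter_upwards [eventually_ge_atTop r] with κ hκ
  nlinarith

end aux

/-- the selected labels have density close to the ideal one -/
theorem lw_bound (h r : ℕ) : ∃ γ₀ : ℝ, 0 < γ₀ ∧ ∀ γ : ℝ, 0 < γ → γ ≤ γ₀ →
    ∀ (F : Type) [Field F] [Fintype F] [Algebra K F] (e n : ℕ), 2 * r ≤ 3 * e →
    ∀ (sd : Side F e h) (A : Fin 2 → Vtx F e n h) (i : Fin 2), SideOK r sd → GoodV r γ (A i) →
      sd.m + 1 ≤ r ∧ 1 / (4 * (2 : ℝ) ^ ((2 * h + 1) * sd.m)) ≤ 𝔼 t, ind (Sel sd A i t) ∧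
      𝔼 t, lw sd A i t = 1 ∧ ∀ t, 0 ≤ lw sd A i t ∧ lw sd A i t ≤ kap h r := by
  have h1 := cow_pos h r
  have h2 := kap_pos h r
  refine ⟨1 / (cow h r * kap h r), by positivity, fun γ hγ hγ' F _ _ _ e n hr sd A i hs hx => ?_⟩
  rw [le_div_iff₀ (by positivity)] at hγ'
  have H := lwOK_of hγ.le hγ' hr hs A i hx
  exact ⟨H.m_le, H.lower, H.total, fun t => ⟨lw_nonneg _ _ _ _, H.le_kap t⟩⟩

/-- J10b: uniformity of the points of selected labels -/
theorem unif_sel (h r D N : ℕ) (δ : ℝ) (hδ : 0 < δ) : ∃ γ₀ : ℝ, 0 < γ₀ ∧ ∀ γ : ℝ, 0 < γ → γ ≤ γ₀ →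
    ∀ᶠ κ : ℕ in atTop,
    ∀ (F : Type) [Field F] [Fintype F] [Algebra K F], Fintype.card F = 4 ^ κ →
    ∀ (hh : (Fin 2 → Vtx F (κ ^ 2) (4 * κ ^ 2) h) → ℝ)
      (sd : (Fin 2 → Vtx F (κ ^ 2) (4 * κ ^ 2) h) → Side F (κ ^ 2) h),
      Dens hh (((4 : ℝ) ^ κ) ^ (D * (4 * κ ^ 2))) (4 ^ κ) →
      (∀ A, hh A ≠ 0 → SideOK r (sd A) ∧ ∀ i, GoodV r γ (A i)) →
      Unif hh (fun A => lw (sd A) A) (fun A i => vp (A i)) N δ := by
  have h1 := cow_pos h r
  have h2 := kap_pos h r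
  obtain ⟨C, hC⟩ := trim_unif D N (δ / 3) (by positivity)
  refine ⟨min (1 / (cow h r * kap h r)) (δ / (6 * (N + 1) * kap h r ^ N * (cow h r * kap h r))),
    by positivity, fun γ hγ hγ' => ?_⟩
  have hγ1 := hγ'.trans (min_le_left _ _)
  have hγ2 := hγ'.trans (min_le_right _ _)
  rw [le_div_iff₀ (by positivity)] at hγ1 hγ2
  filter_upwards [hC, badMass_ev h r D N γ (δ / (6 * (N + 1) * kap h r ^ N)) hγ (by positivity),
    ev_two_r r] with κ hT hB hr F _ _ _ hq hh sd hd hg ι _ _ s hι Z hZ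
  have hU := (hT _ F _ vp hh hq indep_vp hd).2 ι s hι Z hZ
  have hB' := hB F hq hh hd fun A hA i => ((hg A hA).2 i).1
  set η := kap h r ^ N * (2 * (γ * cow h r * kap h r)) +
    kap h r ^ N * 2 * (δ / (6 * (N + 1) * kap h r ^ N)) with hη
  have key : ∀ S : Finset ι, |(𝔼 A, hh A * 𝔼 τ : ι → F, (∏ b ∈ S, lw (sd A) A (s b) (τ b)) *
      Z fun b => vp (A (s b)) (τ b)) - 𝔼 v, Z v| ≤ δ / 3 + S.card * η := by
    intro S
    induction S using Finset.induction_on with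
    | empty => simpa using hU
    | insert a S ha ih =>
      have := hybrid_step hd hγ.le hγ1 hr hB' sd hg s hι Z hZ S a ha
      rw [card_insert_of_notMem ha]
      refine (abs_sub_le _ _ _).trans ((add_le_add this ih).trans (le_of_eq ?_))
      push_cast
      ring
  refine (key univ).trans ?_
  have h3 : ((univ : Finset ι).card : ℝ) ≤ N + 1 := by
    rw [card_univ]
    exact_mod_cast hι.trans (Nat.le_succ N)
  have h4 : (N + 1) * η ≤ 2 * δ / 3 := by
    have e1 : (N + 1) * (kap h r ^ N * 2 * (δ / (6 * (N + 1) * kap h r ^ N))) = δ / 3 := by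
      field_simp
      norm_num
    rw [hη, mul_add, e1]
    nlinarith
  have h5 : 0 ≤ η := by positivity
  have := mul_le_mul_of_nonneg_right h3 h5
  linarith

end Vale.Agent.P060
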