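import Vale.Agent.P060.Low
import Vale.Agent.P060.Weil
import Vale.Agent.P060.Trim

namespace Vale.Agent.P060

open Finset Polynomial Filter
open scoped BigOperators

variable {F : Type} [Field F] [Fintype F] [Algebra K F] {e n h M : ℕ}

theorem NotBad.mono {r r' : ℕ} (hr : r ≤ r') {γ : ℝ} {x : Vtx F e n h} {G : F → ℝ}
    (hx : NotBad r' γ x G) : NotBad r γ x G := fun ω h0 hω => hx ω h0 (hω.trans hr)

theorem card_OW {ι : Type} [Fintype ι] [DecidableEq ι] :
    Fintype.card (OW ι h) = 2 ^ ((2 * h + 1) * (Fintype.card ι + 2)) := by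
  rw [Fintype.card_prod, Fintype.card_prod, Fintype.card_fun (α := ι), card_GG]
  ring

omit [Fintype F] in
theorem isCode_of_add_spec {c : F → K} (φ : Y F M → K) (hφ : ∀ z z', φ (z + z') = φ z + φ z')
    (hc : ∀ t, c t = φ (ev M t)) : IsCode M c := by
  refine ⟨⟨⟨φ, hφ⟩, fun k z => ?_⟩, hc⟩
  rcases K_cases k with rfl | rfl
  · have := hφ 0 0
    simp only [add_zero, K_add_self] at this
    simp [this]
  · simp

omit [Fintype F] in
theorem IsCode.add_spec {c c' : F → K} (hc : IsCode M c) (hc' : IsCode M c') :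
    IsCode M (c + c') := by
  obtain ⟨φ, h1⟩ := hc
  obtain ⟨φ', h2⟩ := hc'
  exact ⟨φ + φ', fun t => by simp [h1, h2]⟩

omit [Fintype F] in
theorem ownChar_isCode (x : Vtx F e n h) (a b : GG h) (ρ : Ix h → Y F (3 * e)) :
    IsCode (4 * e) (ownChar x a b ρ) := by
  refine isCode_of_add_spec (fun z => a ⬝ᵥ x.u (U x.c z) + b ⬝ᵥ x.T (trunc e z) (trunc e z) +
    ∑ k, x.T (ρ k) (trunc e z) k) (fun z z' => ?_) fun t => ?_
  · simp only [map_add, LinearMap.add_apply, dotProduct_add, Pi.add_apply, sum_add_distrib]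
    rw [x.2.2.2 (trunc e z') (trunc e z)]
    have := K_add_self (b ⬝ᵥ x.T (trunc e z) (trunc e z'))
    linear_combination this
  · simp [ownChar, xi, row, vp]

omit [Fintype F] in
theorem xi_isCode (x y : Vtx F e n h) (a : GG h) : IsCode (4 * e) fun t => a ⬝ᵥ xi x y t := by
  refine isCode_of_add_spec (fun z => a ⬝ᵥ y.u (U x.c z)) (fun z z' => ?_) fun t => ?_
  · simp only [map_add, dotProduct_add]
  · simp [xi, vp]

theorem dot_add_left_spec {ι : Type} [Fintype ι] (a a' w : OW ι h) :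
    OW.dot (a + a') w = a.dot w + a'.dot w := by
  simp only [OW.dot, Prod.fst_add, Prod.snd_add, Pi.add_apply, add_dotProduct, sum_add_distrib]
  ring

theorem dot_comm_spec {ι : Type} [Fintype ι] (a w : OW ι h) : a.dot w = w.dot a := by
  simp only [OW.dot, dotProduct_comm]

theorem fourier_OW {ι : Type} [Fintype ι] [DecidableEq ι] (Φ : OW ι h → ℝ) (w : OW ι h) :
    Φ w = ∑ a : OW ι h, (𝔼 w', Φ w' * sgn (a.dot w')) * sgn (a.dot w) := by
  refine fourier_inv OW.dot dot_add_left_spec (fun a w w' => by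
    rw [dot_comm_spec, dot_add_left_spec, dot_comm_spec w, dot_comm_spec w']) (fun w hw => ?_) Φ w
  refine Prod.ext (funext fun k => ?_) (Prod.ext (funext fun k => ?_)
    (funext fun l => funext fun k => ?_))
  · simpa [OW.dot] using hw (Pi.single k 1, 0, 0)
  · simpa [OW.dot] using hw (0, Pi.single k 1, 0)
  · have := hw (0, 0, Pi.single l (Pi.single k 1))
    simp only [OW.dot, zero_dotProduct, zero_add] at this
    rw [sum_eq_single l (fun l' _ hl => by simp [hl]) (by simp)] at this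
    simpa using this

omit [Fintype F] in
theorem dot_own_spec {ι : Type} [Fintype ι] (x : Vtx F e n h) (ρ : ι → Y F (3 * e)) (a : OW ι h)
    (t : F) : a.dot (own x ρ t) = ownChar x a.1 a.2.1 (fun k => ∑ l, a.2.2 l k • ρ l) t := by
  simp only [OW.dot, own, ownChar, row, map_sum, LinearMap.sum_apply, map_smul,
    LinearMap.smul_apply, Finset.sum_apply, Pi.smul_apply, smul_eq_mul, dotProduct]
  rw [sum_comm]

theorem NotBad.own_spec {r : ℕ} {γ : ℝ} {x : Vtx F e n h} {G : F → ℝ} (hx : NotBad r γ x G)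
    {ω : F[X]} (hω : ω ≠ 0) (hωr : ω.natDegree ≤ r) {ι : Type} [Fintype ι]
    {ρ : ι → Y F (3 * e)} (hρ : LinearIndependent K ρ) (hl : ∀ l, Low (3 * e) ω (ρ l))
    (a : OW ι h) (ha : a ≠ 0) : ¬ Corr γ G (fun t => a.dot (own x ρ t)) ∧
      ∀ c : F → K, IsCode (4 * e) c → Corr γ G c →
        ¬ Corr γ G (c + fun t => a.dot (own x ρ t)) := by
  simp only [dot_own_spec]
  refine hx ω hω hωr _ _ _ (fun k => low_span (s := Set.range ρ) (by
    rintro _ ⟨l, rfl⟩; exact hl l) (Submodule.sum_mem _ fun l _ =>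
      Submodule.smul_mem _ _ (Submodule.subset_span ⟨l, rfl⟩))) ?_
  by_contra hc
  push Not at hc
  refine ha (Prod.ext hc.1 (Prod.ext hc.2.1 (funext fun l => funext fun k => ?_)))
  exact Fintype.linearIndependent_iff.1 hρ (fun l => a.2.2 l k) (congrFun hc.2.2 k) l

theorem coef_le_spec {ι : Type} [Fintype ι] [DecidableEq ι] (Φ : OW ι h → ℝ) {B : ℝ}
    (hΦ : ∀ w, |Φ w| ≤ B) (a : OW ι h) : |𝔼 w, Φ w * sgn (a.dot w)| ≤ B :=
  (abs_expect_le' _).trans (expect_le_const ((abs_nonneg _).trans (hΦ 0)) fun w => by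
    rw [abs_mul, abs_sgn, mul_one]; exact hΦ w)

/-- Q1: own functions decouple from the test function -/
theorem qstar₁ {r : ℕ} {γ : ℝ} (hγ : 0 ≤ γ) {x : Vtx F e n h} {G : F → ℝ} (hx : NotBad r γ x G)
    {ω : F[X]} (hω : ω ≠ 0) (hωr : ω.natDegree ≤ r) {ι : Type} [Fintype ι] [DecidableEq ι]
    {ρ : ι → Y F (3 * e)} (hρ : LinearIndependent K ρ) (hl : ∀ l, Low (3 * e) ω (ρ l))
    (Φ : OW ι h → ℝ) {B : ℝ} (hΦ : ∀ w, |Φ w| ≤ B) :
    |(𝔼 t, Φ (own x ρ t) * G t) - (𝔼 w, Φ w) * 𝔼 t, G t| ≤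
      γ * Fintype.card (OW ι h) * B := by
  have hB : 0 ≤ B := (abs_nonneg _).trans (hΦ 0)
  have e1 : 𝔼 t, Φ (own x ρ t) * G t = ∑ a : OW ι h, (𝔼 w', Φ w' * sgn (a.dot w')) *
      𝔼 t, sgn (a.dot (own x ρ t)) * G t := by
    simp only [mul_expect]
    rw [← expect_sum_comm]
    refine expect_congr rfl fun t _ => ?_
    rw [fourier_OW Φ (own x ρ t), sum_mul]
    simp only [mul_assoc]
  rw [e1, ← add_sum_erase _ _ (mem_univ 0)]
  have e2 : ∀ w : OW ι h, sgn (OW.dot 0 w) = 1 := fun w => by simp [OW.dot]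
  simp only [e2, mul_one, one_mul, add_sub_cancel_left]
  refine (abs_sum_le_sum_abs _ _).trans ((sum_le_card_nsmul _ _ (B * γ) fun a ha => ?_).trans ?_)
  · rw [abs_mul]
    exact mul_le_mul (coef_le_spec Φ hΦ a)
      (not_lt.1 (hx.own_spec hω hωr hρ hl a (mem_erase.1 ha).1).1) (abs_nonneg _) hB
  · rw [nsmul_eq_mul]
    have : ((univ.erase (0 : OW ι h)).card : ℝ) ≤ Fintype.card (OW ι h) := by
      exact_mod_cast card_le_univ _
    nlinarith [mul_nonneg hB hγ]

/-- Q2: with an extra codeword at most one own character correlates -/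
theorem qstar₂ {r : ℕ} {γ : ℝ} (hγ : 0 ≤ γ) {x : Vtx F e n h} {G : F → ℝ} (hG : ∀ t, |G t| ≤ 1)
    (hx : NotBad r γ x G)
    {ω : F[X]} (hω : ω ≠ 0) (hωr : ω.natDegree ≤ r) {ι : Type} [Fintype ι] [DecidableEq ι]
    {ρ : ι → Y F (3 * e)} (hρ : LinearIndependent K ρ) (hl : ∀ l, Low (3 * e) ω (ρ l))
    (Φ : OW ι h → ℝ) {B m : ℝ} (hΦ : ∀ w, |Φ w| ≤ B)
    (hm : ∀ a : OW ι h, |𝔼 w, Φ w * sgn (a.dot w)| ≤ m) {c : F → K} (hc : IsCode (4 * e) c) :
    |𝔼 t, Φ (own x ρ t) * sgn (c t) * G t| ≤ m + γ * Fintype.card (OW ι h) * B := by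
  have hB : 0 ≤ B := (abs_nonneg _).trans (hΦ 0)
  have hm0 : 0 ≤ m := (abs_nonneg _).trans (hm 0)
  have e1 : 𝔼 t, Φ (own x ρ t) * sgn (c t) * G t = ∑ a : OW ι h, (𝔼 w', Φ w' * sgn (a.dot w')) *
      𝔼 t, sgn ((c + fun t => a.dot (own x ρ t)) t) * G t := by
    simp only [mul_expect]
    rw [← expect_sum_comm]
    refine expect_congr rfl fun t _ => ?_
    rw [fourier_OW Φ (own x ρ t), sum_mul, sum_mul]
    refine sum_congr rfl fun a _ => ?_
    rw [Pi.add_apply, sgn_add]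
    ring
  obtain ⟨a₀, ha₀⟩ : ∃ a₀ : OW ι h, ∀ a, a ≠ a₀ → ¬ Corr γ G (c + fun t => a.dot (own x ρ t)) := by
    by_cases hex : ∃ a₀ : OW ι h, Corr γ G (c + fun t => a₀.dot (own x ρ t))
    · obtain ⟨a₀, h0⟩ := hex
      refine ⟨a₀, fun a ha => ?_⟩
      have := (hx.own_spec hω hωr hρ hl (a₀ + a) fun h' => ha (add_eq_zero_K.1 h').symm).2 _
        (hc.add_spec (by simp only [dot_own_spec]; exact ownChar_isCode _ _ _ _)) h0
      convert this using 2
      funext t
      simp only [Pi.add_apply, dot_add_left_spec]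
      rw [add_assoc, ← add_assoc (a₀.dot _), K_add_self, zero_add]
    · exact ⟨0, fun a _ h' => hex ⟨a, h'⟩⟩
  rw [e1, ← add_sum_erase _ _ (mem_univ a₀)]
  refine (abs_add_le _ _).trans (add_le_add ?_ ((abs_sum_le_sum_abs _ _).trans
    ((sum_le_card_nsmul _ _ (B * γ) fun a ha => ?_).trans ?_)))
  · rw [abs_mul]
    refine (mul_le_mul (hm a₀) ((abs_expect_le' _).trans (expect_le_const zero_le_one fun t => ?_))
      (abs_nonneg _) hm0).trans (mul_one m).le
    rw [abs_mul, abs_sgn, one_mul]; exact hG t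
  · rw [abs_mul]
    exact mul_le_mul (coef_le_spec Φ hΦ a) (not_lt.1 (ha₀ a (mem_erase.1 ha).1)) (abs_nonneg _) hB
  · rw [nsmul_eq_mul]
    have : ((univ.erase a₀).card : ℝ) ≤ Fintype.card (OW ι h) := by
      exact_mod_cast card_le_univ _
    nlinarith [mul_nonneg hB hγ]

/-- the large spectrum is small -/
theorem card_spec_le {γ : ℝ} (hγ : 0 < γ) (hW : Weil F M (γ ^ 2 / 2)) {G : F → ℝ}
    (hG : ∀ t, |G t| ≤ 1) (S : Finset (F → K)) (hS : ∀ c ∈ S, IsCode M c ∧ Corr γ G c) :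
    (S.card : ℝ) ≤ 4 / γ ^ 2 := by
  classical
  rcases S.eq_empty_or_nonempty with rfl | hne
  · simp only [card_empty, Nat.cast_zero]; positivity
  have hN : (0 : ℝ) < S.card := by exact_mod_cast hne.card_pos
  set s : (F → K) → ℝ := fun c => if 0 ≤ 𝔼 t, sgn (c t) * G t then 1 else -1 with hs
  have hs1 : ∀ c, |s c| = 1 := fun c => by simp only [hs]; split_ifs <;> simp
  have h1 : S.card * γ ≤ 𝔼 t, (∑ c ∈ S, s c * sgn (c t)) * G t := by
    simp only [sum_mul, mul_assoc]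
    rw [expect_sum_comm, ← nsmul_eq_mul]
    refine card_nsmul_le_sum _ _ _ fun c hc => ?_
    rw [← mul_expect]
    have := (hS c hc).2.le
    simp only [hs]
    split_ifs with h0
    · rwa [abs_of_nonneg h0, ← one_mul (𝔼 t, _)] at this
    · rwa [abs_of_neg (not_le.1 h0), ← neg_one_mul] at this
  have h2 : (𝔼 t, (∑ c ∈ S, s c * sgn (c t)) * G t) ^ 2 ≤ 𝔼 t, (∑ c ∈ S, s c * sgn (c t)) ^ 2 := by
    refine (Finset.expect_mul_sq_le_sq_mul_sq univ _ _).trans (mul_le_of_le_one_right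
      (expect_nonneg' fun t => sq_nonneg _) (expect_le_const zero_le_one fun t => ?_))
    rw [← sq_abs]
    exact pow_le_one₀ (abs_nonneg _) (hG t)
  have h3 : 𝔼 t, (∑ c ∈ S, s c * sgn (c t)) ^ 2 ≤ S.card * (2 + S.card * (γ ^ 2 / 2)) := by
    simp only [sq (∑ c ∈ S, _), sum_mul_sum]
    rw [expect_sum_comm, ← nsmul_eq_mul]
    refine sum_le_card_nsmul _ _ _ fun c hc => ?_
    rw [expect_sum_comm]
    have h4 : ∀ c' ∈ S, 𝔼 t, s c * sgn (c t) * (s c' * sgn (c' t)) ≤
        ind (c' = c) + ind (c' = c + 1) + γ ^ 2 / 2 := by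
      intro c' hc'
      have e : 𝔼 t, s c * sgn (c t) * (s c' * sgn (c' t)) = s c * s c' * 𝔼 t, sgn ((c + c') t) := by
        rw [mul_expect]
        exact expect_congr rfl fun t _ => by rw [Pi.add_apply, sgn_add]; ring
      refine (le_abs_self _).trans ?_
      rw [e, abs_mul, abs_mul, hs1, hs1, one_mul, one_mul]
      have i1 := ind_nonneg (c' = c)
      have i2 := ind_nonneg (c' = c + 1)
      rcases hW _ ((hS c hc).1.add_spec (hS c' hc').1) with ⟨k, hk⟩ | hk
      · have h5 : |𝔼 t, sgn ((c + c') t)| ≤ 1 :=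
          (abs_expect_le' _).trans (expect_le_const zero_le_one fun t => (abs_sgn _).le)
        have h6 : ∀ t, c' t = c t + k := fun t => by
          rw [← hk t, Pi.add_apply, ← add_assoc, K_add_self, zero_add]
        rcases K_cases k with rfl | rfl
        · rw [ind_pos (P := c' = c) (funext fun t => by simpa using h6 t)]
          nlinarith [sq_nonneg γ]
        · rw [ind_pos (P := c' = c + 1) (funext fun t => by simpa using h6 t)]
          nlinarith [sq_nonneg γ]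
      · linarith
    refine (sum_le_sum h4).trans ?_
    have h7 : ∀ c₀ : F → K, ∑ c' ∈ S, ind (c' = c₀) ≤ 1 := fun c₀ => by
      by_cases h9 : c₀ ∈ S
      · rw [sum_eq_single_of_mem c₀ h9 fun _ _ hb => ind_neg hb]; exact ind_le_one _
      · rw [sum_eq_zero fun c' hc' => ind_neg fun e : c' = c₀ => h9 (e ▸ hc')]; norm_num
    rw [sum_add_distrib, sum_add_distrib, sum_const, nsmul_eq_mul]
    linarith [h7 c, h7 (c + 1)]
  have h8 := (pow_le_pow_left₀ (by positivity) h1 2).trans (h2.trans h3)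
  rw [le_div_iff₀ (by positivity)]
  nlinarith

noncomputable instance instSymT_spec : AddCommGroup (SymT F M h) :=
  Submodule.addCommGroup (R := K) (M := Y F M →ₗ[K] Y F M →ₗ[K] GG h) _

/-- the own character as an additive function of the random part -/
noncomputable def ownHom (c : Frame F e n) (a b : GG h) (ρ : Ix h → Y F (3 * e)) :
    UT F e n h →+ (F → K) :=
  AddMonoidHom.mk' (fun ut => ownChar (c, ut) a b ρ) fun ut ut' => by
    funext t
    simp only [ownChar, xi, row, vp, Vtx.u, Vtx.T, Vtx.c, Prod.fst_add, Prod.snd_add,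
      Submodule.coe_add, LinearMap.add_apply, dotProduct_add, Pi.add_apply, sum_add_distrib]
    ring

/-- the range of `ownHom` -/
noncomputable abbrev ownRange (c : Frame F e n) (a b : GG h) (ρ : Ix h → Y F (3 * e)) :
    AddSubgroup (F → K) := AddMonoidHom.range (G := UT F e n h) (N := F → K) (ownHom c a b ρ)

/-- the symmetric form `f ⊗ g + g ⊗ f` (or `f ⊗ f`) placed in coordinate `k` -/
noncomputable def tens_spec (f g : Y F M →ₗ[K] K) (k : Ix h) : Y F M →ₗ[K] Y F M →ₗ[K] GG h :=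
  LinearMap.mk₂ K (fun z z' => (f z * g z') • Pi.single k 1)
    (fun _ _ _ => by simp [add_mul, add_smul]) (fun _ _ _ => by simp [mul_assoc, mul_smul])
    (fun _ _ _ => by simp [mul_add, add_smul])
    (fun _ _ _ => by simp [mul_left_comm, mul_smul])

theorem range_ownHom {c : Frame F e n} (hc : Surj c) (a b : GG h) (ρ : Ix h → Y F (3 * e))
    (h0 : a ≠ 0 ∨ b ≠ 0 ∨ ρ ≠ 0) : ∃ ρ₀ : Y F (3 * e), ∀ f : Y F (3 * e) →ₗ[K] K, f ρ₀ = 0 →
      (fun t => f (ev (3 * e) t)) ∈ ownRange c a b ρ := by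
  by_cases ha : a = 0
  · by_cases hb : b = 0
    · obtain ⟨k, hk⟩ := Function.ne_iff.1 ((h0.resolve_left (not_not.2 ha)).resolve_left
        (not_not.2 hb))
      obtain ⟨g, hg⟩ := Module.forall_dual_apply_eq_zero_iff K (ρ k) |>.not.mpr hk |> not_forall.mp
      refine ⟨ρ k, fun f hf => ⟨(0, ⟨tens_spec f g k + tens_spec g f k, fun z z' => ?_⟩), ?_⟩⟩
      · simp only [tens_spec, LinearMap.add_apply, LinearMap.mk₂_apply]
        rw [add_comm, mul_comm (f z), mul_comm (g z)]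
      · funext t
        simp only [ownHom, AddMonoidHom.mk'_apply, ownChar, ha, hb, zero_dotProduct, zero_add, row,
          Vtx.T, tens_spec, LinearMap.add_apply, LinearMap.mk₂_apply, Pi.add_apply, Pi.smul_apply]
        rw [sum_eq_single k (fun k' _ hk' => by simp [hk']) (by simp)]
        simp [hf, K_ne_zero.1 hg]
    · obtain ⟨k, hk⟩ := Function.ne_iff.1 hb
      refine ⟨ρ k, fun f hf => ⟨(0, ⟨tens_spec f f k, fun z z' => ?_⟩), ?_⟩⟩
      · simp only [tens_spec, LinearMap.mk₂_apply]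
        rw [mul_comm]
      · funext t
        simp only [ownHom, AddMonoidHom.mk'_apply, ownChar, ha, zero_dotProduct, zero_add, row,
          Vtx.T, tens_spec, LinearMap.mk₂_apply, Pi.smul_apply]
        rw [sum_eq_single k (fun k' _ hk' => by simp [hk']) (by simp)]
        simp [hf, K_ne_zero.1 hk]
  · obtain ⟨k, hk⟩ := Function.ne_iff.1 ha
    obtain ⟨g, hg⟩ := ((U c).restrictScalars K).exists_leftInverse_of_injective
      (LinearMap.ker_eq_bot.2 (U_injective hc))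
    refine ⟨0, fun f _ => ⟨(((f.comp ((trunc e).restrictScalars K)).comp g).smulRight
      (Pi.single k 1), 0), ?_⟩⟩
    funext t
    have := LinearMap.congr_fun hg (ev (4 * e) t)
    simp only [LinearMap.comp_apply, LinearMap.restrictScalars_apply, U_ev, LinearMap.id_apply]
      at this
    simp [ownHom, ownChar, xi, row, vp, Vtx.u, Vtx.c, Vtx.T, this, K_ne_zero.1 hk]

theorem card_range_ownHom {c : Frame F e n} (hc : Surj c) (he : e ≤ Fintype.card F) (a b : GG h)
    (ρ : Ix h → Y F (3 * e)) (h0 : a ≠ 0 ∨ b ≠ 0 ∨ ρ ≠ 0) :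
    2 ^ e ≤ Nat.card (ownRange c a b ρ) * 2 := by
  classical
  obtain ⟨ρ₀, hρ₀⟩ := range_ownHom hc a b ρ h0
  obtain ⟨τ⟩ := Function.Embedding.nonempty_of_card_le (α := Fin e) (β := F) (by simpa using he)
  have hi : LinearIndependent K fun i => ev (3 * e) (τ i) :=
    (ev_linearIndependent τ τ.injective (by simp; omega)).restrict_scalars' K
  obtain ⟨g, hg⟩ := (Fintype.linearCombination K _).exists_leftInverse_of_injective
    (LinearMap.ker_eq_bot.2 (linearIndependent_iff_injective_fintypeLinearCombination.1 hi))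
  have hg' : ∀ i, g (ev (3 * e) (τ i)) = Pi.single i 1 := fun i => by
    simpa using LinearMap.congr_fun hg (Pi.single i 1)
  obtain ⟨g₀, hg₀⟩ : ∃ g₀ : Y F (3 * e) →ₗ[K] K, ∀ f : Y F (3 * e) →ₗ[K] K,
      (f + f ρ₀ • g₀) ρ₀ = 0 := by
    by_cases h1 : ρ₀ = 0
    · exact ⟨0, fun f => by simp [h1]⟩
    · obtain ⟨g₀, h2⟩ := Module.forall_dual_apply_eq_zero_iff K ρ₀ |>.not.mpr h1 |> not_forall.mp
      exact ⟨g₀, fun f => by simp [K_ne_zero.1 h2]⟩
  let fs : (Fin e → K) → Y F (3 * e) →ₗ[K] K := fun s => (dotProductBilin K K s).comp g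
  have hfs : ∀ s i, fs s (ev (3 * e) (τ i)) = s i := fun s i => by simp [fs, hg']
  have := Nat.card_le_card_of_injective (α := Fin e → K) (β := ownRange c a b ρ × K)
    (fun s => (⟨_, hρ₀ _ (hg₀ (fs s))⟩, fs s ρ₀)) fun s s' hss => by
      funext i
      have h1 := congrFun (congrArg Subtype.val (congrArg Prod.fst hss)) (τ i)
      have h2 : fs s ρ₀ = fs s' ρ₀ := congrArg Prod.snd hss
      simpa [hfs, h2] using h1
  simpa [Nat.card_prod] using this

/-- J10a: probability of the bad event, given the frame -/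
theorem notBad_prob (h r C : ℕ) (γ : ℝ) (hγ : 0 < γ) : ∀ᶠ κ : ℕ in atTop,
    ∀ (F : Type) [Field F] [Fintype F] [Algebra K F], Fintype.card F = 4 ^ κ →
    ∀ c : Frame F (κ ^ 2) (4 * κ ^ 2), Surj c → ∀ G : F → ℝ, (∀ t, |G t| ≤ 1) →
      𝔼 ut : UT F (κ ^ 2) (4 * κ ^ 2) h, ind (¬ NotBad r γ (c, ut) G) ≤
        1 / ((4 : ℝ) ^ κ) ^ C := by
  classical
  obtain ⟨N, hN⟩ := exists_nat_ge (4 / γ ^ 2)
  filter_upwards [weil_ev (γ ^ 2 / 2) (by positivity), eventually_ge_atTop (r + 1),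
    ev_lin_trim (2 * ((2 * r + 1) * (2 * h + 1) + C)) (2 * (2 * h + 1) + 2 * (N + 1) + 1) 1 one_pos]
    with κ hW hκ hlin F _ _ _ hq c hc G hG
  have hκ2 : κ ≤ κ ^ 2 := Nat.le_self_pow (by norm_num) κ
  have he : κ ^ 2 ≤ Fintype.card F := by
    rw [hq, show 4 ^ κ = (2 ^ κ) ^ 2 by rw [← pow_mul, mul_comm, pow_mul]; norm_num]
    exact Nat.pow_le_pow_left Nat.lt_two_pow_self.le 2
  set S : Finset (F → K) := univ.filter fun c => IsCode (4 * κ ^ 2) c ∧ Corr γ G c with hS
  have hSN : S.card ≤ N := by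
    have := (card_spec_le hγ (hW F hq) hG S fun c hc => (mem_filter.1 hc).2).trans hN
    exact_mod_cast this
  set L : Finset (Y F (3 * κ ^ 2)) := univ.biUnion fun w : Y F r =>
    univ.filter fun z => poly w ≠ 0 ∧ Low (3 * κ ^ 2) (poly w) z with hL
  have hLc : L.card ≤ (4 ^ κ) ^ (2 * r + 1) := by
    refine (card_biUnion_le_card_mul _ _ (2 ^ r) fun w _ => ?_).trans ?_
    · by_cases hw : poly w = 0
      · simp [hw]
      · have h1 := poly_natDegree_le w
        have h2 := ncard_low_le (M := 3 * κ ^ 2) hw (by omega)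
        rw [Nat.card_eq_fintype_card, Fintype.card_subtype] at h2
        simp only [ne_eq, hw, not_false_eq_true, true_and]
        exact h2.trans (Nat.pow_le_pow_right (by norm_num) h1)
    · rw [card_univ, Fintype.card_fun, Fintype.card_fin, hq, show 2 * r + 1 = r + 1 + r by ring,
        pow_add _ _ r]
      refine Nat.mul_le_mul_left _ (Nat.pow_le_pow_left ?_ r)
      calc 2 ≤ 4 ^ 1 := by norm_num
        _ ≤ 4 ^ κ := Nat.pow_le_pow_right (by norm_num) (by omega)
  set I : Finset ((GG h × GG h × (Ix h → Y F (3 * κ ^ 2))) × (F → K) × (F → K)) :=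
    ((univ ×ˢ univ ×ˢ Fintype.piFinset fun _ => L).filter fun z => z.1 ≠ 0 ∨ z.2.1 ≠ 0 ∨ z.2.2 ≠ 0) ×ˢ
      insert 0 S ×ˢ S with hI
  have key : ∀ ut : UT F (κ ^ 2) (4 * κ ^ 2) h, ind (¬ NotBad r γ (c, ut) G) ≤
      ∑ z ∈ I, ind (ownHom c z.1.1 z.1.2.1 z.1.2.2 ut = z.2.1 + z.2.2) := by
    intro ut
    by_cases hb : NotBad r γ (c, ut) G
    · rw [ind_neg (not_not.2 hb)]; exact sum_nonneg fun z _ => ind_nonneg _
    rw [ind_pos hb]
    simp only [NotBad, not_forall] at hb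
    obtain ⟨ω, h0, h1, a, b, ρ, h2, h3, h4⟩ := hb
    obtain ⟨σ, hσ, hσ', e⟩ : ∃ σ : (F → K) × (F → K), σ.1 ∈ insert 0 S ∧ σ.2 ∈ S ∧
        ownChar (c, ut) a b ρ = σ.1 + σ.2 := by
      by_cases h5 : Corr γ G (ownChar (c, ut) a b ρ)
      · exact ⟨(0, _), mem_insert_self _ _, mem_filter.2 ⟨mem_univ _, ownChar_isCode _ _ _ _, h5⟩,
          (zero_add _).symm⟩
      · simp only [h5, not_false_eq_true, true_and, not_forall, not_not] at h4
        obtain ⟨c', h6, h7, h8⟩ := h4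
        refine ⟨(c', _), mem_insert_of_mem (mem_filter.2 ⟨mem_univ _, h6, h7⟩),
          mem_filter.2 ⟨mem_univ _, h6.add_spec (ownChar_isCode _ _ _ _), h8⟩, ?_⟩
        rw [← add_assoc, add_self_K, zero_add]
    have hz : ((a, b, ρ), σ) ∈ I := by
      simp only [hI, mem_product, mem_filter, mem_univ, true_and, Fintype.mem_piFinset]
      refine ⟨⟨fun k => mem_biUnion.2 ⟨fun i => ω.coeff i, mem_univ _, ?_⟩, h3⟩, hσ, hσ'⟩
      rw [poly_of_natDegree_le h1]
      exact mem_filter.2 ⟨mem_univ _, h0, h2 k⟩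
    refine le_trans ?_ (single_le_sum (fun z _ => ind_nonneg _) hz)
    exact (ind_pos e).ge
  have hIc : I.card * 2 * (4 ^ κ) ^ C ≤ 2 ^ (κ ^ 2) := by
    have h1 : I.card ≤ 2 ^ (2 * h + 1) * (2 ^ (2 * h + 1) * ((4 ^ κ) ^ (2 * r + 1)) ^ (2 * h + 1)) *
        (2 ^ (N + 1) * 2 ^ (N + 1)) := by
      rw [hI, card_product, card_product]
      have h2 : N + 1 ≤ 2 ^ (N + 1) := Nat.lt_two_pow_self.le
      refine Nat.mul_le_mul ((card_filter_le _ _).trans ?_)
        (Nat.mul_le_mul ((card_insert_le _ _).trans (by omega)) (by omega))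
      rw [card_product, card_product, card_univ, card_GG, Fintype.card_piFinset, prod_const,
        card_univ, card_Ix]
      gcongr
    have h3 : 2 * ((2 * r + 1) * (2 * h + 1) + C) * κ + (2 * (2 * h + 1) + 2 * (N + 1) + 1) ≤
        κ ^ 2 := by
      rw [one_mul] at hlin
      exact_mod_cast hlin
    refine le_trans (Nat.mul_le_mul_right _ (Nat.mul_le_mul_right _ h1))
      (le_trans (le_of_eq ?_) (Nat.pow_le_pow_right (by norm_num) h3))
    rw [show (4 : ℕ) ^ κ = 2 ^ (2 * κ) by rw [pow_mul]; norm_num]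
    simp only [← pow_mul, ← pow_add, ← pow_succ]
    congr 1
    ring
  refine (expect_mono key).trans ?_
  rw [expect_sum_comm]
  refine (sum_le_card_nsmul _ _ (2 / 2 ^ (κ ^ 2)) fun z hz => ?_).trans ?_
  · refine (expect_ind_addHom_le (G := UT F (κ ^ 2) (4 * κ ^ 2) h) (H := F → K) _ _).trans ?_
    have h1 := card_range_ownHom hc he z.1.1 z.1.2.1 z.1.2.2 (mem_filter.1 (mem_product.1 hz).1).2
    have h2 : (2 : ℝ) ^ (κ ^ 2) ≤ Nat.card (ownRange c z.1.1 z.1.2.1 z.1.2.2) * 2 := by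
      exact_mod_cast h1
    have h3 : (0 : ℝ) < 2 ^ (κ ^ 2) := by positivity
    rw [div_le_div_iff₀ (by linarith) h3]
    linarith
  · rw [nsmul_eq_mul, ← mul_div_assoc, div_le_div_iff₀ (by positivity) (by positivity), one_mul]
    exact_mod_cast hIc

end Vale.Agent.P060
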