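import Vale.Agent.P060.Basic

namespace Vale.Agent.P060

open Finset Polynomial Filter
open scoped BigOperators

section SympAux
variable {h : ℕ}

/-- membership in the radical -/
def Rad (a : GG h) : Prop := ∀ b, BB a b = 0

theorem Rad.exists_eq {a : GG h} (ha : Rad a) : ∃ d : K, a + d • e0 = 0 :=
  ⟨a none, by rw [← eq_smul_e0 (BB_radical.mp ha), add_self_K]⟩

theorem rad_smul_e0 (k : K) : Rad (k • e0 : GG h) := fun b => by
  rw [BB_smul_left, BB_e0_left, mul_zero]

theorem BB_sum_left_sy {ι : Type} [Fintype ι] (c : ι → K) (w : ι → GG h) (x : GG h) :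
    BB (∑ i, c i • w i) x = ∑ i, c i * BB (w i) x := by
  classical
  induction (univ : Finset ι) using Finset.induction_on with
  | empty => simp
  | insert a s ha ih => rw [sum_insert ha, sum_insert ha, BB_add_left, BB_smul_left, ih]

/-- the linear system attached to a family of vectors -/
def sysL {ι : Type} (w : ι → GG h) : GG h →ₗ[K] (ι → K) where
  toFun x i := BB (w i) x
  map_add' x y := funext fun i => BB_add_right _ _ _
  map_smul' c x := funext fun i => BB_smul_right _ _ _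

theorem solvable_sy {ι : Type} [Fintype ι] (w : ι → GG h) (c : ι → K)
    (hc : ∀ a : ι → K, Rad (∑ i, a i • w i) → ∑ i, a i * c i = 0) :
    ∃ x, ∀ i, BB (w i) x = c i := by
  classical
  by_contra hn
  have hnot : c ∉ LinearMap.range (sysL w) := by
    rintro ⟨x, hx⟩
    exact hn ⟨x, fun i => congrFun hx i⟩
  obtain ⟨φ, hφ1, hφ2⟩ := Submodule.exists_le_ker_of_notMem hnot
  have hφ : ∀ y, φ y = ∑ i, φ (Pi.single i 1) * y i := by
    intro y
    conv_lhs => rw [← Finset.univ_sum_single y]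
    rw [map_sum]
    refine sum_congr rfl fun i _ => ?_
    rw [show (Pi.single i (y i) : ι → K) = y i • Pi.single i 1 by
      rw [← Pi.single_smul, smul_eq_mul, mul_one], map_smul, smul_eq_mul, mul_comm]
  refine hφ1 ?_
  rw [hφ]
  refine hc _ fun b => ?_
  have := hφ2 ⟨b, rfl⟩
  rw [LinearMap.mem_ker, hφ] at this
  rw [BB_sum_left_sy]
  exact this

theorem avoid_sy (hh : 4 ≤ h) (w : Fin 3 → GG h) (c : Fin 3 → K)
    (hc : ∀ a : Fin 3 → K, Rad (∑ i, a i • w i) → ∑ i, a i * c i = 0) (S : Finset (GG h))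
    (hS : S.card ≤ 16) : ∃ x, (∀ i, BB (w i) x = c i) ∧ x ∉ S := by
  classical
  obtain ⟨x₀, hx₀⟩ := solvable_sy w c hc
  by_contra hn
  push Not at hn
  have h1 : Nat.card (LinearMap.ker (sysL w)) ≤ S.card := by
    rw [← Fintype.card_coe S, ← Nat.card_eq_fintype_card]
    refine Nat.card_le_card_of_injective (fun k => ⟨x₀ + k, hn _ fun i => ?_⟩) fun k k' hk => ?_
    · have : BB (w i) k = 0 := congrFun k.2 i
      rw [BB_add_right, hx₀, this, add_zero]
    · exact Subtype.ext (add_left_cancel (congrArg Subtype.val hk))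
  have h2 := Submodule.card_eq_card_quotient_mul_card (LinearMap.ker (sysL w))
  have h3 : Nat.card (GG h ⧸ LinearMap.ker (sysL w)) ≤ 8 := by
    rw [Nat.card_congr (sysL w).quotKerEquivRange.toEquiv]
    refine (Nat.card_le_card_of_injective _ Subtype.val_injective).trans ?_
    simp
  rw [Nat.card_eq_fintype_card, card_GG] at h2
  have h4 : 2 ^ 9 ≤ 2 ^ (2 * h + 1) := Nat.pow_le_pow_right (by norm_num) (by omega)
  have h5 := Nat.mul_le_mul (h1.trans hS) h3
  omega

/-- transvection -/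
def transv (u : GG h) : GG h →ₗ[K] GG h where
  toFun x := x + BB x u • u
  map_add' x y := by rw [BB_add_left, add_smul]; abel
  map_smul' c x := by rw [BB_smul_left, smul_add, mul_smul]; rfl

theorem transv_apply (u x : GG h) : transv u x = x + BB x u • u := rfl

theorem transv_BB (u x y : GG h) : BB (transv u x) (transv u y) = BB x y := by
  simp only [transv_apply, BB_add_left, BB_add_right, BB_smul_left, BB_smul_right, BB_self,
    BB_comm u y]
  linear_combination (exp := 1) (BB x u * BB y u) * (K_add_self 1)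

/-- isometries of `BB` fixing `e0` -/
def IsoB (L : GG h →ₗ[K] GG h) : Prop := (∀ a b, BB (L a) (L b) = BB a b) ∧ L e0 = e0

theorem isoB_transv (u : GG h) : IsoB (transv u) :=
  ⟨transv_BB u, by simp [transv_apply]⟩

theorem IsoB.comp {L L' : GG h →ₗ[K] GG h} (hL : IsoB L) (hL' : IsoB L') : IsoB (L ∘ₗ L') :=
  ⟨fun a b => by rw [LinearMap.comp_apply, LinearMap.comp_apply, hL.1, hL'.1],
    by rw [LinearMap.comp_apply, hL'.2, hL.2]⟩

theorem IsoB.rad {L : GG h →ₗ[K] GG h} (hL : IsoB L) {a : GG h} (ha : Rad (L a)) : Rad a :=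
  fun b => by rw [← hL.1, ha]

theorem transv_move {a b : GG h} (hab : BB a b = 1) : transv (a + b) a = b := by
  rw [transv_apply, BB_add_right, BB_self, zero_add, hab, one_smul, ← add_assoc, add_self_K,
    zero_add]

theorem transv_fix {f a b : GG h} (hab : BB f a = BB f b) : transv (a + b) f = f := by
  rw [transv_apply, BB_add_right, hab, K_add_self, zero_smul, add_zero]

theorem witt_step {ι : Type} [Fintype ι] (f : ι → GG h) (a b : GG h)
    (hf : ∀ i, BB (f i) a = BB (f i) b) (ha : ∀ c : ι → K, ¬ Rad (∑ i, c i • f i + a))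
    (hb : ∀ c : ι → K, ¬ Rad (∑ i, c i • f i + b)) :
    ∃ L, IsoB L ∧ (∀ i, L (f i) = f i) ∧ L a = b := by
  rcases K_cases (BB a b) with h0 | h1
  · obtain ⟨c, hc⟩ := solvable_sy (ι := Option (Option ι))
      (fun o => o.elim b fun o' => o'.elim a f)
      (fun o => o.elim 1 fun o' => o'.elim 1 fun i => BB (f i) a) fun lam hl => by
        simp only [Fintype.sum_option, Option.elim] at hl ⊢
        have h2 := hl a
        rw [BB_add_left, BB_add_left, BB_smul_left, BB_smul_left, BB_self, BB_comm b, h0,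
          BB_sum_left_sy, mul_zero, mul_zero, zero_add, zero_add] at h2
        rw [h2, add_zero]
        rcases K_cases (lam none) with e1 | e1 <;> rcases K_cases (lam (some none)) with e2 | e2 <;>
          rw [e1, e2] at hl ⊢
        · simp
        · refine absurd ?_ (ha fun i => lam (some (some i)))
          rwa [zero_smul, zero_add, one_smul, add_comm] at hl
        · refine absurd ?_ (hb fun i => lam (some (some i)))
          rwa [zero_smul, zero_add, one_smul, add_comm] at hl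
        · simp
    have c1 : BB b c = 1 := hc none
    have c2 : BB a c = 1 := hc (some none)
    have c3 : ∀ i, BB (f i) c = BB (f i) a := fun i => hc (some (some i))
    refine ⟨transv (c + b) ∘ₗ transv (a + c), (isoB_transv _).comp (isoB_transv _), fun i => ?_, ?_⟩
    · rw [LinearMap.comp_apply, transv_fix (c3 i).symm, transv_fix (by rw [c3, hf])]
    · rw [LinearMap.comp_apply, transv_move c2, transv_move (by rw [BB_comm, c1])]
  · exact ⟨transv (a + b), isoB_transv _, fun i => transv_fix (hf i), transv_move h1⟩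

/-- independence of three vectors modulo the radical -/
def Ind3 (a₁ a₂ a₃ : GG h) : Prop :=
  ∀ x y z : K, Rad (x • a₁ + y • a₂ + z • a₃) → x = 0 ∧ y = 0 ∧ z = 0

theorem witt3 {a₁ a₂ a₃ b₁ b₂ b₃ : GG h} (ha : Ind3 a₁ a₂ a₃) (hb : Ind3 b₁ b₂ b₃)
    (h12 : BB a₁ a₂ = BB b₁ b₂) (h13 : BB a₁ a₃ = BB b₁ b₃) (h23 : BB a₂ a₃ = BB b₂ b₃) :
    ∃ L, IsoB L ∧ L a₁ = b₁ ∧ L a₂ = b₂ ∧ L a₃ = b₃ := by
  obtain ⟨L₁, i₁, -, e₁⟩ := witt_step (ι := Fin 0) ![] a₁ b₁ (fun i => i.elim0)
    (fun c hc => one_ne_zero (ha 1 0 0 (by simpa using hc)).1)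
    (fun c hc => one_ne_zero (hb 1 0 0 (by simpa using hc)).1)
  obtain ⟨L₂, i₂, f₂, e₂⟩ := witt_step (ι := Fin 1) ![b₁] (L₁ a₂) b₂
    (fun i => by
      fin_cases i
      change BB b₁ _ = BB b₁ b₂
      rw [← h12, ← i₁.1 a₁, e₁])
    (fun c hc => one_ne_zero (ha (c 0) 1 0 (i₁.rad (by simpa [e₁] using hc))).2.1)
    (fun c hc => one_ne_zero (hb (c 0) 1 0 (by simpa using hc)).2.1)
  have f₂' : L₂ b₁ = b₁ := f₂ 0
  have i₃ := i₂.comp i₁
  have g₁ : (L₂ ∘ₗ L₁) a₁ = b₁ := by rw [LinearMap.comp_apply, e₁, f₂']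
  have g₂ : (L₂ ∘ₗ L₁) a₂ = b₂ := e₂
  obtain ⟨L₃, i₄, f₃, e₃⟩ := witt_step (ι := Fin 2) ![b₁, b₂] ((L₂ ∘ₗ L₁) a₃) b₃
    (fun i => by
      fin_cases i
      · change BB b₁ _ = BB b₁ b₃
        rw [← h13, ← i₃.1 a₁, g₁]
      · change BB b₂ _ = BB b₂ b₃
        rw [← h23, ← i₃.1 a₂, g₂])
    (fun c hc => one_ne_zero (ha (c 0) (c 1) 1 (i₃.rad (by
      rw [map_add, map_add, map_smul, map_smul, map_smul, g₁, g₂, one_smul]
      simpa using hc))).2.2)
    (fun c hc => one_ne_zero (hb (c 0) (c 1) 1 (by simpa using hc)).2.2)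
  refine ⟨L₃ ∘ₗ L₂ ∘ₗ L₁, i₄.comp i₃, ?_, ?_, e₃⟩
  · rw [LinearMap.comp_apply, g₁]; exact f₃ 0
  · rw [LinearMap.comp_apply, g₂]; exact f₃ 1

theorem eq_of_chi_sy {a b : GG h} (k : K) (hab : a = b + k • e0) (hc : chi a = chi b) : a = b := by
  rw [hab, chi_add_smul_e0, add_eq_left] at hc
  rw [hab, hc, zero_smul, add_zero]

theorem iso_one {d π τ v o x om ρ : GG h} {s : K} (ha : Ind3 (d + τ) (π + τ) v)
    (hb : Ind3 (o + om) (x + om) ρ) (h12 : BB (d + τ) (π + τ) = BB (o + om) (x + om))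
    (h13 : BB (d + τ) v = BB (o + om) ρ) (h23 : BB (π + τ) v = BB (x + om) ρ)
    (c1 : chi om = chi τ + s) (c2 : chi o = chi d + s) (c3 : chi x = chi π + s)
    (c4 : chi (om + ρ) = chi (τ + v) + s) :
    ∃ g : (GG h →ₗ[K] GG h) × GG h, (∀ a, chi (g.1 a + g.2) = chi a + s) ∧ g.1 e0 = e0 ∧
      g.1 d + g.2 = o ∧ g.1 π + g.2 = x ∧ g.1 τ + g.2 = om ∧ g.1 v = ρ := by
  obtain ⟨L₀, ⟨hL, hLe⟩, e₁, e₂, e₃⟩ := witt3 ha hb h12 h13 h23
  let lam : GG h →ₗ[K] K :=
    { toFun := fun a => chi (L₀ a) + BB om (L₀ a) + chi a + BB τ a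
      map_add' := fun a b => by
        rw [map_add, chi_add, chi_add, hL, BB_add_right, BB_add_right]
        linear_combination (exp := 1) (BB a b) * (K_add_self 1)
      map_smul' := fun c a => by
        rcases K_cases c with rfl | rfl <;> simp }
  have hlam : ∀ a, lam a = chi (L₀ a) + BB om (L₀ a) + chi a + BB τ a := fun _ => rfl
  let L : GG h →ₗ[K] GG h := L₀ + lam.smulRight e0
  have hLa : ∀ a, L a = L₀ a + lam a • e0 := fun _ => rfl
  have hg : ∀ a, L a + (L τ + om) = L₀ (a + τ) + om + lam (a + τ) • e0 := fun a => by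
    rw [← add_assoc, ← map_add, hLa, add_right_comm]
  have hchi : ∀ a, chi (L a + (L τ + om)) = chi a + s := fun a => by
    rw [hg, chi_add_smul_e0, chi_add, hlam, c1, chi_add, BB_add_right τ, BB_self, BB_comm τ a,
      BB_comm om]
    linear_combination (exp := 1) (chi (L₀ (a + τ)) + BB (L₀ (a + τ)) om + chi τ + BB a τ) *
      (K_add_self 1)
  have hcan : ∀ a : GG h, a + om + om = a := fun a => by rw [add_assoc, add_self_K, add_zero]
  refine ⟨(L, L τ + om), hchi, ?_, ?_, ?_, ?_, ?_⟩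
  · change L e0 = e0
    rw [hLa, hlam, hLe]
    simp
  · exact eq_of_chi_sy _ (by rw [hg, e₁, hcan]) (by rw [hchi, c2])
  · exact eq_of_chi_sy _ (by rw [hg, e₂, hcan]) (by rw [hchi, c3])
  · change L τ + (L τ + om) = om
    rw [← add_assoc, add_self_K, zero_add]
  · have h1 : L (τ + v) + (L τ + om) = om + ρ := by
      refine eq_of_chi_sy (lam (τ + v + τ)) ?_ (by rw [hchi, c4])
      rw [hg, add_right_comm τ, add_self_K, zero_add, e₃, add_comm ρ]
    change L v = ρ
    rw [map_add, add_comm (L τ), add_assoc, ← add_assoc (L τ), add_self_K, zero_add,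
      add_comm] at h1
    exact add_left_cancel h1

theorem card_span3_sy (y a b : GG h) :
    ((univ : Finset (K × K × K)).image fun p => y + p.1 • a + p.2.1 • b + p.2.2 • e0).card ≤ 8 :=
  card_image_le.trans (by simp)

theorem symp_one (hh : 4 ≤ h) (d π τ v o x : Fin 2 → GG h) (s : Fin 2 → K)
    (gen : ∀ i, Ind3 (d i + τ i) (π i + τ i) (v i))
    (gen' : ∀ a b c : K, Rad (a • (o 0 + x 0) + b • (o 1 + x 1) + c • (x 0 + x 1)) →
      a = 0 ∧ b = 0)
    (sel : ∀ i, chi (τ i + v i) = chi (τ i)) (hP : ∀ i, BB (π i) (v i) + chi (v i) = 0)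
    (c1 : chi (τ 0) + s 0 = chi (τ 1) + s 1) (c2 : ∀ i, chi (o i) = chi (d i) + s i)
    (c3 : ∀ i, chi (x i) = chi (π i) + s i) :
    ∃ (om ρ : GG h) (g : Fin 2 → (GG h →ₗ[K] GG h) × GG h), ∀ i,
      (∀ a, chi ((g i).1 a + (g i).2) = chi a + s i) ∧ (g i).1 e0 = e0 ∧
      (g i).1 (d i) + (g i).2 = o i ∧ (g i).1 (π i) + (g i).2 = x i ∧
      (g i).1 (τ i) + (g i).2 = om ∧ (g i).1 (v i) = ρ := by
  classical
  obtain ⟨ρ, hρ, hρS⟩ := avoid_sy hh ![o 0 + x 0, o 1 + x 1, x 0 + x 1]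
    ![BB (d 0 + π 0) (v 0), BB (d 1 + π 1) (v 1), 0] (fun a ha => by
      obtain ⟨e1, e2⟩ := gen' (a 0) (a 1) (a 2) (by simpa [Fin.sum_univ_three] using ha)
      simp [Fin.sum_univ_three, e1, e2]) _
    ((card_span3_sy 0 (o 0 + x 0) (o 1 + x 1)).trans (by norm_num))
  have r0 : BB (o 0 + x 0) ρ = BB (d 0 + π 0) (v 0) := hρ 0
  have r1 : BB (o 1 + x 1) ρ = BB (d 1 + π 1) (v 1) := hρ 1
  have r2 : BB (x 0 + x 1) ρ = 0 := hρ 2
  have hind : Ind3 (o 0 + x 0) (o 1 + x 1) ρ := by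
    intro a b c hr
    rcases K_cases c with rfl | rfl
    · obtain ⟨e1, e2⟩ := gen' a b 0 (by simpa using hr)
      exact ⟨e1, e2, rfl⟩
    · obtain ⟨k, hk⟩ := hr.exists_eq
      refine absurd (mem_image.mpr ⟨(a, b, k), mem_univ _, ?_⟩) hρS
      rw [one_smul, add_right_comm] at hk
      rw [zero_add]
      exact add_eq_zero_K.mp hk
  obtain ⟨om, hom, homS⟩ := avoid_sy hh ![o 0 + x 0, o 1 + x 1, ρ]
    ![BB (o 0) (x 0) + BB (d 0 + τ 0) (π 0 + τ 0), BB (o 1) (x 1) + BB (d 1 + τ 1) (π 1 + τ 1),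
      BB ρ (x 0)] (fun a ha => by
      obtain ⟨e1, e2, e3⟩ := hind (a 0) (a 1) (a 2) (by simpa [Fin.sum_univ_three] using ha)
      simp [Fin.sum_univ_three, e1, e2, e3]) _
    ((card_union_le _ _).trans (add_le_add (card_span3_sy (x 0) (o 0 + x 0) ρ)
      (card_span3_sy (x 1) (o 1 + x 1) ρ)))
  have m0 : ∀ i, BB (o i + x i) om = BB (o i) (x i) + BB (d i + τ i) (π i + τ i) := fun i => by
    fin_cases i
    · exact hom 0
    · exact hom 1
  have m2 : ∀ i, BB ρ om = BB ρ (x i) := fun i => by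
    fin_cases i
    · exact hom 2
    · have e1 : BB ρ om = BB ρ (x 0) := hom 2
      rw [BB_comm, BB_add_right] at r2
      exact e1.trans (add_eq_zero_K.mp r2)
  have r01 : ∀ i, BB (o i + x i) ρ = BB (d i + π i) (v i) := fun i => by
    fin_cases i
    · exact r0
    · exact r1
  have hnot : ∀ i (a b k : K), x i + a • (o i + x i) + b • ρ + k • e0 ≠ om := by
    intro i a b k hk
    refine homS (mem_union.mpr ?_)
    fin_cases i
    · exact Or.inl (mem_image.mpr ⟨(a, b, k), mem_univ _, hk⟩)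
    · exact Or.inr (mem_image.mpr ⟨(a, b, k), mem_univ _, hk⟩)
  have hind2 : ∀ i (a b : K), Rad (a • (o i + x i) + b • ρ) → a = 0 ∧ b = 0 := by
    intro i a b hr
    fin_cases i
    · have := hind a 0 b (by simpa using hr)
      exact ⟨this.1, this.2.2⟩
    · have := hind 0 a b (by simpa using hr)
      exact ⟨this.2.1, this.2.2⟩
  obtain ⟨k, hk⟩ : ∃ k : K, chi (om + k • e0) = chi (τ 0) + s 0 :=
    ⟨chi om + (chi (τ 0) + s 0), by rw [chi_add_smul_e0, ← add_assoc, K_add_self, zero_add]⟩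
  obtain ⟨k', hk'⟩ : ∃ k' : K, chi (om + k • e0 + (ρ + k' • e0)) = chi (om + k • e0) :=
    ⟨chi (om + k • e0 + ρ) + chi (om + k • e0), by
      rw [← add_assoc, chi_add_smul_e0, ← add_assoc, K_add_self, zero_add]⟩
  have hk2 : ∀ i, chi (om + k • e0) = chi (τ i) + s i := fun i => by
    fin_cases i
    · exact hk
    · exact hk.trans c1
  refine ⟨om + k • e0, ρ + k' • e0, ?_⟩
  refine Classical.skolem.mp fun i => iso_one (gen i) (fun a b c hr => ?_) ?_ ?_ ?_ (hk2 i) (c2 i)
    (c3 i) (by rw [hk', hk2 i, sel])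
  · have hr' : Rad (a • (o i + x i) + c • ρ + (a + b) • (x i + om)) := fun y => by
      have := hr y
      simp only [BB_add_left, BB_smul_left, BB_e0_left] at this ⊢
      linear_combination (exp := 1) this + (a * BB (x i) y) * (K_add_self 1)
    rcases K_cases (a + b) with e1 | e1
    · rw [e1, zero_smul, add_zero] at hr'
      obtain ⟨e2, e3⟩ := hind2 i a c hr'
      rw [e2, zero_add] at e1
      exact ⟨e2, e1, e3⟩
    · obtain ⟨k₀, hk₀⟩ := hr'.exists_eq
      refine absurd (add_eq_zero_K.mp ?_) (hnot i a c k₀)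
      rw [← hk₀, e1, one_smul]
      abel
  · have := m0 i
    simp only [BB_add_left, BB_add_right, BB_smul_left, BB_smul_right, BB_e0_left, BB_e0_right,
      BB_self, BB_comm om (x i)] at this ⊢
    linear_combination (exp := 1) -this - (BB (o i) (x i)) * (K_add_self 1)
  · have e1 := r01 i
    have e2 := m2 i
    have e3 := sel i
    have e4 := hP i
    rw [chi_add] at e3
    simp only [BB_add_left, BB_add_right, BB_smul_left, BB_smul_right, BB_e0_left, BB_e0_right,
      BB_comm ρ] at e1 e2 ⊢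
    linear_combination (exp := 1) -e1 - e2 + e3 + e4 -
      (BB (π i) (v i) + chi (v i)) * (K_add_self 1)
  · have e2 := m2 i
    have e3 := sel i
    have e4 := hP i
    rw [chi_add] at e3
    simp only [BB_add_left, BB_add_right, BB_smul_left, BB_smul_right, BB_e0_left, BB_e0_right,
      BB_comm ρ] at e2 ⊢
    linear_combination (exp := 1) -e2 + e3 + e4 -
      (BB (x i) ρ + chi (v i)) * (K_add_self 1)

end SympAux

/-- J6 -/
theorem symp {h : ℕ} (hh : 4 ≤ h) (α α' : GD h) (gen : α.Gen) (gen' : α'.Gen) (sel : α.SelEq)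
    (half : α.bits.Half α'.bits) :
    ∃ g : Gs h,
      (∀ i j a, chi ((g (i, j)).1 a + (g (i, j)).2) = chi a + α.bits.shift α'.bits i j) ∧
      (∀ i j, (g (i, j)).1 e0 = e0 ∧ (g (i, j)).1 (α.d (i, j)) + (g (i, j)).2 = α'.o (j, i) ∧
        (g (i, j)).1 (α.π i) + (g (i, j)).2 = α'.x (j.rev, i)) ∧
      ∀ j, (g (0, j)).1 (α.τ (0, j)) + (g (0, j)).2 = (g (1, j)).1 (α.τ (1, j)) + (g (1, j)).2 ∧
        (g (0, j)).1 (α.v 0) = (g (1, j)).1 (α.v 1) := by
  choose om ρ g hg using fun j : Fin 2 => symp_one hh (fun i => α.d (i, j)) α.π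
    (fun i => α.τ (i, j)) α.v (fun i => α'.o (j, i)) (fun i => α'.x (j.rev, i))
    (fun i => α.bits.shift α'.bits i j)
    (fun i a b c hr => by
      obtain ⟨k, hk⟩ := hr.exists_eq
      obtain ⟨e1, e2, e3⟩ := gen.1 (i, j) b a c k (by rw [← hk]; abel)
      exact ⟨e2, e1, e3⟩)
    (fun a b c hr => by
      obtain ⟨k, hk⟩ := hr.exists_eq
      exact gen'.2 j a b c k hk)
    (fun i => sel (i, j)) half.2.2 (half.2.1 j)
    (fun i => by
      change _ = chi (α.d (i, j)) + (chi (α.d (i, j)) + chi (α'.o (j, i)))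
      rw [← add_assoc, K_add_self, zero_add])
    (fun i => half.1 i j)
  refine ⟨fun s => g s.2 s.1, fun i j => (hg j i).1, fun i j =>
    ⟨(hg j i).2.1, (hg j i).2.2.1, (hg j i).2.2.2.1⟩, fun j => ⟨?_, ?_⟩⟩
  · exact (hg j 0).2.2.2.2.1.trans (hg j 1).2.2.2.2.1.symm
  · exact (hg j 0).2.2.2.2.2.trans (hg j 1).2.2.2.2.2.symm

end Vale.Agent.P060
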