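import Vale.Agent.P060.Basic

/-!
# P060: the curve `y ^ 2 + y = f(x)` and the Bombieri-Stepanov auxiliary function
-/

namespace Vale.Agent.P060

open Finset Polynomial Filter
open scoped BigOperators

section Curve

variable {F : Type} [Field F]

/-- coordinate ring of the affine curve -/
abbrev CR (f : F[X]) := QuadraticAlgebra F[X] f 1

/-- pole order at infinity -/
noncomputable def pv {f : F[X]} (z : CR f) : ℕ := (QuadraticAlgebra.norm z).natDegree

/-- functions with pole order below `N` -/
def PLt (f : F[X]) (N : ℕ) : Submodule F (CR f) where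
  carrier := {z | (∀ n, z.re.coeff n ≠ 0 → 2 * n < N) ∧
    (∀ n, z.im.coeff n ≠ 0 → 2 * n + f.natDegree < N)}
  zero_mem' := by simp
  add_mem' := by
    rintro z w ⟨h1, h2⟩ ⟨h3, h4⟩
    constructor
    · intro n hn
      by_cases h : z.re.coeff n = 0
      · apply h3; simpa [h] using hn
      · exact h1 n h
    · intro n hn
      by_cases h : z.im.coeff n = 0
      · apply h4; simpa [h] using hn
      · exact h2 n h
  smul_mem' := by
    rintro c z ⟨h1, h2⟩
    constructor
    · intro n hn
      apply h1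
      intro h; apply hn; simp [h]
    · intro n hn
      apply h2
      intro h; apply hn; simp [h]

theorem coeff_lt_iff (p : F[X]) (hp : p ≠ 0) (c N : ℕ) :
    (∀ n, p.coeff n ≠ 0 → 2 * n + c < N) ↔ 2 * p.natDegree + c < N := by
  constructor
  · intro h
    exact h _ (leadingCoeff_ne_zero.mpr hp)
  · intro h n hn
    have := le_natDegree_of_ne_zero hn
    omega

theorem norm_eq {f : F[X]} (z : CR f) :
    QuadraticAlgebra.norm z = z.re * z.re + z.re * z.im - f * z.im * z.im := by
  rw [QuadraticAlgebra.norm_def]; ring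

theorem pv_key {f : F[X]} (hd : Odd f.natDegree) (z : CR f) (hz : z ≠ 0) :
    QuadraticAlgebra.norm z ≠ 0 ∧ ∀ N, z ∈ PLt f N ↔ pv z < N := by
  have hf : f ≠ 0 := by
    rintro rfl
    simp at hd
  have hmem : ∀ N, z ∈ PLt f N ↔ (∀ n, z.re.coeff n ≠ 0 → 2 * n + 0 < N) ∧
    (∀ n, z.im.coeff n ≠ 0 → 2 * n + f.natDegree < N) := fun N => Iff.rfl
  obtain ⟨g, hg⟩ := hd
  unfold pv
  rw [norm_eq]
  by_cases hs : z.im = 0
  · have hr : z.re ≠ 0 := by
      intro hr; apply hz; ext1 <;> simp [hr, hs]
    refine ⟨by simp [hs, hr], fun N => ?_⟩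
    rw [hmem, coeff_lt_iff _ hr]
    simp [hs, natDegree_mul hr hr, two_mul]
  have h3 : (f * z.im * z.im).natDegree = 2 * z.im.natDegree + f.natDegree := by
    rw [natDegree_mul (mul_ne_zero hf hs) hs, natDegree_mul hf hs]; ring
  by_cases hr : z.re = 0
  · refine ⟨by simp [hs, hr, hf], fun N => ?_⟩
    rw [hmem, coeff_lt_iff _ hs]
    simp [hr, h3]
  have h1 : (z.re * z.re).natDegree = 2 * z.re.natDegree := by
    rw [natDegree_mul hr hr]; ring
  have h2 : (z.re * z.im).natDegree = z.re.natDegree + z.im.natDegree := natDegree_mul hr hs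
  have key : (z.re * z.re + z.re * z.im - f * z.im * z.im).natDegree =
      max (2 * z.re.natDegree) (2 * z.im.natDegree + f.natDegree) := by
    rcases lt_or_gt_of_ne (show 2 * z.re.natDegree ≠ 2 * z.im.natDegree + f.natDegree by omega)
      with h | h
    · rw [natDegree_sub_eq_right_of_natDegree_lt, h3, max_eq_right h.le]
      refine lt_of_le_of_lt (natDegree_add_le _ _) ?_
      rw [h1, h2, h3, max_lt_iff]
      omega
    · rw [add_sub_assoc, natDegree_add_eq_left_of_natDegree_lt, h1, max_eq_left h.le]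
      refine lt_of_le_of_lt (natDegree_sub_le _ _) ?_
      rw [h1, h2, h3, max_lt_iff]
      omega
  refine ⟨?_, fun N => ?_⟩
  · intro h0
    rw [h0, natDegree_zero] at key
    have := le_max_right (2 * z.re.natDegree) (2 * z.im.natDegree + f.natDegree)
    omega
  · rw [hmem, coeff_lt_iff _ hs, coeff_lt_iff _ hr, key, max_lt_iff, add_zero]

theorem ne_zero_of_norm {f : F[X]} {z : CR f} (h : QuadraticAlgebra.norm z ≠ 0) : z ≠ 0 := by
  rintro rfl
  exact h QuadraticAlgebra.norm_zero

theorem pv_mul {f : F[X]} (hd : Odd f.natDegree) {z w : CR f} (hz : z ≠ 0) (hw : w ≠ 0) :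
    z * w ≠ 0 ∧ pv (z * w) = pv z + pv w := by
  have h1 := (pv_key hd z hz).1
  have h2 := (pv_key hd w hw).1
  refine ⟨ne_zero_of_norm (by rw [map_mul]; exact mul_ne_zero h1 h2), ?_⟩
  unfold pv
  rw [map_mul, natDegree_mul h1 h2]

theorem pv_pow {f : F[X]} (hd : Odd f.natDegree) {z : CR f} (hz : z ≠ 0) (k : ℕ) :
    z ^ k ≠ 0 ∧ pv (z ^ k) = k * pv z := by
  have h1 := (pv_key hd z hz).1
  refine ⟨ne_zero_of_norm (by rw [map_pow]; exact pow_ne_zero _ h1), ?_⟩
  unfold pv
  rw [map_pow, natDegree_pow]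

/-- elements with distinct pole orders are linearly independent -/
theorem sum_ne_zero_of_pv {f : F[X]} (hd : Odd f.natDegree) {ι : Type} [Fintype ι]
    (w : ι → CR f) (hw : ∀ i, w i ≠ 0) (hinj : Function.Injective fun i => pv (w i))
    (a : ι → F) (ha : a ≠ 0) : ∑ i, a i • w i ≠ 0 := by
  classical
  have hne : (univ.filter fun i => a i ≠ 0).Nonempty := by
    obtain ⟨i, hi⟩ := Function.ne_iff.mp ha
    exact ⟨i, by simpa using hi⟩
  obtain ⟨k, hk, hmax⟩ := exists_max_image _ (fun i => pv (w i)) hne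
  have hk' : a k ≠ 0 := by simpa using hk
  intro h0
  rw [← add_sum_erase _ _ (mem_univ k)] at h0
  have hmem : ∑ i ∈ univ.erase k, a i • w i ∈ PLt f (pv (w k)) := by
    refine Submodule.sum_mem _ fun i hi => ?_
    by_cases hai : a i = 0
    · simp [hai]
    refine Submodule.smul_mem _ _ ?_
    rw [(pv_key hd _ (hw i)).2]
    refine lt_of_le_of_ne (hmax i (by simpa using hai)) fun h => ?_
    exact (ne_of_mem_erase hi) (hinj h)
  have : w k ∈ PLt f (pv (w k)) := by
    have e : w k = (-(a k)⁻¹) • ∑ i ∈ univ.erase k, a i • w i := by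
      rw [← neg_eq_of_add_eq_zero_right h0, smul_neg, neg_smul, neg_neg, smul_smul,
        inv_mul_cancel₀ hk', one_smul]
    rw [e]
    refine Submodule.smul_mem _ _ ?_
    rw [← e]
    exact hmem
  exact lt_irrefl _ (((pv_key hd _ (hw k)).2 _).mp this)

/-- basis functions `x ^ i y ^ s` -/
noncomputable def bf (f : F[X]) (s : Bool) (i : ℕ) : CR f :=
  if s then ⟨0, X ^ i⟩ else ⟨X ^ i, 0⟩

theorem bf_spec {f : F[X]} (hd : Odd f.natDegree) (s : Bool) (i : ℕ) :
    bf f s i ≠ 0 ∧ pv (bf f s i) = 2 * i + if s then f.natDegree else 0 := by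
  have hf : f ≠ 0 := by
    rintro rfl
    simp at hd
  have hX : (X ^ i : F[X]) ≠ 0 := pow_ne_zero _ X_ne_zero
  cases s
  · refine ⟨fun h => hX (by simpa [bf] using congrArg QuadraticAlgebra.re h), ?_⟩
    unfold pv
    rw [norm_eq]
    simp [bf, natDegree_mul hX hX, two_mul]
  · refine ⟨fun h => hX (by simpa [bf] using congrArg QuadraticAlgebra.im h), ?_⟩
    unfold pv
    rw [norm_eq]
    simp only [bf, if_true, mul_zero, zero_mul, add_zero, zero_sub, natDegree_neg]
    rw [natDegree_mul (mul_ne_zero hf hX) hX, natDegree_mul hf hX, natDegree_X_pow]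
    ring

/-- evaluation at a point of the curve -/
noncomputable def evP (f : F[X]) (x y : F) (h : y * y = f.eval x + y) : CR f →+* F where
  toFun z := z.re.eval x + z.im.eval x * y
  map_one' := by simp [QuadraticAlgebra.re_one, QuadraticAlgebra.im_one]
  map_zero' := by simp
  map_add' z w := by simp; ring
  map_mul' z w := by
    simp only [QuadraticAlgebra.re_mul, QuadraticAlgebra.im_mul, eval_add, eval_mul, eval_one]
    linear_combination (-(z.im.eval x * w.im.eval x)) * h

theorem evP_apply (f : F[X]) (x y : F) (h : y * y = f.eval x + y) (z : CR f) :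
    evP f x y h z = z.re.eval x + z.im.eval x * y := rfl

theorem evP_smul (f : F[X]) (x y : F) (h : y * y = f.eval x + y) (c : F) (z : CR f) :
    evP f x y h (c • z) = c * evP f x y h z := by
  simp [evP_apply]; ring

/-- a linear relation among many functions of bounded pole order -/
theorem exists_relation {f : F[X]} {ι : Type} [Fintype ι] (w : ι → CR f) (A : ℕ)
    (hw : ∀ i, w i ∈ PLt f (2 * A)) (hcard : 2 * A < Fintype.card ι) :
    ∃ a : ι → F, a ≠ 0 ∧ ∑ i, a i • w i = 0 := by
  classical
  let L : (ι → F) →ₗ[F] (Fin A → F) × (Fin A → F) :=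
    { toFun := fun a => (fun n => (∑ i, a i • w i).re.coeff n, fun n => (∑ i, a i • w i).im.coeff n)
      map_add' := fun a b => by
        ext n <;> simp [add_smul, sum_add_distrib]
      map_smul' := fun c a => by
        ext n <;> simp [mul_smul, ← smul_sum] }
  have hk : LinearMap.ker L ≠ ⊥ := by
    apply LinearMap.ker_ne_bot_of_finrank_lt
    simp [Module.finrank_prod]
    omega
  obtain ⟨a, ha, ha0⟩ := (Submodule.ne_bot_iff _).mp hk
  refine ⟨a, ha0, ?_⟩
  have hmem : ∑ i, a i • w i ∈ PLt f (2 * A) :=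
    Submodule.sum_mem _ fun i _ => Submodule.smul_mem _ _ (hw i)
  have hL : L a = 0 := ha
  ext n
  · by_contra hn
    have h1 := hmem.1 n (by simpa using hn)
    exact hn (by simpa [L] using congrFun (congrArg Prod.fst hL) ⟨n, by omega⟩)
  · by_contra hn
    have h1 := hmem.2 n (by simpa using hn)
    exact hn (by simpa [L] using congrFun (congrArg Prod.snd hL) ⟨n, by omega⟩)

end Curve

end Vale.Agent.P060
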